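import Vale.Agent.P240.H138.Chain

/-!
Computations with integral `27 × 27` matrices.
-/

set_option autoImplicit false

namespace Vale.Agent.P240.H138

open Matrix

lemma step4 : TM ![1, w2M, w2M] ![1, w2Mᵀ, w2Mᵀ] * NT ![0, 1, 1] =
    NT ![0, 2, 2] * TM ![1, w2M, w2M] ![1, w2Mᵀ, w2Mᵀ] := by decide +kernel

lemma step5 : n4M * NT ![0, 2, 2] = NS 0 0 2 * n4M := by decide +kernel

lemma step6 : TM ![w3M, 1, 1] ![w3Mᵀ, 1, 1] * NS 0 0 2 =
    NS 0 0 1 * TM ![w3M, 1, 1] ![w3Mᵀ, 1, 1] := by decide +kernel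

end Vale.Agent.P240.H138
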