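import Vale.Agent.P240.H138.Chain
import Mathlib.Tactic.NoncommRing

/-!
Computations with integral `27 × 27` matrices.
-/

set_option autoImplicit false

namespace Vale.Agent.P240.H138

open Matrix

lemma N6_sq : ∀ i, N6 i * N6 i = 0 := by decide +kernel

lemma NS001_sq : NS 0 0 1 * NS 0 0 1 = 0 := by decide +kernel

/-- projections -/
def P4a : Matrix I I ℤ := fun p q =>
  if p = q ∧ p.2.1 = 2 ∧ p.2.2 ≠ 2 then 1 else 0

/-- projections -/
def P4b : Matrix I I ℤ := fun p q =>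
  if p = q ∧ p.2.1 ≠ 2 ∧ p.2.2 = 2 then 1 else 0

lemma n4a : N4 * N4ᵀ = P4a := by decide +kernel

lemma n4b : N4ᵀ * N4 = P4b := by decide +kernel

lemma n4c : P4a * N4 = N4 := by decide +kernel

lemma n4d : n4M = 1 + N4 - N4ᵀ - P4a - P4b := by decide +kernel

/-- the matrix `n_4(1)` -/
lemma n4M_eq : n4M = (1 + N4) * (1 - N4ᵀ) * (1 + N4) := by
  have h := N6_sq 3
  change N4 * N4 = 0 at h
  have h1 : (1 + N4) * (1 - N4ᵀ) * (1 + N4) =
      1 + 2 • N4 - N4ᵀ + N4 * N4 - N4 * N4ᵀ - N4ᵀ * N4 - N4 * N4ᵀ * N4 := by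
    noncomm_ring
  rw [h1, h, n4a, n4b, n4c, n4d]
  abel

/-- the graph automorphism -/
def rho (p : I) : I := (2 - p.1, p.2.2, p.2.1)

lemma rho_rho : ∀ p, rho (rho p) = p := by decide

/-- the permutation of the simple roots -/
def fl : Fin 6 → Fin 6 := ![5, 1, 4, 3, 2, 0]

lemma N6_graph : ∀ i, N6 (fl i) = -((N6 i)ᵀ.submatrix rho rho) := by decide +kernel

end Vale.Agent.P240.H138
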