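import Mathlib.LinearAlgebra.Matrix.GeneralLinearGroup.Defs

/-!
The `27`-dimensional module of the groups of type `E₆`: triples `(A, B, C)` of `3 × 3` matrices.
-/

set_option autoImplicit false

namespace Vale.Agent.P240.H138

open Matrix

/-- the positions `(c, i, j)` in triples of `3 × 3` matrices -/
abbrev I := Fin 3 × Fin 3 × Fin 3

/-- The root elements of the factors of `SL_3 × SL_3 × SL_3`, where `(x, y, z)` maps `(A, B, C)` to
`(x A y⁻¹, y B z⁻¹, z C x⁻¹)`. -/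
def NS (f a b : Fin 3) : Matrix I I ℤ := fun p q =>
  if p.1 = f ∧ q.1 = f ∧ p.2.1 = a ∧ q.2.1 = b ∧ p.2.2 = q.2.2 then 1
  else if p.1 = f + 2 ∧ q.1 = f + 2 ∧ p.2.1 = q.2.1 ∧ p.2.2 = b ∧ q.2.2 = a then -1 else 0

/-- The map `(A, B, C) ↦ (e (e × B e)ᵀ, e (e × C e)ᵀ, e (e × A e)ᵀ)`, `e = (0, 0, 1)`. -/
def N4 : Matrix I I ℤ := fun p q =>
  if q.1 = p.1 + 1 ∧ p.2.1 = 2 ∧ q.2.2 = 2 then
    if p.2.2 = 1 ∧ q.2.1 = 0 then 1 else if p.2.2 = 0 ∧ q.2.1 = 1 then -1 else 0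
  else 0

/-- the nilpotent matrices of the simple roots -/
def N6 : Fin 6 → Matrix I I ℤ := ![NS 1 0 1, NS 0 1 2, NS 1 1 2, N4, NS 2 1 2, NS 2 0 1]

section
variable (F : Type*) [Field F]

/-- the nilpotent matrices over `F` -/
def NF (i : Fin 6) : Matrix I I F := (N6 i).map (Int.cast : ℤ → F)

/-- the matrices `1 + t N_i` and `1 + t N_iᵀ` generate the group -/
def G27 : Subgroup (GL I F) :=
  Subgroup.closure {g | ∃ (i : Fin 6) (t : F), g.1 = 1 + t • NF F i ∨ g.1 = 1 + t • (NF F i)ᵀ}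

end

end Vale.Agent.P240.H138
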