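import Mathlib.LinearAlgebra.Matrix.GeneralLinearGroup.Defs
import Mathlib.Tactic.FinCases
import Mathlib.Tactic.Ring
import Vale.Agent.P240.H138.MDefs

/-!
The action of `GL_3 × GL_3 × GL_3` on triples of `3 × 3` matrices.
-/

set_option autoImplicit false

namespace Vale.Agent.P240.H138

open Matrix

section
variable {F : Type*} [CommRing F]

/-- `(x, y, z)` maps `(A, B, C)` to `(x A y', y B z', z C x')` -/
def TM (g g' : Fin 3 → Matrix (Fin 3) (Fin 3) F) : Matrix I I F := fun p q =>
  if p.1 = q.1 then g p.1 p.2.1 q.2.1 * g' (p.1 + 1) q.2.2 p.2.2 else 0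

lemma TM_mulVec (g g' : Fin 3 → Matrix (Fin 3) (Fin 3) F) (v : I → F) (c i j : Fin 3) :
    (TM g g' *ᵥ v) (c, i, j) = ∑ k, ∑ l, g c i k * v (c, k, l) * g' (c + 1) l j := by
  rw [mulVec, dotProduct, Fintype.sum_prod_type, Finset.sum_eq_single c]
  · rw [Fintype.sum_prod_type]
    refine Finset.sum_congr rfl fun k _ => Finset.sum_congr rfl fun l _ => ?_
    simp only [TM, if_true]
    ring
  · intro b _ hb
    rw [Fintype.sum_prod_type]
    refine Finset.sum_eq_zero fun k _ => Finset.sum_eq_zero fun l _ => ?_
    simp only [TM, if_neg hb.symm, zero_mul]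
  · intro h
    exact absurd (Finset.mem_univ c) h

lemma TM_mul (g g' h h' : Fin 3 → Matrix (Fin 3) (Fin 3) F) :
    TM g g' * TM h h' = TM (fun c => g c * h c) (fun c => h' c * g' c) := by
  apply mulVec_injective
  funext v
  rw [← mulVec_mulVec]
  ext ⟨c, i, j⟩
  rw [TM_mulVec, TM_mulVec]
  simp only [TM_mulVec, mul_apply, Finset.sum_mul, Finset.mul_sum]
  rw [Finset.sum_congr rfl fun k _ => Finset.sum_comm]
  rw [Finset.sum_comm]
  refine Finset.sum_congr rfl fun m _ => ?_
  simp only [Fin.sum_univ_three]
  ring

lemma TM_one : TM (fun _ => (1 : Matrix (Fin 3) (Fin 3) F)) (fun _ => 1) = 1 := by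
  apply mulVec_injective
  funext v
  ext ⟨c, i, j⟩
  rw [TM_mulVec, one_mulVec]
  simp [one_apply, Finset.sum_ite_eq]

/-- the homomorphism -/
def T : (Fin 3 → GL (Fin 3) F) →* GL I F where
  toFun g := ⟨TM (fun c => (g c).1) (fun c => (g c)⁻¹.1), TM (fun c => (g c)⁻¹.1) (fun c => (g c).1),
    by
      rw [TM_mul]
      convert TM_one using 2
      · funext c; exact (g c).mul_inv
      · funext c; exact (g c).mul_inv, by
      rw [TM_mul]
      convert TM_one using 2
      · funext c; exact (g c).inv_mul
      · funext c; exact (g c).inv_mul⟩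
  map_one' := by
    apply Units.ext
    change TM (fun _ => 1) (fun _ => (1 : GL (Fin 3) F)⁻¹.1) = 1
    rw [inv_one]
    exact TM_one
  map_mul' g h := by
    apply Units.ext
    rw [Units.val_mul]
    simp only [TM_mul, Pi.mul_apply, _root_.mul_inv_rev, Units.val_mul]

lemma T_val (g : Fin 3 → GL (Fin 3) F) : (T g).1 = TM (fun c => (g c).1) (fun c => (g c)⁻¹.1) := rfl

/-- elementary matrices -/
def el (a b : Fin 3) (hab : a ≠ b) (t : F) : GL (Fin 3) F where
  val := transvection a b t
  inv := transvection a b (-t)
  val_inv := by rw [transvection_mul_transvection_same _ _ hab, add_neg_cancel, transvection_zero]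
  inv_val := by rw [transvection_mul_transvection_same _ _ hab, neg_add_cancel, transvection_zero]

lemma f2_ne : ∀ f : Fin 3, f + 2 ≠ f := by decide

lemma f21 : ∀ f : Fin 3, f + 2 + 1 = f := by decide

lemma fadd : ∀ f c : Fin 3, c + 1 = f → c = f + 2 := by decide

/-- an elementary matrix in the factor `f` -/
lemma T_el (f a b : Fin 3) (hab : a ≠ b) (t : F) :
    (T (Function.update 1 f (el a b hab t))).1 = 1 + t • (NS f a b).map (Int.cast : ℤ → F) := by
  have hba := hab.symm
  ext ⟨c, i, j⟩ ⟨d, k, l⟩
  rw [T_val]
  simp only [TM, Matrix.add_apply, Matrix.smul_apply, Matrix.map_apply, NS, one_apply,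
    Prod.mk.injEq, smul_eq_mul]
  by_cases hcd : c = d
  · subst hcd
    rw [if_pos rfl]
    by_cases hcf : c = f
    · subst hcf
      have h1 : c ≠ c + 2 := (f2_ne c).symm
      have h2 : c + 1 ≠ c := by revert c; decide
      simp only [Function.update_self, Function.update_of_ne h2, Pi.one_apply, inv_one, Units.val_one,
        one_apply, true_and, h1, false_and, if_false, el]
      rw [transvection]
      simp only [Matrix.add_apply, Matrix.one_apply, Matrix.single_apply]
      by_cases h3 : j = l
      · subst h3
        by_cases h4 : i = a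
        · subst h4
          by_cases h5 : k = b
          · subst h5
            simp
          · simp [h5, Ne.symm h5]
        · simp [h4, Ne.symm h4]
      · simp [h3, Ne.symm h3]
    · by_cases hcf2 : c + 1 = f
      · have hc := fadd f c hcf2
        subst hc
        simp only [Function.update_of_ne hcf, Pi.one_apply, Units.val_one, one_apply, hcf, false_and,
          if_false, true_and, f21, Function.update_self]
        change (if i = k then (1 : F) else 0) * (transvection a b (-t)) l j = _
        rw [transvection]
        simp only [Matrix.add_apply, Matrix.one_apply, Matrix.single_apply]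
        by_cases h3 : i = k
        · subst h3
          by_cases h4 : l = a
          · subst h4
            by_cases h5 : j = b
            · subst h5
              simp [hab, hba]
            · simp [h5, Ne.symm h5, eq_comm]
          · simp [h4, Ne.symm h4, eq_comm]
        · simp [h3]
      · have hc : c ≠ f + 2 := fun h => hcf2 (by rw [h, f21])
        simp only [Function.update_of_ne hcf, Function.update_of_ne hcf2, Pi.one_apply, inv_one,
          Units.val_one, one_apply, hcf, hc, false_and, if_false, true_and, Int.cast_zero, mul_zero,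
          add_zero]
        by_cases h3 : i = k
        · by_cases h4 : j = l
          · simp [h3, h4]
          · simp [h3, h4, Ne.symm h4]
        · simp [h3]
  · have h1 : ¬ (c = f ∧ d = f ∧ i = a ∧ k = b ∧ j = l) := fun h => hcd (h.1.trans h.2.1.symm)
    have h2 : ¬ (c = f + 2 ∧ d = f + 2 ∧ i = k ∧ j = b ∧ l = a) :=
      fun h => hcd (h.1.trans h.2.1.symm)
    rw [if_neg hcd, if_neg (fun h => hcd h.1), if_neg h1, if_neg h2]
    simp

end

end Vale.Agent.P240.H138
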