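import Mathlib.LinearAlgebra.Matrix.Trace
import Mathlib.Tactic.LinearCombination
import Vale.Agent.P240.H138.TT

/-!
The cubic form `det A + det B + det C - tr (A B C)`.
-/

set_option autoImplicit false

namespace Vale.Agent.P240.H138

open Matrix

section
variable {F : Type*} [Field F]

lemma fadd' : ∀ b c : Fin 3, c = b + 1 → b = c + 2 := by decide

/-- the matrices of a triple -/
def blk (v : I → F) (c : Fin 3) : Matrix (Fin 3) (Fin 3) F := fun i j => v (c, i, j)

/-- the cubic form -/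
def Nf (v : I → F) : F := (blk v 0).det + (blk v 1).det + (blk v 2).det -
  (blk v 0 * blk v 1 * blk v 2).trace

lemma blk_TM (g g' : Fin 3 → Matrix (Fin 3) (Fin 3) F) (v : I → F) (c : Fin 3) :
    blk (TM g g' *ᵥ v) c = g c * blk v c * g' (c + 1) := by
  ext i j
  rw [blk, TM_mulVec]
  simp only [mul_apply, Finset.sum_mul, blk]
  rw [Finset.sum_comm]

lemma Nf_TM (g g' : Fin 3 → Matrix (Fin 3) (Fin 3) F) (h : ∀ c, g c * g' c = 1)
    (hd : ∀ c, (g c).det = 1) (v : I → F) : Nf (TM g g' *ᵥ v) = Nf v := by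
  have hd' : ∀ c, (g' c).det = 1 := by
    intro c
    have h1 := congrArg Matrix.det (h c)
    rwa [det_mul, hd, one_mul, det_one] at h1
  have h' : ∀ c, g' c * g c = 1 := fun c => mul_eq_one_comm.1 (h c)
  rw [Nf, Nf]
  simp only [blk_TM, det_mul, hd, hd', one_mul, mul_one]
  congr 1
  have e1 : g 0 * blk v 0 * g' (0 + 1) * (g 1 * blk v 1 * g' (1 + 1)) *
      (g 2 * blk v 2 * g' (2 + 1)) = g 0 * (blk v 0 * blk v 1 * blk v 2 * g' 0) := by
    have e2 : g' (0 + 1) * (g 1) = 1 := h' 1
    have e3 : g' (1 + 1) * (g 2) = 1 := h' 2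
    calc _ = g 0 * blk v 0 * (g' (0 + 1) * g 1) * blk v 1 * (g' (1 + 1) * g 2) * blk v 2 *
        g' (2 + 1) := by simp only [Matrix.mul_assoc]
      _ = _ := by
        rw [e2, e3]
        simp only [Matrix.mul_assoc, Matrix.mul_one]
        rfl
  rw [e1, trace_mul_comm, Matrix.mul_assoc _ (g' 0), h' 0, Matrix.mul_one]

lemma N4_mulVec (v : I → F) (c i j : Fin 3) : ((N4.map (Int.cast : ℤ → F)) *ᵥ v) (c, i, j) =
    if i = 2 then (if j = 1 then v (c + 1, 0, 2) else if j = 0 then - v (c + 1, 1, 2) else 0)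
    else 0 := by
  rw [mulVec, dotProduct, Fintype.sum_prod_type, Finset.sum_eq_single (c + 1)]
  · rw [Fintype.sum_prod_type]
    by_cases h1 : i = 2
    · by_cases h2 : j = 1
      · simp [N4, h1, h2, Fin.sum_univ_three]
      · by_cases h3 : j = 0
        · simp [N4, h1, h3, Fin.sum_univ_three]
        · simp [N4, h1, h2, h3]
    · simp [N4, h1]
  · intro b _ hb
    rw [Fintype.sum_prod_type]
    refine Finset.sum_eq_zero fun k _ => Finset.sum_eq_zero fun l _ => ?_
    simp [N4, hb]
  · intro h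
    exact absurd (Finset.mem_univ _) h

lemma N4T_mulVec (v : I → F) (c i j : Fin 3) : ((N4.map (Int.cast : ℤ → F))ᵀ *ᵥ v) (c, i, j) =
    if j = 2 then (if i = 0 then v (c + 2, 2, 1) else if i = 1 then - v (c + 2, 2, 0) else 0)
    else 0 := by
  rw [mulVec, dotProduct, Fintype.sum_prod_type, Finset.sum_eq_single (c + 2)]
  · rw [Fintype.sum_prod_type]
    by_cases h1 : j = 2
    · by_cases h2 : i = 0
      · simp [N4, h1, h2, Fin.sum_univ_three, f21]
      · by_cases h3 : i = 1
        · simp [N4, h1, h3, Fin.sum_univ_three, f21]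
        · simp [N4, h1, h2, h3]
    · simp [N4, h1]
  · intro b _ hb
    rw [Fintype.sum_prod_type]
    refine Finset.sum_eq_zero fun k _ => Finset.sum_eq_zero fun l _ => ?_
    have h1 : c ≠ b + 1 := fun h => hb (fadd' b c h)
    simp [N4, h1]
  · intro h
    exact absurd (Finset.mem_univ _) h

lemma Nf_N4 (t : F) (v : I → F) : Nf ((1 + t • N4.map (Int.cast : ℤ → F)) *ᵥ v) = Nf v := by
  have h : ∀ c i j : Fin 3, blk ((1 + t • N4.map (Int.cast : ℤ → F)) *ᵥ v) c i j =
      v (c, i, j) + t * (if i = 2 then (if j = 1 then v (c + 1, 0, 2) else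
        if j = 0 then - v (c + 1, 1, 2) else 0) else 0) := by
    intro c i j
    rw [← N4_mulVec, blk, add_mulVec, one_mulVec, smul_mulVec]
    rfl
  simp only [Nf, det_fin_three, trace, diag, mul_apply, Fin.sum_univ_three]
  simp only [h]
  simp only [blk, Fin.isValue, Fin.reduceEq, Fin.reduceAdd, if_true, if_false, mul_zero, add_zero]
  ring

lemma Nf_N4T (t : F) (v : I → F) : Nf ((1 + t • (N4.map (Int.cast : ℤ → F))ᵀ) *ᵥ v) = Nf v := by
  have h : ∀ c i j : Fin 3, blk ((1 + t • (N4.map (Int.cast : ℤ → F))ᵀ) *ᵥ v) c i j =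
      v (c, i, j) + t * (if j = 2 then (if i = 0 then v (c + 2, 2, 1) else
        if i = 1 then - v (c + 2, 2, 0) else 0) else 0) := by
    intro c i j
    rw [← N4T_mulVec, blk, add_mulVec, one_mulVec, smul_mulVec]
    rfl
  simp only [Nf, det_fin_three, trace, diag, mul_apply, Fin.sum_univ_three]
  simp only [h]
  simp only [blk, Fin.isValue, Fin.reduceEq, Fin.reduceAdd, if_true, if_false, mul_zero, add_zero]
  ring

end

end Vale.Agent.P240.H138
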