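import Mathlib.Algebra.Group.Subgroup.Map
import Mathlib.LinearAlgebra.Matrix.Notation
import Vale.Agent.P240.H138.Chain2
import Vale.Agent.P240.H138.Chain3
import Vale.Agent.P240.H138.Cub

/-!
Elements of the group `G27`.
-/

set_option autoImplicit false

namespace Vale.Agent.P240.H138

open Matrix Subgroup

section
variable {F : Type*} [Field F]

/-- the ring homomorphism from the integral matrices -/
def mz (F : Type*) [Field F] : Matrix I I ℤ →+* Matrix I I F := (Int.castRingHom F).mapMatrix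

lemma mz_apply (A : Matrix I I ℤ) : mz F A = A.map (Int.cast : ℤ → F) := rfl

lemma NF_eq (i : Fin 6) : NF F i = mz F (N6 i) := rfl

lemma NF_sq (i : Fin 6) : NF F i * NF F i = 0 := by
  rw [NF_eq, ← map_mul, N6_sq, map_zero]

lemma NFT_sq (i : Fin 6) : (NF F i)ᵀ * (NF F i)ᵀ = 0 := by
  rw [← transpose_mul, NF_sq, transpose_zero]

lemma one_add_mul {R : Type*} [Ring R] [Algebra F R] {N : R} (h : N * N = 0) (t : F) :
    (1 + t • N) * (1 + (-t) • N) = 1 := by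
  rw [neg_smul, mul_add, add_mul, mul_neg, add_mul, one_mul, one_mul, mul_one, smul_mul_smul_comm,
    h, smul_zero]
  simp

/-- unipotent elements -/
def un (N : Matrix I I F) (h : N * N = 0) (t : F) : GL I F where
  val := 1 + t • N
  inv := 1 + (-t) • N
  val_inv := one_add_mul h t
  inv_val := by
    have := one_add_mul h (-t)
    rwa [neg_neg] at this

lemma un_inv (N : Matrix I I F) (h : N * N = 0) (t : F) : (un N h t)⁻¹ = un N h (-t) := by
  apply Units.ext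
  rfl

/-- `X_i(t)` -/
def xp (i : Fin 6) (t : F) : GL I F := un (NF F i) (NF_sq i) t

/-- `X_{-i}(t)` -/
def xm (i : Fin 6) (t : F) : GL I F := un (NF F i)ᵀ (NFT_sq i) t

lemma xp_val (i : Fin 6) (t : F) : (xp i t).1 = 1 + t • NF F i := rfl

lemma xm_val (i : Fin 6) (t : F) : (xm i t).1 = 1 + t • (NF F i)ᵀ := rfl

lemma xp_mem (i : Fin 6) (t : F) : xp i t ∈ G27 F := subset_closure ⟨i, t, Or.inl rfl⟩

lemma xm_mem (i : Fin 6) (t : F) : xm i t ∈ G27 F := subset_closure ⟨i, t, Or.inr rfl⟩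

lemma NS_transpose : ∀ f a b : Fin 3, a ≠ b → (NS f a b)ᵀ = NS f b a := by decide +kernel

/-- the factors -/
def Tf (f : Fin 3) : GL (Fin 3) F →* GL I F := T.comp (MonoidHom.mulSingle (fun _ => GL (Fin 3) F) f)

lemma Tf_apply (f : Fin 3) (g : GL (Fin 3) F) : Tf f g = T (Function.update 1 f g) := rfl

lemma Tf_el (f a b : Fin 3) (hab : a ≠ b) (t : F) :
    (Tf f (el a b hab t)).1 = 1 + t • mz F (NS f a b) := T_el f a b hab t

/-- the elements of `GL_3(F)` in the factor `f` that lie in a subgroup -/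
def SF (H : Subgroup (GL I F)) (f : Fin 3) : Subgroup (GL (Fin 3) F) := H.comap (Tf f)

lemma xp_eq {i : Fin 6} {f a b : Fin 3} (hab : a ≠ b) (h : N6 i = NS f a b) (t : F) :
    Tf f (el a b hab t) = xp i t := by
  apply Units.ext
  rw [Tf_el, xp_val, NF_eq, h]

lemma xm_eq {i : Fin 6} {f a b : Fin 3} (hab : a ≠ b) (h : N6 i = NS f a b) (t : F) :
    Tf f (el b a hab.symm t) = xm i t := by
  apply Units.ext
  rw [Tf_el, xm_val, NF_eq, h, ← NS_transpose f a b hab]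
  rfl

/-- `n_{12}` -/
def nA : GL (Fin 3) F := el 0 1 (by decide) 1 * el 1 0 (by decide) (-1) * el 0 1 (by decide) 1

/-- `n_{23}` -/
def nB : GL (Fin 3) F := el 1 2 (by decide) 1 * el 2 1 (by decide) (-1) * el 1 2 (by decide) 1

lemma el_val {a b : Fin 3} (hab : a ≠ b) (t : F) : (el a b hab t).1 = transvection a b t := rfl

lemma nA_val : (nA : GL (Fin 3) F).1 = !![0, 1, 0; -1, 0, 0; 0, 0, 1] := by
  rw [nA, Units.val_mul, Units.val_mul]
  simp only [el_val]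
  ext i j
  fin_cases i <;> fin_cases j <;>
    simp [mul_apply, Fin.sum_univ_three, transvection, Matrix.single_apply, Matrix.one_apply]

lemma nB_val : (nB : GL (Fin 3) F).1 = !![1, 0, 0; 0, 0, 1; 0, -1, 0] := by
  rw [nB, Units.val_mul, Units.val_mul]
  simp only [el_val]
  ext i j
  fin_cases i <;> fin_cases j <;>
    simp [mul_apply, Fin.sum_univ_three, transvection, Matrix.single_apply, Matrix.one_apply]

lemma nA_inv : (nA : GL (Fin 3) F)⁻¹.1 = !![0, -1, 0; 1, 0, 0; 0, 0, 1] := by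
  have h : (nA : GL (Fin 3) F).1 * !![0, -1, 0; 1, 0, 0; 0, 0, 1] = 1 := by
    rw [nA_val]
    ext i j
    fin_cases i <;> fin_cases j <;> simp [mul_apply, Fin.sum_univ_three]
  calc (nA : GL (Fin 3) F)⁻¹.1 = (nA : GL (Fin 3) F)⁻¹.1 * ((nA : GL (Fin 3) F).1 *
      !![0, -1, 0; 1, 0, 0; 0, 0, 1]) := by rw [h, Matrix.mul_one]
    _ = _ := by rw [← Matrix.mul_assoc, Units.inv_mul, Matrix.one_mul]

lemma nB_inv : (nB : GL (Fin 3) F)⁻¹.1 = !![1, 0, 0; 0, 0, -1; 0, 1, 0] := by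
  have h : (nB : GL (Fin 3) F).1 * !![1, 0, 0; 0, 0, -1; 0, 1, 0] = 1 := by
    rw [nB_val]
    ext i j
    fin_cases i <;> fin_cases j <;> simp [mul_apply, Fin.sum_univ_three]
  calc (nB : GL (Fin 3) F)⁻¹.1 = (nB : GL (Fin 3) F)⁻¹.1 * ((nB : GL (Fin 3) F).1 *
      !![1, 0, 0; 0, 0, -1; 0, 1, 0]) := by rw [h, Matrix.mul_one]
    _ = _ := by rw [← Matrix.mul_assoc, Units.inv_mul, Matrix.one_mul]

/-- `w_1` -/
def w1 : GL (Fin 3) F := nA * nB * nA⁻¹

lemma w1_val : (w1 : GL (Fin 3) F).1 = w1M.map (Int.cast : ℤ → F) := by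
  rw [w1, Units.val_mul, Units.val_mul, nA_val, nB_val, nA_inv]
  ext i j
  fin_cases i <;> fin_cases j <;> simp [mul_apply, Fin.sum_univ_three, w1M]

lemma w1_inv : (w1 : GL (Fin 3) F)⁻¹.1 = w1Mᵀ.map (Int.cast : ℤ → F) := by
  rw [w1, _root_.mul_inv_rev, _root_.mul_inv_rev, inv_inv, Units.val_mul, Units.val_mul, nA_val,
    nB_inv, nA_inv]
  ext i j
  fin_cases i <;> fin_cases j <;> simp [mul_apply, Fin.sum_univ_three, w1M]

lemma w2_val : (nB : GL (Fin 3) F)⁻¹.1 = w2M.map (Int.cast : ℤ → F) := by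
  rw [nB_inv]
  ext i j
  fin_cases i <;> fin_cases j <;> simp [w2M]

lemma w2_inv : (nB : GL (Fin 3) F).1 = w2Mᵀ.map (Int.cast : ℤ → F) := by
  rw [nB_val]
  ext i j
  fin_cases i <;> fin_cases j <;> simp [w2M]

lemma w3_val : (nB : GL (Fin 3) F).1 = w3M.map (Int.cast : ℤ → F) := by
  rw [nB_val]
  ext i j
  fin_cases i <;> fin_cases j <;> simp [w3M]

lemma w3_inv : (nB : GL (Fin 3) F)⁻¹.1 = w3Mᵀ.map (Int.cast : ℤ → F) := by
  rw [nB_inv]
  ext i j
  fin_cases i <;> fin_cases j <;> simp [w3M]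

lemma one_map : (1 : Matrix (Fin 3) (Fin 3) ℤ).map (Int.cast : ℤ → F) = 1 :=
  Matrix.map_one _ Int.cast_zero Int.cast_one

lemma mz_TM (g g' : Fin 3 → Matrix (Fin 3) (Fin 3) ℤ) :
    mz F (TM g g') = TM (fun c => (g c).map Int.cast) (fun c => (g' c).map Int.cast) := by
  ext p q
  rw [mz_apply, map_apply]
  simp only [TM]
  split_ifs with h
  · rw [Int.cast_mul]
    rfl
  · rw [Int.cast_zero]

/-- `n_4(1)` -/
def n4 : GL I F := xp 3 1 * xm 3 (-1) * xp 3 1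

lemma n4_val : (n4 : GL I F).1 = mz F n4M := by
  rw [n4, Units.val_mul, Units.val_mul, n4M_eq, map_mul, map_mul, map_add, map_sub, map_one, xp_val,
    xm_val, one_smul, neg_smul, one_smul, ← sub_eq_add_neg]
  rfl

lemma conj_un {N N' : Matrix I I F} (h : N * N = 0) (h' : N' * N' = 0) {g : GL I F}
    (hg : g.1 * N = N' * g.1) (t : F) : g * un N h t * g⁻¹ = un N' h' t := by
  rw [mul_inv_eq_iff_eq_mul]
  apply Units.ext
  rw [Units.val_mul, Units.val_mul]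
  change g.1 * (1 + t • N) = (1 + t • N') * g.1
  rw [mul_add, add_mul, mul_one, one_mul, mul_smul_comm, smul_mul_assoc, hg]

lemma Tw (g : GL (Fin 3) F) (M M' : Matrix (Fin 3) (Fin 3) ℤ) (h : g.1 = M.map Int.cast)
    (h' : g⁻¹.1 = M'.map Int.cast) : (T ![1, g, g]).1 = mz F (TM ![1, M, M] ![1, M', M']) := by
  rw [T_val, mz_TM]
  congr 1
  · funext c
    fin_cases c
    · exact one_map.symm
    · exact h
    · exact h
  · funext c
    fin_cases c
    · change (1 : GL (Fin 3) F)⁻¹.1 = _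
      rw [inv_one]
      exact one_map.symm
    · exact h'
    · exact h'

lemma Tw0 (g : GL (Fin 3) F) (M M' : Matrix (Fin 3) (Fin 3) ℤ) (h : g.1 = M.map Int.cast)
    (h' : g⁻¹.1 = M'.map Int.cast) : (T ![g, 1, 1]).1 = mz F (TM ![M, 1, 1] ![M', 1, 1]) := by
  rw [T_val, mz_TM]
  congr 1
  · funext c
    fin_cases c
    · exact h
    · exact one_map.symm
    · exact one_map.symm
  · funext c
    fin_cases c
    · exact h'
    · change (1 : GL (Fin 3) F)⁻¹.1 = _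
      rw [inv_one]
      exact one_map.symm
    · change (1 : GL (Fin 3) F)⁻¹.1 = _
      rw [inv_one]
      exact one_map.symm

lemma mul_of {g : GL I F} {A N N' : Matrix I I ℤ} (hg : g.1 = mz F A) (h : A * N = N' * A) :
    g.1 * mz F N = mz F N' * g.1 := by
  rw [hg, ← map_mul, h, map_mul]

lemma inv_mul_of {g : GL I F} {A N N' : Matrix I I F} (h : g.1 * N = N' * g.1) :
    g⁻¹.1 * N' = N * g⁻¹.1 := by
  calc g⁻¹.1 * N' = g⁻¹.1 * (N' * g.1) * g⁻¹.1 := by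
        rw [Matrix.mul_assoc, Matrix.mul_assoc, Units.mul_inv, Matrix.mul_one]
    _ = g⁻¹.1 * (g.1 * N) * g⁻¹.1 := by rw [h]
    _ = N * g⁻¹.1 := by rw [← Matrix.mul_assoc, Units.inv_mul, Matrix.one_mul]

/-- the element that maps the root group of `-α_2` to the root group in the factor `0` -/
def g0 : GL I F := T ![nB, 1, 1] * n4 * T ![1, nB⁻¹, nB⁻¹] * n4 * T ![1, w1, w1] * n4

lemma comp_of {g g' : GL I F} {N N' N'' : Matrix I I F} (h : g.1 * N = N' * g.1)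
    (h' : g'.1 * N' = N'' * g'.1) : (g' * g).1 * N = N'' * (g' * g).1 := by
  rw [Units.val_mul, Matrix.mul_assoc, h, ← Matrix.mul_assoc, h', Matrix.mul_assoc]

lemma g0_conj : (g0 : GL I F).1 * (NF F 1)ᵀ = mz F (NS 0 0 1) * (g0 : GL I F).1 := by
  have h1 : (n4 : GL I F).1 * mz F (NS 0 1 2)ᵀ = mz F (-(NT ![1, 2, 2])ᵀ) * (n4 : GL I F).1 :=
    mul_of n4_val step1
  have h2 : (T ![1, w1, w1] : GL I F).1 * mz F (-(NT ![1, 2, 2])ᵀ) =
      mz F (-(NT ![1, 0, 0])ᵀ) * (T ![1, w1, w1] : GL I F).1 :=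
    mul_of (Tw _ _ _ w1_val w1_inv) (by rw [Matrix.mul_neg, step2, Matrix.neg_mul])
  have h3 : (n4 : GL I F).1 * mz F (-(NT ![1, 0, 0])ᵀ) = mz F (NT ![0, 1, 1]) * (n4 : GL I F).1 :=
    mul_of n4_val step3
  have h4 : (T ![1, nB⁻¹, nB⁻¹] : GL I F).1 * mz F (NT ![0, 1, 1]) =
      mz F (NT ![0, 2, 2]) * (T ![1, nB⁻¹, nB⁻¹] : GL I F).1 :=
    mul_of (Tw _ _ _ w2_val (by rw [inv_inv]; exact w2_inv)) step4
  have h5 : (n4 : GL I F).1 * mz F (NT ![0, 2, 2]) = mz F (NS 0 0 2) * (n4 : GL I F).1 :=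
    mul_of n4_val step5
  have h6 : (T ![nB, 1, 1] : GL I F).1 * mz F (NS 0 0 2) =
      mz F (NS 0 0 1) * (T ![nB, 1, 1] : GL I F).1 :=
    mul_of (Tw0 _ _ _ w3_val w3_inv) step6
  have h7 := comp_of (comp_of (comp_of (comp_of (comp_of h1 h2) h3) h4) h5) h6
  rw [g0]
  simp only [mul_assoc] at h7 ⊢
  exact h7

/-- **an element of the factor `0`** -/
theorem e12_eq (t : F) : Tf 0 (el 0 1 (by decide) t) = g0 * xm 1 t * (g0 : GL I F)⁻¹ := by
  have h : mz F (NS 0 0 1) * mz F (NS 0 0 1) = 0 := by rw [← map_mul, NS001_sq, map_zero]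
  have h1 := conj_un (NFT_sq 1) h g0_conj t
  change g0 * xm 1 t * (g0 : GL I F)⁻¹ = _ at h1
  rw [h1]
  apply Units.ext
  rw [Tf_el]
  rfl

theorem e12_mem {H : Subgroup (GL I F)} (h1 : T ![nB, 1, 1] ∈ H) (h2 : n4 ∈ H)
    (h3 : T ![1, nB, nB] ∈ H) (h4 : T ![1, nA, nA] ∈ H) {t : F} (h5 : xm 1 t ∈ H) :
    Tf 0 (el 0 1 (by decide) t) ∈ H := by
  have h6 : T ![1, nB⁻¹, nB⁻¹] ∈ H := by
    have h7 : (![1, nB⁻¹, nB⁻¹] : Fin 3 → GL (Fin 3) F) = (![1, nB, nB])⁻¹ := by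
      funext c
      fin_cases c
      · exact inv_one.symm
      · rfl
      · rfl
    rw [h7, map_inv]
    exact inv_mem h3
  have h7 : T ![1, w1, w1] ∈ H := by
    have h8 : (![1, w1, w1] : Fin 3 → GL (Fin 3) F) = ![1, nA, nA] * ![1, nB, nB] * (![1, nA, nA])⁻¹ := by
      funext c
      fin_cases c
      · change (1 : GL (Fin 3) F) = 1 * 1 * 1⁻¹
        group
      · rfl
      · rfl
    rw [h8, map_mul, map_mul, map_inv]
    exact mul_mem (mul_mem h4 h3) (inv_mem h4)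
  have h8 : (g0 : GL I F) ∈ H :=
    mul_mem (mul_mem (mul_mem (mul_mem (mul_mem h1 h2) h6) h2) h7) h2
  rw [e12_eq]
  exact mul_mem (mul_mem h8 h5) (inv_mem h8)

end

end Vale.Agent.P240.H138
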