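import Mathlib.Tactic.FieldSimp
import Mathlib.LinearAlgebra.Matrix.Charpoly.Basic
import Vale.Agent.P240.H138.Mem

/-!
Lifts of automorphisms.
-/

set_option autoImplicit false

namespace Vale.Agent.P240.H138

open Matrix Subgroup

section
variable {F : Type*} [Field F]

/-! ### field automorphisms -/

/-- the action of a field automorphism -/
def fA (σ : F ≃+* F) : GL I F →* GL I F := Units.map (RingHom.mapMatrix (σ : F →+* F)).toMonoidHom

lemma fA_val (σ : F ≃+* F) (g : GL I F) : (fA σ g).1 = g.1.map σ := rfl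

lemma map_mz {R : Type*} [Field R] (σ : F →+* R) (N : Matrix I I ℤ) : (mz F N).map σ = mz R N := by
  ext p q
  simp [mz_apply]

lemma fA_un (σ : F ≃+* F) {N : Matrix I I F} (h : N * N = 0) (hN : N.map σ = N) (t : F) :
    fA σ (un N h t) = un N h (σ t) := by
  apply Units.ext
  rw [fA_val]
  change (1 + t • N).map σ = 1 + σ t • N
  rw [Matrix.map_add _ (map_add σ), Matrix.map_one _ (map_zero σ) (map_one σ)]
  congr 1
  ext p q
  rw [map_apply, Matrix.smul_apply, smul_eq_mul, map_mul, Matrix.smul_apply, smul_eq_mul]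
  congr 1
  exact congrFun (congrFun hN p) q

lemma fA_xp (σ : F ≃+* F) (i : Fin 6) (t : F) : fA σ (xp i t) = xp i (σ t) :=
  fA_un σ _ (map_mz (σ : F →+* F) _) t

lemma fA_xm (σ : F ≃+* F) (i : Fin 6) (t : F) : fA σ (xm i t) = xm i (σ t) :=
  fA_un σ _ (by
    rw [NF_eq, transpose_map]
    congr 1
    exact map_mz (σ : F →+* F) _) t

/-! ### the graph automorphism -/

lemma rho_inj : Function.Injective rho := fun p q h => by rw [← rho_rho p, h, rho_rho]

lemma rho_bij : Function.Bijective rho := ⟨rho_inj, fun p => ⟨rho p, rho_rho p⟩⟩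

/-- `rho` as an equivalence -/
def rhoE : I ≃ I := ⟨rho, rho, rho_rho, rho_rho⟩

lemma sub_mul (A B : Matrix I I F) :
    (A * B).submatrix rho rho = A.submatrix rho rho * B.submatrix rho rho :=
  submatrix_mul A B rho rho rho rho_bij

lemma sub_one : (1 : Matrix I I F).submatrix rho rho = 1 := submatrix_one rho rho_inj

/-- the graph automorphism -/
def gA : GL I F →* GL I F where
  toFun g := ⟨(g⁻¹.1)ᵀ.submatrix rho rho, g.1ᵀ.submatrix rho rho, by
    rw [← sub_mul, ← transpose_mul, Units.mul_inv, transpose_one, sub_one], by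
    rw [← sub_mul, ← transpose_mul, Units.inv_mul, transpose_one, sub_one]⟩
  map_one' := by
    apply Units.ext
    change ((1 : GL I F)⁻¹.1)ᵀ.submatrix rho rho = 1
    rw [inv_one, Units.val_one, transpose_one, sub_one]
  map_mul' g h := by
    apply Units.ext
    change ((g * h)⁻¹.1)ᵀ.submatrix rho rho = (g⁻¹.1)ᵀ.submatrix rho rho * (h⁻¹.1)ᵀ.submatrix rho rho
    rw [← sub_mul, ← transpose_mul, ← Units.val_mul, ← _root_.mul_inv_rev]

lemma gA_val (g : GL I F) : (gA g).1 = (g⁻¹.1)ᵀ.submatrix rho rho := rfl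

lemma gA_un {N N' : Matrix I I F} (h : N * N = 0) (h' : N' * N' = 0)
    (hN : N' = -(Nᵀ.submatrix rho rho)) (t : F) : gA (un N h t) = un N' h' t := by
  apply Units.ext
  rw [gA_val]
  change (1 + (-t) • N)ᵀ.submatrix rho rho = 1 + t • N'
  rw [transpose_add, transpose_one, submatrix_add]
  change (1 : Matrix I I F).submatrix rho rho + ((-t) • N)ᵀ.submatrix rho rho = _
  rw [sub_one, hN, transpose_smul, submatrix_smul]
  change 1 + (-t) • (Nᵀ.submatrix rho rho) = _
  rw [neg_smul, smul_neg]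

lemma gA_xp (i : Fin 6) (t : F) : gA (xp i t) = xp (fl i) t :=
  gA_un _ _ (by
    rw [NF_eq, NF_eq, N6_graph, map_neg]
    rfl) t

lemma fl_fl : ∀ i, fl (fl i) = i := by decide

lemma gA_xm (i : Fin 6) (t : F) : gA (xm i t) = xm (fl i) t :=
  gA_un _ _ (by
    have h := N6_graph (fl i)
    rw [fl_fl] at h
    rw [NF_eq, NF_eq, h, map_neg]
    ext p q
    simp only [mz_apply, transpose_apply, Matrix.neg_apply, submatrix_apply, map_apply, rho_rho,
      neg_neg]) t

/-! ### diagonal automorphisms -/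

/-- the diagonal entries -/
def dg (κ : Fin 3 → F) (G : Fin 3 → Fin 3 → F) (p : I) : F :=
  κ p.1 * G p.1 p.2.1 * (G (p.1 + 1) p.2.2)⁻¹

lemma dg_NS {κ : Fin 3 → F} {G : Fin 3 → Fin 3 → F} (hG : ∀ i j, G i j ≠ 0) {f a b : Fin 3} {c : F}
    (h : G f a = c * G f b) :
    diagonal (dg κ G) * mz F (NS f a b) = c • (mz F (NS f a b) * diagonal (dg κ G)) := by
  ext ⟨c1, i, j⟩ ⟨c2, k, l⟩
  rw [diagonal_mul, Matrix.smul_apply, mul_diagonal, smul_eq_mul, mz_apply, map_apply]
  simp only [NS]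
  split_ifs with h1 h2
  · obtain ⟨rfl, rfl, rfl, rfl, rfl⟩ := h1
    simp only [Int.cast_one, mul_one, one_mul, dg, h]
    ring
  · obtain ⟨rfl, rfl, rfl, rfl, rfl⟩ := h2
    simp only [Int.cast_neg, Int.cast_one, dg, f21, h]
    have h1 := hG f l
    have h2 := hG f j
    have hc : c ≠ 0 := by
      rintro rfl
      rw [zero_mul] at h
      exact h1 h
    field_simp
  · simp

lemma dg_N4 {κ : Fin 3 → F} {G : Fin 3 → Fin 3 → F} (hG : ∀ i j, G i j ≠ 0) {c : F}
    (h : ∀ f, κ f * G f 2 * G (f + 2) 2 = c * (κ (f + 1) * G (f + 1) 0 * G (f + 1) 1)) :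
    diagonal (dg κ G) * mz F N4 = c • (mz F N4 * diagonal (dg κ G)) := by
  ext ⟨c1, i, j⟩ ⟨c2, k, l⟩
  rw [diagonal_mul, Matrix.smul_apply, mul_diagonal, smul_eq_mul, mz_apply, map_apply]
  simp only [N4]
  have e1 : c1 + 1 + 1 = c1 + 2 := by rw [add_assoc]; rfl
  split_ifs with h1 h2 h3
  · obtain ⟨rfl, rfl, rfl⟩ := h1
    obtain ⟨rfl, rfl⟩ := h2
    simp only [Int.cast_one, mul_one, one_mul, dg, e1]
    have h5 := hG (c1 + 1) 1
    have h6 := hG (c1 + 2) 2
    have h7 := h c1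
    field_simp
    linear_combination h7
  · obtain ⟨rfl, rfl, rfl⟩ := h1
    obtain ⟨rfl, rfl⟩ := h3
    simp only [Int.cast_one, Int.cast_neg, dg, e1]
    have h5 := hG (c1 + 1) 0
    have h6 := hG (c1 + 2) 2
    have h7 := h c1
    field_simp
    linear_combination -h7
  · simp
  · simp

lemma dT {d : I → F} {N : Matrix I I F} {c : F} (hd : ∀ p, d p ≠ 0) (hc : c ≠ 0)
    (h : diagonal d * N = c • (N * diagonal d)) :
    diagonal d * Nᵀ = c⁻¹ • (Nᵀ * diagonal d) := by
  ext p q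
  have h1 := congrFun (congrFun h q) p
  rw [diagonal_mul, Matrix.smul_apply, mul_diagonal, smul_eq_mul] at h1 ⊢
  rw [transpose_apply]
  have h2 := hd p
  have h3 := hd q
  field_simp
  linear_combination -h1

/-- the diagonal elements -/
def dE (d : I → F) (hd : ∀ p, d p ≠ 0) : GL I F where
  val := diagonal d
  inv := diagonal fun p => (d p)⁻¹
  val_inv := by
    rw [diagonal_mul_diagonal, ← diagonal_one]
    congr 1
    funext p
    exact mul_inv_cancel₀ (hd p)
  inv_val := by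
    rw [diagonal_mul_diagonal, ← diagonal_one]
    congr 1
    funext p
    exact inv_mul_cancel₀ (hd p)

lemma dE_conj {d : I → F} (hd : ∀ p, d p ≠ 0) {N : Matrix I I F} (hN : N * N = 0) {c : F}
    (h : diagonal d * N = c • (N * diagonal d)) (t : F) :
    dE d hd * un N hN t * (dE d hd)⁻¹ = un N hN (c * t) := by
  rw [mul_inv_eq_iff_eq_mul]
  apply Units.ext
  rw [Units.val_mul, Units.val_mul]
  change diagonal d * (1 + t • N) = (1 + (c * t) • N) * diagonal d
  rw [mul_add, add_mul, mul_one, one_mul, mul_smul_comm, smul_mul_assoc, h, smul_smul, mul_comm t]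

/-- **diagonal automorphisms** -/
theorem exists_diag (c : Fin 6 → F) (hc : ∀ i, c i ≠ 0) :
    ∃ (d : I → F) (hd : ∀ p, d p ≠ 0), ∀ i t, dE d hd * xp i t * (dE d hd)⁻¹ = xp i (c i * t) ∧
      dE d hd * xm i t * (dE d hd)⁻¹ = xm i ((c i)⁻¹ * t) := by
  have h0 := hc 0
  have h1 := hc 1
  have h2 := hc 2
  have h3 := hc 3
  have h4 := hc 4
  have h5 := hc 5
  let κ : Fin 3 → F := ![1, (c 3 * c 0 * c 2 ^ 2)⁻¹, (c 3 ^ 2 * c 0 * c 2 ^ 2 * c 4 ^ 2 * c 5)⁻¹]
  let G : Fin 3 → Fin 3 → F := ![![(c 0 * c 1 * c 2 ^ 2 * c 3 ^ 3 * c 4 ^ 2 * c 5)⁻¹, c 1, 1],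
    ![c 0 * c 2, c 2, 1], ![c 5 * c 4, c 4, 1]]
  have hG : ∀ i j, G i j ≠ 0 := by
    intro i j
    fin_cases i <;> fin_cases j <;> simp [G, h0, h1, h2, h3, h4, h5]
  have hκ : ∀ i, κ i ≠ 0 := by
    intro i
    fin_cases i <;> simp [κ, h0, h2, h3, h4, h5]
  have hd : ∀ p, dg κ G p ≠ 0 := fun p =>
    mul_ne_zero (mul_ne_zero (hκ _) (hG _ _)) (inv_ne_zero (hG _ _))
  have key : ∀ i, diagonal (dg κ G) * mz F (N6 i) = c i • (mz F (N6 i) * diagonal (dg κ G)) := by
    intro i
    fin_cases i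
    · exact dg_NS hG (by simp [G])
    · exact dg_NS hG (by simp [G])
    · exact dg_NS hG (by simp [G])
    · refine dg_N4 hG fun f => ?_
      fin_cases f
      · simp [G, κ]
        field_simp
      · simp [G, κ]
        field_simp
      · simp [G, κ]
        field_simp
    · exact dg_NS hG (by simp [G])
    · exact dg_NS hG (by simp [G])
  refine ⟨dg κ G, hd, fun i t => ⟨dE_conj hd _ (key i) t, dE_conj hd _ (dT hd (hc i) (key i)) t⟩⟩

end

end Vale.Agent.P240.H138
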