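import Vale.Agent.P240.H138.Data
import Vale.Agent.P240.H138.Lift

/-!
Automorphisms whose squares are inner, and their lifts.
-/

set_option autoImplicit false

namespace Vale.Agent.P240.H138

open Subgroup CartanMatrix Matrix Vale.Agent.P240.K Vale.Agent.P240.H195
  Vale.Agent.P240.R2.H986.X Vale.Agent.P240.R2.H281EA Vale.Agent.P240.R2.H165
  Vale.Agent.P240.R2.H165.XC Vale.Agent.P240.R2.H281EB Vale.Agent.P240.R2.H997
  Vale.Agent.P240.R2.H164.EX

universe u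

section
variable {F : Type*} [Field F]

/-- the maps of the indices -/
def fi (g : Bool) : Fin 6 → Fin 6 := if g then fl else id

/-- the lifts -/
def Ph (D : GL I F) (σ : F ≃+* F) (g : Bool) : GL I F →* GL I F :=
  (MulAut.conj D).toMonoidHom.comp ((if g then gA else MonoidHom.id _).comp (fA σ))

lemma exists_Ph (g : Bool) (σ : F ≃+* F) {c : Fin 6 → F} (hc : ∀ i, c i ≠ 0) :
    ∃ D : GL I F, ∀ i t, Ph D σ g (xp i t) = xp (fi g i) (c i * σ t) ∧
      Ph D σ g (xm i t) = xm (fi g i) ((c i)⁻¹ * σ t) := by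
  obtain ⟨d, hd, h⟩ := exists_diag (fun i => c (fi g i)) (fun i => hc _)
  have hff : ∀ i, fi g (fi g i) = i := by
    intro i
    cases g
    · rfl
    · exact fl_fl i
  refine ⟨dE d hd, fun i t => ?_⟩
  have h1 := h (fi g i) (σ t)
  rw [hff] at h1
  cases g
  · have h2 : Ph (dE d hd) σ false (xp i t) = dE d hd * fA σ (xp i t) * (dE d hd)⁻¹ := rfl
    have h3 : Ph (dE d hd) σ false (xm i t) = dE d hd * fA σ (xm i t) * (dE d hd)⁻¹ := rfl
    rw [h2, h3, fA_xp, fA_xm]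
    exact h1
  · have h2 : Ph (dE d hd) σ true (xp i t) = dE d hd * gA (fA σ (xp i t)) * (dE d hd)⁻¹ := rfl
    have h3 : Ph (dE d hd) σ true (xm i t) = dE d hd * gA (fA σ (xm i t)) * (dE d hd)⁻¹ := rfl
    rw [h2, h3, fA_xp, fA_xm, gA_xp, gA_xm]
    exact h1

variable {L : Type*} [Group L] {π : G27 F →* L}

theorem lift_eq {e : MulAut L} {Φ : GL I F →* GL I F} {u : Fin 6 → Fin 6} {c : Fin 6 → F}
    {σ : F → F} (hΦ : ∀ i t, Φ (xp i t) = xp (u i) (c i * σ t) ∧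
      Φ (xm i t) = xm (u i) ((c i)⁻¹ * σ t))
    (he : ∀ i t, e (π ⟨xp i t, xp_mem _ _⟩) = π ⟨xp (u i) (c i * σ t), xp_mem _ _⟩ ∧
      e (π ⟨xm i t, xm_mem _ _⟩) = π ⟨xm (u i) ((c i)⁻¹ * σ t), xm_mem _ _⟩) (X : GL I F)
    (hX : X ∈ G27 F) : ∃ h : Φ X ∈ G27 F, e (π ⟨X, hX⟩) = π ⟨Φ X, h⟩ := by
  refine closure_induction (p := fun X hX => ∃ h : Φ X ∈ G27 F, e (π ⟨X, hX⟩) = π ⟨Φ X, h⟩)
    ?_ ?_ ?_ ?_ hX
  · rintro X ⟨i, t, h | h⟩
    · obtain rfl : X = xp i t := Units.ext h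
      refine ⟨by rw [(hΦ i t).1]; exact xp_mem _ _, ?_⟩
      rw [(he i t).1]
      congr 1
      exact Subtype.ext (hΦ i t).1.symm
    · obtain rfl : X = xm i t := Units.ext h
      refine ⟨by rw [(hΦ i t).2]; exact xm_mem _ _, ?_⟩
      rw [(he i t).2]
      congr 1
      exact Subtype.ext (hΦ i t).2.symm
  · refine ⟨by rw [map_one]; exact one_mem _, ?_⟩
    have h1 : (⟨1, one_mem _⟩ : G27 F) = 1 := rfl
    have h2 : (⟨Φ 1, by rw [map_one]; exact one_mem _⟩ : G27 F) = 1 := Subtype.ext (map_one Φ)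
    rw [h1, h2, map_one, map_one]
  · rintro X Y hX hY ⟨h1, h2⟩ ⟨h3, h4⟩
    refine ⟨by rw [map_mul]; exact mul_mem h1 h3, ?_⟩
    have h5 : (⟨X * Y, mul_mem hX hY⟩ : G27 F) = ⟨X, hX⟩ * ⟨Y, hY⟩ := rfl
    have h6 : (⟨Φ (X * Y), by rw [map_mul]; exact mul_mem h1 h3⟩ : G27 F) = ⟨Φ X, h1⟩ * ⟨Φ Y, h3⟩ :=
      Subtype.ext (map_mul Φ X Y)
    rw [h5, h6, map_mul, map_mul, map_mul, h2, h4]
  · rintro X hX ⟨h1, h2⟩
    refine ⟨by rw [map_inv]; exact inv_mem h1, ?_⟩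
    have h5 : (⟨X⁻¹, inv_mem hX⟩ : G27 F) = (⟨X, hX⟩ : G27 F)⁻¹ := rfl
    have h6 : (⟨Φ X⁻¹, by rw [map_inv]; exact inv_mem h1⟩ : G27 F) = (⟨Φ X, h1⟩ : G27 F)⁻¹ :=
      Subtype.ext (map_inv Φ X)
    rw [h5, h6, map_inv, map_inv, map_inv, h2]

end

section
variable {F : Type} [Field F] {L : Type u} [Group L] [Finite F] [Finite L]
  {ι : Type} [Finite ι] {C : RC ι} {x : ι → F → L}

omit [Finite L] in
lemma inn_normal : ((MulAut.conj (G := L)).range).Normal := ⟨by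
  rintro _ ⟨x, rfl⟩ f
  refine ⟨f x, ?_⟩
  ext y
  simp [MulAut.mul_apply]⟩

/-- automorphisms whose squares are inner -/
theorem norm_form {r : ℕ} [hr : Fact r.Prime] [CharP F r] (h : CS C x)
    (hcen : ∀ g : L, (∀ y, g * y = y * g) → g = 1) (E : {i // C.simp i} ≃ Fin 6)
    (hE : ∀ i j : {i // C.simp i}, C.pr i.1 j.1 = E₆ (E i) (E j)) {f : MulAut L}
    (hf : f ^ 2 = 1) (hfo : f ∉ (MulAut.conj (G := L)).range) :
    ∃ (g : Bool) (σ : RingAut F) (c : Fin 6 → F) (e : MulAut L) (l : L), σ ^ 2 = 1 ∧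
      ¬ (g = false ∧ σ = 1) ∧ f = MulAut.conj l * e ∧ (∀ i, c i ≠ 0) ∧
      ∀ i t, e (x (E.symm i).1 t) = x (E.symm (fi g i)).1 (c i * σ t) ∧
        e (x (C.neg (E.symm i).1) t) = x (C.neg (E.symm (fi g i)).1) ((c i)⁻¹ * σ t) := by
  obtain ⟨Δ, D, hΔ, hD, hDD⟩ := exists_D (d := 3) E hE d6_mul
  have hlab : ∀ π : Equiv.Perm {i // C.simp i},
      (∀ i j, C.pr i.1 j.1 = 0 ↔ C.pr (π i).1 (π j).1 = 0) →
      ∀ i j, C.pr i.1 j.1 = C.pr (π i).1 (π j).1 := by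
    intro π hπ i j
    have h1 := E6_lab (zp_congr E hE hπ) (E i) (E j)
    rw [Equiv.permCongr_apply, Equiv.permCongr_apply, E.symm_apply_apply, E.symm_apply_apply,
      ← hE, ← hE] at h1
    exact h1
  obtain ⟨e, -, heB, heO, hef, hfe, hep, heI⟩ := norm_e h hcen (r := r) Nat.prime_two ⟨hf, hfo⟩
  obtain ⟨π₀, σ, c, hc, hπ, -⟩ := exists_Alp h hcen (r := r) hlab heB heO
  have hπ2 : π₀ * π₀ = 1 := by
    by_cases h1 : π₀ = 1
    · rw [h1, one_mul]
    · apply permCongr_one E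
      have h2 := E6_uniq (zp_congr E hE hπ) (zp_congr E hE hπ) (fun h2 => h1 (permCongr_one E h2))
        (fun h2 => h1 (permCongr_one E h2))
      rw [← h2]
      ext i
      simp
  have hσ : σ ^ 2 = 1 := by
    have h1 := Alp_mul hc hc
    rw [hπ2, ← pow_two, ← pow_two] at h1
    obtain ⟨c', hc'⟩ := h1.al
    exact sig_one h hcen (r := r) hep (am_pow_eq heB 2) (am_pow_eq heO 2) hc'
  have hno : ¬ (π₀ = 1 ∧ σ = 1) := by
    rintro ⟨rfl, rfl⟩
    obtain ⟨c', hc'⟩ := hc.al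
    refine heI (mem_of_two (by norm_num : Nat.Coprime 3 2) (inner_pow (D := D) h hΔ ?_ hc') hep)
    intro i j hi hj
    convert hD i j hi hj
  have hfe2 : f * e⁻¹ ∈ (MulAut.conj (G := L)).range := by
    have hnorm : ((MulAut.conj (G := L)).range).Normal := inn_normal
    obtain ⟨y, hy, z, hz, hyz⟩ := mem_sup_of_normal_right.1 hfe
    obtain ⟨k, rfl⟩ := hy
    rcases Int.even_or_odd' k with ⟨m, rfl | rfl⟩
    · exfalso
      apply hfo
      rw [← hyz]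
      refine mul_mem ?_ hz
      change e ^ (2 * m) ∈ _
      rw [_root_.zpow_mul]
      exact zpow_mem hep m
    · have h1 : f = e * ((e ^ 2) ^ m * z) := by
        rw [← hyz]
        change e ^ (2 * m + 1) * z = _
        rw [add_comm, _root_.zpow_add, zpow_one, _root_.zpow_mul, mul_assoc]
        rfl
      rw [h1]
      exact hnorm.conj_mem _ (mul_mem (zpow_mem hep m) hz) e
  obtain ⟨l, hl⟩ := hfe2
  have hfl : f = MulAut.conj l * e := by
    rw [hl, inv_mul_cancel_right]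
  have hcase : ∃ g : Bool, (g = false → π₀ = 1) ∧ ∀ i, E (π₀ (E.symm i)) = fi g i := by
    by_cases h1 : π₀ = 1
    · refine ⟨false, fun _ => h1, fun i => ?_⟩
      rw [h1]
      change E (E.symm i) = i
      rw [E.apply_symm_apply]
    · refine ⟨true, fun h2 => by simp at h2, fun i => ?_⟩
      obtain ⟨p0, p1, p2, p3, p4, p5⟩ := E6_form (zp_congr E hE hπ)
        (fun h2 => h1 (permCongr_one E h2))
      have h3 : E (π₀ (E.symm i)) = E.permCongr π₀ i := rfl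
      rw [h3]
      fin_cases i
      · exact p0
      · exact p1
      · exact p2
      · exact p3
      · exact p4
      · exact p5
  obtain ⟨g, hg1, hg2⟩ := hcase
  refine ⟨g, σ, fun i => c (E.symm i), e, l, hσ, fun h1 => hno ⟨hg1 h1.1, h1.2⟩, hfl,
    fun i => (hc _).1, fun i t => ?_⟩
  have h3 : E.symm (fi g i) = π₀ (E.symm i) := by
    rw [← hg2, E.symm_apply_apply]
  rw [h3]
  exact (hc (E.symm i)).2 t

end

end Vale.Agent.P240.H138
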