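import Vale.Agent.P240.H138.TT

/-!
Computations with integral `27 × 27` matrices.
-/

set_option autoImplicit false

namespace Vale.Agent.P240.H138

open Matrix

/-- `e_u × m` -/
def eps (i j k : Fin 3) : ℤ :=
  if j = i + 1 ∧ k = i + 2 then 1 else if j = i + 2 ∧ k = i + 1 then -1 else 0

/-- the root elements of the roots `ε_a + η_b + ζ_c` -/
def NT (u : Fin 3 → Fin 3) : Matrix I I ℤ := fun p q =>
  if q.1 = p.1 + 1 ∧ p.2.1 = u p.1 ∧ q.2.2 = u (p.1 + 2) then eps p.2.2 (u (p.1 + 1)) q.2.1 else 0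

/-- the projection -/
def P4 : Matrix I I ℤ := fun p q =>
  if p = q ∧ ((p.2.1 = 2 ∧ p.2.2 ≠ 2) ∨ (p.2.1 ≠ 2 ∧ p.2.2 = 2)) then 1 else 0

/-- `n_4(1)` -/
def n4M : Matrix I I ℤ := fun p q => (if p = q then 1 else 0) + N4 p q - N4 q p - P4 p q

/-- signed permutation matrices -/
def w1M : Matrix (Fin 3) (Fin 3) ℤ := !![0, 0, 1; 0, 1, 0; -1, 0, 0]

/-- signed permutation matrices -/
def w2M : Matrix (Fin 3) (Fin 3) ℤ := !![1, 0, 0; 0, 0, -1; 0, 1, 0]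

/-- signed permutation matrices -/
def w3M : Matrix (Fin 3) (Fin 3) ℤ := !![1, 0, 0; 0, 0, 1; 0, -1, 0]

lemma step1 : n4M * (NS 0 1 2)ᵀ = -(NT ![1, 2, 2])ᵀ * n4M := by decide +kernel

lemma step2 : TM ![1, w1M, w1M] ![1, w1Mᵀ, w1Mᵀ] * (NT ![1, 2, 2])ᵀ =
    (NT ![1, 0, 0])ᵀ * TM ![1, w1M, w1M] ![1, w1Mᵀ, w1Mᵀ] := by decide +kernel

lemma step3 : n4M * -(NT ![1, 0, 0])ᵀ = NT ![0, 1, 1] * n4M := by decide +kernel

end Vale.Agent.P240.H138
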