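import Vale.Agent.P240.H138.MDefs
import Vale.Agent.P240.R2.H165.ChevDefs

/-!
The groups of type `E₆` and their `27`-dimensional modules (definition).
-/

set_option autoImplicit false

namespace Vale.Agent.P240.H138

open Matrix CartanMatrix Vale.Agent.P240.R2.H165

/-- `L` is the adjoint group of type `E₆` over `F`: it is generated by elements `x_i(t)` that satisfy
Chevalley's relations for the roots of a root system with base `e 0, …, e 5` and Cartan matrix `E₆`,
and there is a homomorphism `π` to `L`, whose kernel consists of scalar matrices, from the group of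
`27 × 27` matrices generated by the matrices `1 + t N_i` and `1 + t N_iᵀ`, with
`π (1 + t N_i) = x_{e i}(t)` and `π (1 + t N_iᵀ) = x_{- e i}(t)`. -/
def IsE6Mod (F : Type) [Field F] (L : Type*) [Group L] : Prop :=
  ∃ (ι : Type) (_ : Finite ι) (P : RootPairing ι ℚ (Fin 6 → ℚ) (Fin 6 → ℚ))
    (_ : P.IsCrystallographic) (_ : P.IsReduced) (b : P.Base) (e : Fin 6 ↪ ι) (x : ι → F → L),
    b.support = Finset.univ.map e ∧ (∀ i j, P.pairingIn ℤ (e i) (e j) = E₆ i j) ∧
    Chev P.root b.height (fun i j => P.reflectionPerm i j) (P.pairingIn ℤ) x ∧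
    ∃ π : G27 F →* L, (∀ g, π g = 1 → ∃ c : F, g.1.1 = c • (1 : Matrix I I F)) ∧
      ∀ (i : Fin 6) (t : F) (g : G27 F), (g.1.1 = 1 + t • NF F i → π g = x (e i) t) ∧
        (g.1.1 = 1 + t • (NF F i)ᵀ → π g = x (P.reflectionPerm (e i) (e i)) t)

lemma IsE6Mod.chev {F : Type} [Field F] {L : Type*} [Group L] (h : IsE6Mod F L) :
    IsChevA E₆ F L := by
  obtain ⟨ι, hι, P, h1, h2, b, e, x, hb, he, hx, -⟩ := h
  exact ⟨ι, hι, P, h1, h2, b, e, x, hb, he, hx⟩

end Vale.Agent.P240.H138
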