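import Vale.Agent.P240.R2.H281.EB
import Vale.Agent.P240.H138.Cls
import Vale.Agent.P240.H138.Mem

/-!
Chevalley's relations and the `27`-dimensional module.
-/

set_option autoImplicit false

namespace Vale.Agent.P240.H138

open Subgroup CartanMatrix Matrix Vale.Agent.P240.K Vale.Agent.P240.H195
  Vale.Agent.P240.R2.H986.X Vale.Agent.P240.R2.H281EA Vale.Agent.P240.R2.H165
  Vale.Agent.P240.R2.H165.XC Vale.Agent.P240.R2.H281EB

universe u

variable {F : Type} [Field F] {L : Type u} [Group L]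

theorem exists_data (h : IsE6Mod F L) (hab : ∃ x y : L, x * y ≠ y * x) :
    ∃ (ι : Type) (_ : Finite ι) (C : RC ι) (x : ι → F → L) (E : {i // C.simp i} ≃ Fin 6)
      (π : G27 F →* L), CS C x ∧
      (∀ i j : {i // C.simp i}, C.pr i.1 j.1 = E₆ (E i) (E j)) ∧
      (∀ g, π g = 1 → ∃ c : F, g.1.1 = c • (1 : Matrix I I F)) ∧
      ∀ (i : {i // C.simp i}) (t : F), π ⟨xp (E i) t, xp_mem _ _⟩ = x i.1 t ∧
        π ⟨xm (E i) t, xm_mem _ _⟩ = x (C.neg i.1) t := by
  classical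
  obtain ⟨ι, hι, P, _, _, b, e, x, hb, he, hx, π, hk, hπ⟩ := h
  have h0 : ∀ i, e i ∈ b.support := fun i => by
    rw [hb, Finset.mem_map]
    exact ⟨i, Finset.mem_univ i, rfl⟩
  let f : Fin 6 → b.support := fun i => ⟨e i, h0 i⟩
  have hf : Function.Bijective f := by
    constructor
    · intro i j hij
      exact e.injective (congrArg Subtype.val hij)
    · rintro ⟨k, hk⟩
      have hk' := hk
      rw [hb, Finset.mem_map] at hk'
      obtain ⟨i, -, hi⟩ := hk'
      exact ⟨i, Subtype.ext hi⟩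
  let e' : b.support ≃ Fin 6 := (Equiv.ofBijective f hf).symm
  have hee : ∀ i : b.support, e (e' i) = i.1 := fun i =>
    congrArg Subtype.val (e'.symm_apply_apply i)
  have he' : ∀ i j, b.cartanMatrix i j = E₆ (e' i) (e' j) := by
    intro i j
    obtain ⟨i, rfl⟩ := e'.symm.surjective i
    obtain ⟨j, rfl⟩ := e'.symm.surjective j
    rw [e'.apply_symm_apply, e'.apply_symm_apply, ← he]
    rfl
  have hB : Conn b.cartanMatrix := E6_conn.transport e' he'
  obtain ⟨C, hht, hneg, hsr, hsimp, hpr, hc⟩ := Vale.Agent.P240.R2.H281X1.stmtX1 ι _ _ P b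
    (nonempty_of_chevRel hx.chevRel hab) (by
      intro p ⟨i, hi, hpi⟩ hst j hj
      exact hB (fun k => p k.1) ⟨⟨i, hi⟩, hpi⟩
        (fun i j hi hij => hst i.1 j.1 i.2 j.2 hi hij) ⟨j, hj⟩)
  refine ⟨ι, hι, C, x, (Equiv.subtypeEquivRight hsimp).trans e', π,
    cs_of_chevRel hx.chevRel hht hneg hsr hpr hc, fun i j => ?_, hk, fun i t => ⟨?_, ?_⟩⟩
  · rw [hpr]
    exact he' ⟨i.1, (hsimp i.1).1 i.2⟩ ⟨j.1, (hsimp j.1).1 j.2⟩
  · rw [(hπ _ t _).1 rfl]
    congr 1
    exact hee ⟨i.1, (hsimp i.1).1 i.2⟩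
  · rw [(hπ _ t _).2 rfl]
    congr 1
    have h1 : e (((Equiv.subtypeEquivRight hsimp).trans e') i) = i.1 :=
      hee ⟨i.1, (hsimp i.1).1 i.2⟩
    rw [h1, hneg]

end Vale.Agent.P240.H138
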