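import Mathlib.LinearAlgebra.Vandermonde
import Mathlib.LinearAlgebra.Matrix.Charpoly.Basic
import Vale.Agent.P240.H138.Lift

/-!
Eigenvalues of elements of `GL_3 × GL_3 × GL_3` on the `27`-dimensional module.
-/

set_option autoImplicit false

namespace Vale.Agent.P240.H138

open Matrix Polynomial

section
variable {F K : Type*} [Field F] [Field K]

/-- change of the field -/
def mG (n : Type*) [Fintype n] [DecidableEq n] (φ : F →+* K) : GL n F →* GL n K :=
  Units.map (RingHom.mapMatrix φ).toMonoidHom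

lemma mG_val {n : Type*} [Fintype n] [DecidableEq n] (φ : F →+* K) (g : GL n F) :
    (mG n φ g).1 = g.1.map φ := rfl

lemma mG_inv_val {n : Type*} [Fintype n] [DecidableEq n] (φ : F →+* K) (g : GL n F) :
    (mG n φ g)⁻¹.1 = g⁻¹.1.map φ := by rw [← map_inv, mG_val]

lemma T_map (φ : F →+* K) (g : Fin 3 → GL (Fin 3) F) :
    mG I φ (T g) = T (fun c => mG (Fin 3) φ (g c)) := by
  apply Units.ext
  rw [mG_val, T_val, T_val]
  ext p q
  rw [map_apply]
  simp only [TM]
  split_ifs with h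
  · rw [map_mul]
    congr 1
  · exact map_zero φ

/-- diagonal elements of `GL_3(K)` -/
def d3 (l : Fin 3 → K) (hl : ∀ i, l i ≠ 0) : GL (Fin 3) K where
  val := diagonal l
  inv := diagonal fun p => (l p)⁻¹
  val_inv := by
    rw [diagonal_mul_diagonal, ← diagonal_one]
    congr 1
    funext p
    exact mul_inv_cancel₀ (hl p)
  inv_val := by
    rw [diagonal_mul_diagonal, ← diagonal_one]
    congr 1
    funext p
    exact inv_mul_cancel₀ (hl p)

/-- the eigenvalues of `(1, g, g⁻¹)` -/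
def dlt (l : Fin 3 → K) (p : I) : K :=
  (![1, l, fun i => (l i)⁻¹] : Fin 3 → Fin 3 → K) p.1 p.2.1 *
    (![1, fun i => (l i)⁻¹, l] : Fin 3 → Fin 3 → K) (p.1 + 1) p.2.2

lemma T_d3 (l : Fin 3 → K) (hl : ∀ i, l i ≠ 0) :
    (T ![1, d3 l hl, (d3 l hl)⁻¹]).1 = diagonal (dlt l) := by
  rw [T_val]
  have h1 : (fun c => ((![1, d3 l hl, (d3 l hl)⁻¹] : Fin 3 → GL (Fin 3) K) c).1) =
      fun c => diagonal ((![1, l, fun i => (l i)⁻¹] : Fin 3 → Fin 3 → K) c) := by
    funext c
    fin_cases c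
    · exact diagonal_one.symm
    · rfl
    · rfl
  have h2 : (fun c => ((![1, d3 l hl, (d3 l hl)⁻¹] : Fin 3 → GL (Fin 3) K) c)⁻¹.1) =
      fun c => diagonal ((![1, fun i => (l i)⁻¹, l] : Fin 3 → Fin 3 → K) c) := by
    funext c
    fin_cases c
    · change (1 : GL (Fin 3) K)⁻¹.1 = _
      rw [inv_one]
      exact diagonal_one.symm
    · rfl
    · change (d3 l hl)⁻¹⁻¹.1 = _
      rw [inv_inv]
      rfl
  rw [h1, h2]
  ext ⟨c, i, j⟩ ⟨d, k, m⟩
  simp only [TM]
  by_cases h : (c, i, j) = (d, k, m)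
  · rw [Prod.mk.injEq, Prod.mk.injEq] at h
    obtain ⟨rfl, rfl, rfl⟩ := h
    rw [if_pos rfl, diagonal_apply_eq, diagonal_apply_eq, diagonal_apply_eq]
    rfl
  · rw [diagonal_apply_ne _ h]
    split_ifs with h1
    · subst h1
      by_cases h2 : i = k
      · have h3 : m ≠ j := by
          rintro rfl
          exact h (by rw [h2])
        rw [diagonal_apply_ne _ h3, mul_zero]
      · rw [diagonal_apply_ne _ h2, zero_mul]
    · rfl

/-- `v` is conjugate to a diagonal matrix over `K` -/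
def Dg (φ : F →+* K) (v : GL I F) (δ : I → K) : Prop :=
  ∃ P : GL I K, P.1 * v.1.map φ * P⁻¹.1 = diagonal δ

lemma Dg.charpoly {φ : F →+* K} {v : GL I F} {δ : I → K} (h : Dg φ v δ) :
    v.1.charpoly.map φ = ∏ p, (X - C (δ p)) := by
  obtain ⟨P, hP⟩ := h
  rw [← charpoly_map, ← charpoly_diagonal, ← hP, coe_units_inv, charpoly_units_conj]

lemma Dg.inv {φ : F →+* K} {v : GL I F} {δ : I → K} (h : Dg φ v δ) (h0 : ∀ p, δ p ≠ 0) :
    Dg φ v⁻¹ (fun p => (δ p)⁻¹) := by
  obtain ⟨P, hP⟩ := h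
  refine ⟨P, ?_⟩
  have h1 : (P.1 * v.1.map φ * P⁻¹.1) * (P.1 * v⁻¹.1.map φ * P⁻¹.1) = 1 := by
    have h2 : v.1.map φ * v⁻¹.1.map φ = 1 := by
      rw [← Matrix.map_mul, Units.mul_inv, Matrix.map_one _ (map_zero φ) (map_one φ)]
    calc _ = P.1 * v.1.map φ * (P⁻¹.1 * P.1) * v⁻¹.1.map φ * P⁻¹.1 := by
          simp only [Matrix.mul_assoc]
      _ = P.1 * (v.1.map φ * v⁻¹.1.map φ) * P⁻¹.1 := by
          rw [Units.inv_mul, Matrix.mul_one]
          simp only [Matrix.mul_assoc]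
      _ = 1 := by rw [h2, Matrix.mul_one, Units.mul_inv]
  rw [hP] at h1
  have h3 : diagonal (fun p => (δ p)⁻¹) * diagonal δ = 1 := by
    rw [diagonal_mul_diagonal, ← diagonal_one]
    congr 1
    funext p
    exact inv_mul_cancel₀ (h0 p)
  calc _ = diagonal (fun p => (δ p)⁻¹) * diagonal δ * (P.1 * v⁻¹.1.map φ * P⁻¹.1) := by
        rw [h3, Matrix.one_mul]
    _ = _ := by rw [Matrix.mul_assoc, h1, Matrix.mul_one]

lemma Dg.smul {φ : F →+* K} {v : GL I F} {δ : I → K} (h : Dg φ v δ) {w : GL I F} {c : F}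
    (hw : w.1 = c • v.1) : Dg φ w (fun p => φ c * δ p) := by
  obtain ⟨P, hP⟩ := h
  refine ⟨P, ?_⟩
  have h1 : w.1.map φ = φ c • v.1.map φ := by
    rw [hw]
    ext p q
    simp
  have h2 : diagonal (fun p => φ c * δ p) = φ c • diagonal δ := by
    rw [← diagonal_smul]
    rfl
  rw [h1, Matrix.mul_smul, Matrix.smul_mul, hP, h2]

lemma Dg.field {φ : F →+* K} {v : GL I F} {δ : I → K} (h : Dg φ v δ) {σ : F ≃+* F} {τ : K →+* K}
    (hτ : ∀ x, τ (φ x) = φ (σ x)) : Dg φ (fA σ v) (fun p => τ (δ p)) := by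
  obtain ⟨P, hP⟩ := h
  refine ⟨mG I τ P, ?_⟩
  have h1 : (fA σ v).1.map φ = (v.1.map φ).map τ := by
    ext p q
    simp [fA_val, hτ]
  rw [h1, mG_inv_val, mG_val, ← Matrix.map_mul, ← Matrix.map_mul, hP]
  ext p q
  rw [map_apply]
  by_cases hpq : p = q
  · subst hpq
    rw [diagonal_apply_eq, diagonal_apply_eq]
  · rw [diagonal_apply_ne _ hpq, diagonal_apply_ne _ hpq, map_zero]

lemma gA_charpoly (g : GL I F) : (gA g).1.charpoly = g⁻¹.1.charpoly := by
  have h := charpoly_reindex rhoE (g⁻¹.1)ᵀ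
  rw [charpoly_transpose] at h
  rw [← h]
  rfl

/-- conjugate elements -/
lemma charpoly_conj (g v : GL I F) : (g * v * g⁻¹).1.charpoly = v.1.charpoly := by
  rw [Units.val_mul, Units.val_mul, coe_units_inv, charpoly_units_conj]

lemma mset_of_prod {f g : I → K} (h : ∏ p, (X - C (f p)) = ∏ p, (X - C (g p))) :
    Multiset.map f Finset.univ.val = Multiset.map g Finset.univ.val := by
  have key : ∀ f : I → K, (∏ p, (X - C (f p))).roots = Multiset.map f Finset.univ.val := by
    intro f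
    have h1 : ∏ p, (X - C (f p)) =
        (Multiset.map (fun a => X - C a) (Multiset.map f Finset.univ.val)).prod := by
      rw [Multiset.map_map]
      rfl
    rw [h1, roots_multiset_prod_X_sub_C]
  rw [← key, h, key]

/-- the values of `dlt` -/
lemma dlt_val {l : Fin 3 → K} (hl : l 0 * l 1 * l 2 = 1) (p : I) (hp : ∀ i, p ≠ (1, i, i)) :
    ∃ k, dlt l p = (l k)⁻¹ := by
  have h0 : l 0 ≠ 0 := by
    intro h
    simp [h] at hl
  have h1 : l 1 ≠ 0 := by
    intro h
    simp [h] at hl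
  have h2 : l 2 ≠ 0 := by
    intro h
    simp [h] at hl
  have e01 : l 0 * l 1 = (l 2)⁻¹ := by
    field_simp
    linear_combination hl
  have e02 : l 0 * l 2 = (l 1)⁻¹ := by
    field_simp
    linear_combination hl
  have e12 : l 1 * l 2 = (l 0)⁻¹ := by
    field_simp
    linear_combination hl
  obtain ⟨c, i, j⟩ := p
  fin_cases c
  · exact ⟨j, by simp [dlt]⟩
  · have hij : i ≠ j := by
      rintro rfl
      exact hp i rfl
    change ∃ k, l i * l j = (l k)⁻¹
    fin_cases i <;> fin_cases j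
    · exact absurd rfl hij
    · exact ⟨2, e01⟩
    · exact ⟨1, e02⟩
    · exact ⟨2, by rw [← e01, mul_comm]; rfl⟩
    · exact absurd rfl hij
    · exact ⟨0, e12⟩
    · exact ⟨1, by rw [← e02, mul_comm]; rfl⟩
    · exact ⟨0, by rw [← e12, mul_comm]; rfl⟩
    · exact absurd rfl hij
  · exact ⟨i, by simp [dlt]⟩

/-- **comparison of the eigenvalues** -/
theorem exists_k {l : Fin 3 → K} (hl : l 0 * l 1 * l 2 = 1) {f g : K → K}
    (h : Multiset.map (fun p => f (dlt l p)) (Finset.univ : Finset I).val =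
      Multiset.map (fun p => g (dlt l p)) (Finset.univ : Finset I).val) :
    ∃ k, f ((l k)⁻¹) = g ((l 0)⁻¹) := by
  classical
  have h1 := congrArg (Multiset.count (g ((l 0)⁻¹))) h
  rw [Multiset.count_map, Multiset.count_map] at h1
  have h2 : 4 ≤ (Multiset.filter (fun p => g ((l 0)⁻¹) = g (dlt l p))
      (Finset.univ : Finset I).val).card := by
    have h3 : ({(0, 0, 0), (0, 1, 0), (0, 2, 0), (2, 0, 1)} : Finset I) ⊆
        Finset.univ.filter (fun p => g ((l 0)⁻¹) = g (dlt l p)) := by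
      intro p hp
      rw [Finset.mem_filter]
      refine ⟨Finset.mem_univ _, ?_⟩
      simp only [Finset.mem_insert, Finset.mem_singleton] at hp
      rcases hp with rfl | rfl | rfl | rfl <;> simp [dlt]
    have h4 := Finset.card_le_card h3
    have h5 : ({(0, 0, 0), (0, 1, 0), (0, 2, 0), (2, 0, 1)} : Finset I).card = 4 := by decide
    rw [h5] at h4
    exact h4
  rw [← h1] at h2
  by_contra hk
  rw [not_exists] at hk
  have h3 : Finset.univ.filter (fun p => g ((l 0)⁻¹) = f (dlt l p)) ⊆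
      ({(1, 0, 0), (1, 1, 1), (1, 2, 2)} : Finset I) := by
    intro p hp
    rw [Finset.mem_filter] at hp
    by_contra hp2
    have h4 : ∀ i, p ≠ (1, i, i) := by
      rintro i rfl
      apply hp2
      fin_cases i <;> decide
    obtain ⟨k, hk2⟩ := dlt_val hl p h4
    exact hk k (by rw [hp.2, hk2])
  have h4 := Finset.card_le_card h3
  have h5 : ({(1, 0, 0), (1, 1, 1), (1, 2, 2)} : Finset I).card = 3 := by decide
  rw [h5] at h4
  have h6 : (Multiset.filter (fun p => g ((l 0)⁻¹) = f (dlt l p)) (Finset.univ : Finset I).val).card ≤ 3 :=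
    h4
  omega

end

end Vale.Agent.P240.H138
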