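import Mathlib.FieldTheory.Finite.Basic
import Mathlib.RingTheory.RootsOfUnity.AlgebraicallyClosed
import Mathlib.Algebra.CharP.Lemmas
import Vale.Agent.P240.H138.Eig

/-!
Singer elements of `SL_3(F)`.
-/

set_option autoImplicit false

namespace Vale.Agent.P240.H138

open Matrix Polynomial

section
variable {F K : Type*} [Field F] [Field K] [Finite F] (φ : F →+* K)

/-- the subfield -/
lemma mem_F {x : K} (hx : x ^ Nat.card F = x) : ∃ a : F, φ a = x := by
  classical
  have := Fintype.ofFinite F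
  rw [Nat.card_eq_fintype_card] at hx
  have h1 : 1 < Fintype.card F := Fintype.one_lt_card
  have h0 : (X ^ Fintype.card F - X : K[X]) ≠ 0 := FiniteField.X_pow_card_sub_X_ne_zero K h1
  have h2 : (Finset.univ.image φ) ⊆ (X ^ Fintype.card F - X : K[X]).roots.toFinset := by
    intro y hy
    obtain ⟨a, -, rfl⟩ := Finset.mem_image.1 hy
    rw [Multiset.mem_toFinset, mem_roots h0, IsRoot.def, eval_sub, eval_pow, eval_X, sub_eq_zero,
      ← map_pow, FiniteField.pow_card]
  have h3 : (X ^ Fintype.card F - X : K[X]).roots.toFinset.card ≤ (Finset.univ.image φ).card := by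
    rw [Finset.card_image_of_injective _ φ.injective, Finset.card_univ]
    refine (Multiset.toFinset_card_le _).trans ((card_roots' _).trans ?_)
    rw [FiniteField.X_pow_card_sub_X_natDegree_eq K h1]
  have h4 := Finset.eq_of_subset_of_card_le h2 h3
  have h5 : x ∈ (X ^ Fintype.card F - X : K[X]).roots.toFinset := by
    rw [Multiset.mem_toFinset, mem_roots h0, IsRoot.def, eval_sub, eval_pow, eval_X, hx, sub_self]
  rw [← h4, Finset.mem_image] at h5
  obtain ⟨a, -, ha⟩ := h5
  exact ⟨a, ha⟩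

variable {l : K} {n : ℕ}

/-- the conjugates -/
noncomputable def lam (F : Type*) (l : K) (i : Fin 3) : K := l ^ Nat.card F ^ (i : ℕ)

lemma lam_zero : lam F l 0 = l := by simp [lam]

/-- the conditions on `l` -/
structure IsSing (F : Type*) (l : K) : Prop where
  dvd : orderOf l ∣ Nat.card F ^ 2 + Nat.card F + 1
  ndvd : ¬ orderOf l ∣ 6 * (Nat.card F - 1)

omit [Finite F] in
lemma pow_eq_one_iff' {m : ℕ} : l ^ m = 1 ↔ orderOf l ∣ m := orderOf_dvd_iff_pow_eq_one.symm

section
variable (h : IsSing F l)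
include h

omit [Finite F] in
lemma IsSing.one : l ^ (Nat.card F ^ 2 + Nat.card F + 1) = 1 := orderOf_dvd_iff_pow_eq_one.1 h.dvd

omit [Finite F] in
lemma IsSing.ne : l ≠ 0 := by
  rintro rfl
  have := h.one
  rw [zero_pow (by omega)] at this
  exact zero_ne_one this

omit [Finite F] in
lemma IsSing.prod : lam F l 0 * lam F l 1 * lam F l 2 = 1 := by
  have h1 := h.one
  have h2 : lam F l 0 * lam F l 1 * lam F l 2 = l ^ (Nat.card F ^ 2 + Nat.card F + 1) := by
    simp only [lam, Fin.val_zero, Fin.val_one, Fin.val_two, pow_zero, pow_one, ← pow_add]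
    congr 1
    ring
  rw [h2, h1]

lemma IsSing.cube : l ^ Nat.card F ^ 3 = l := by
  have h1 : 1 ≤ Nat.card F := Nat.card_pos
  obtain ⟨q, hq⟩ : ∃ q, Nat.card F = q + 1 := ⟨Nat.card F - 1, by omega⟩
  have h2 : Nat.card F ^ 3 = 1 + (Nat.card F ^ 2 + Nat.card F + 1) * q := by
    rw [hq]
    ring
  rw [h2, pow_add, pow_one, pow_mul, h.one, one_pow, mul_one]

lemma IsSing.cop : Nat.Coprime (orderOf l) (Nat.card F) := by
  have h1 : Nat.gcd (orderOf l) (Nat.card F) ∣ Nat.card F ^ 2 + Nat.card F + 1 :=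
    (Nat.gcd_dvd_left _ _).trans h.dvd
  have h2 : Nat.gcd (orderOf l) (Nat.card F) ∣ Nat.card F ^ 2 + Nat.card F := by
    refine (Nat.gcd_dvd_right _ _).trans ⟨Nat.card F + 1, by ring⟩
  exact Nat.dvd_one.1 ((Nat.dvd_add_right h2).1 h1)

lemma IsSing.orderOf_lam (i : Fin 3) : orderOf (lam F l i) = orderOf l :=
  (h.cop.pow_right _).orderOf_pow

lemma IsSing.not_mem (i : Fin 3) (c : F) : lam F l i ^ 6 ≠ φ c := by
  intro hc
  have := Fintype.ofFinite F
  have h1 : (lam F l i ^ 6) ^ Nat.card F = lam F l i ^ 6 := by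
    rw [hc, ← map_pow, Nat.card_eq_fintype_card, FiniteField.pow_card]
  have h2 : lam F l i ^ (6 * (Nat.card F - 1)) = 1 := by
    have h3 : 1 ≤ Nat.card F := Nat.card_pos
    have h4 : lam F l i ^ (6 * (Nat.card F - 1)) * lam F l i ^ 6 = lam F l i ^ 6 := by
      rw [← pow_add, show 6 * (Nat.card F - 1) + 6 = 6 * Nat.card F by omega, pow_mul, h1]
    have h5 : lam F l i ≠ 0 := pow_ne_zero _ h.ne
    exact mul_right_cancel₀ (pow_ne_zero 6 h5) (by rw [h4, one_mul])
  rw [← orderOf_dvd_iff_pow_eq_one, h.orderOf_lam] at h2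
  exact h.ndvd h2

lemma IsSing.ne1 : l ^ Nat.card F ≠ l := by
  intro h1
  have h3 : 1 ≤ Nat.card F := Nat.card_pos
  have h2 : l ^ (6 * (Nat.card F - 1)) = 1 := by
    have h4 : l ^ (Nat.card F - 1) = 1 := by
      have h5 : l ^ (Nat.card F - 1) * l = l := by
        rw [← pow_succ, Nat.sub_add_cancel h3, h1]
      exact mul_right_cancel₀ h.ne (by rw [h5, one_mul])
    rw [mul_comm, pow_mul, h4, one_pow]
  exact h.ndvd (orderOf_dvd_iff_pow_eq_one.2 h2)

lemma IsSing.inj : Function.Injective (lam F l) := by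
  have h1 := h.ne1
  have h3 := h.cube
  have e01 : lam F l 0 ≠ lam F l 1 := by
    intro e
    simp only [lam, Fin.val_zero, Fin.val_one, pow_zero, pow_one] at e
    exact h1 e.symm
  have e02 : lam F l 0 ≠ lam F l 2 := by
    intro e
    simp only [lam, Fin.val_zero, Fin.val_two, pow_zero, pow_one] at e
    apply h1
    have h4 := congrArg (· ^ Nat.card F) e
    simp only [← pow_mul] at h4
    rw [show Nat.card F ^ 2 * Nat.card F = Nat.card F ^ 3 by ring, h3] at h4
    exact h4
  have e12 : lam F l 1 ≠ lam F l 2 := by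
    intro e
    simp only [lam, Fin.val_one, Fin.val_two, pow_one] at e
    apply h1
    have h4 := congrArg (· ^ Nat.card F ^ 2) e
    simp only [← pow_mul] at h4
    rw [show Nat.card F * Nat.card F ^ 2 = Nat.card F ^ 3 by ring, h3,
      show Nat.card F ^ 2 * Nat.card F ^ 2 = Nat.card F ^ 3 * Nat.card F by ring, pow_mul, h3] at h4
    exact h4.symm
  intro i j hij
  fin_cases i <;> fin_cases j
  · rfl
  · exact absurd hij e01
  · exact absurd hij e02
  · exact absurd hij.symm e01
  · rfl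
  · exact absurd hij e12
  · exact absurd hij.symm e02
  · exact absurd hij.symm e12
  · rfl

/-- the coefficients of the minimal polynomial -/
lemma IsSing.coeff (r : ℕ) [Fact r.Prime] [CharP F r] : ∃ a b : F,
    φ a = lam F l 0 + lam F l 1 + lam F l 2 ∧
    φ b = lam F l 0 * lam F l 1 + lam F l 1 * lam F l 2 + lam F l 2 * lam F l 0 := by
  have := Fintype.ofFinite F
  obtain ⟨N, -, hN⟩ := FiniteField.card F r
  have hK : CharP K r := charP_of_injective_ringHom φ.injective r
  have h0 : lam F l 0 ^ Nat.card F = lam F l 1 := by simp [lam]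
  have h1 : lam F l 1 ^ Nat.card F = lam F l 2 := by
    simp only [lam, Fin.val_one, Fin.val_two, pow_one, ← pow_mul]
    congr 1
    ring
  have h2 : lam F l 2 ^ Nat.card F = lam F l 0 := by
    have h3 := h.cube
    simp only [lam, Fin.val_two, Fin.val_zero, pow_zero, pow_one, ← pow_mul]
    rw [show Nat.card F ^ 2 * Nat.card F = Nat.card F ^ 3 by ring, h3]
  have hadd : ∀ x y : K, (x + y) ^ Nat.card F = x ^ Nat.card F + y ^ Nat.card F := by
    intro x y
    rw [Nat.card_eq_fintype_card, hN, add_pow_char_pow]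
  obtain ⟨a, ha⟩ := mem_F φ (x := lam F l 0 + lam F l 1 + lam F l 2) (by
    rw [hadd, hadd, h0, h1, h2]
    ring)
  obtain ⟨b, hb⟩ := mem_F φ (x := lam F l 0 * lam F l 1 + lam F l 1 * lam F l 2 +
      lam F l 2 * lam F l 0) (by
    rw [hadd, hadd, mul_pow, mul_pow, mul_pow, h0, h1, h2]
    ring)
  exact ⟨a, b, ha, hb⟩

end

omit [Finite F] in
/-- the cyclic permutation matrix times a unipotent matrix -/
lemma cyc_val (a b : F) : (nA⁻¹ * nB⁻¹ * (el 0 2 (by decide) (-b) * el 1 2 (by decide) a) :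
    GL (Fin 3) F).1 = !![0, 0, 1; 1, 0, -b; 0, 1, a] := by
  rw [Units.val_mul, Units.val_mul, Units.val_mul, nA_inv, nB_inv]
  simp only [el_val]
  ext i j
  fin_cases i <;> fin_cases j <;>
    simp [mul_apply, Fin.sum_univ_three, transvection, Matrix.single_apply, Matrix.one_apply]

/-- the companion matrix -/
def cyc (a b : F) : GL (Fin 3) F :=
  nA⁻¹ * nB⁻¹ * (el 0 2 (by decide) (-b) * el 1 2 (by decide) a)

omit [Finite F] in
lemma el02 (t : F) : (el 0 2 (by decide) t : GL (Fin 3) F) =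
    el 0 1 (by decide) t * el 1 2 (by decide) 1 * el 0 1 (by decide) (-t) *
      el 1 2 (by decide) (-1) := by
  apply Units.ext
  simp only [Units.val_mul, el_val]
  ext i j
  fin_cases i <;> fin_cases j <;>
    simp [mul_apply, Fin.sum_univ_three, transvection, Matrix.single_apply, Matrix.one_apply]

omit [Finite F] in
lemma cyc_mem {H : Subgroup (GL (Fin 3) F)} (h01 : ∀ t, el 0 1 (by decide) t ∈ H)
    (h10 : ∀ t, el 1 0 (by decide) t ∈ H) (h12 : ∀ t, el 1 2 (by decide) t ∈ H)
    (h21 : ∀ t, el 2 1 (by decide) t ∈ H) (a b : F) : cyc a b ∈ H := by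
  have hA : (nA : GL (Fin 3) F) ∈ H := mul_mem (mul_mem (h01 _) (h10 _)) (h01 _)
  have hB : (nB : GL (Fin 3) F) ∈ H := mul_mem (mul_mem (h12 _) (h21 _)) (h12 _)
  refine mul_mem (mul_mem (inv_mem hA) (inv_mem hB)) (mul_mem ?_ (h12 _))
  rw [el02]
  exact mul_mem (mul_mem (mul_mem (h01 _) (h12 _)) (h01 _)) (h12 _)

/-- the Vandermonde matrix -/
noncomputable def vdm (l : Fin 3 → K) (h : Function.Injective l) : GL (Fin 3) K :=
  Matrix.GeneralLinearGroup.mkOfDetNeZero (vandermonde l) (det_vandermonde_ne_zero_iff.2 h)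

omit [Finite F] in
lemma vdm_cyc {l : Fin 3 → K} (h : Function.Injective l) (hprod : l 0 * l 1 * l 2 = 1) {a b : F}
    (ha : φ a = l 0 + l 1 + l 2) (hb : φ b = l 0 * l 1 + l 1 * l 2 + l 2 * l 0) :
    (vdm l h).1 * (cyc a b).1.map φ = diagonal l * (vdm l h).1 := by
  have h1 : (vdm l h).1 = vandermonde l := rfl
  have h2 : (cyc a b).1 = !![0, 0, 1; 1, 0, -b; 0, 1, a] := cyc_val a b
  rw [h1, h2]
  ext i j
  rw [diagonal_mul, mul_apply, Fin.sum_univ_three]
  simp only [vandermonde_apply, map_apply]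
  fin_cases j
  · simp
  · simp [pow_two]
  · have h3 : l i ^ 3 = φ a * l i ^ 2 - φ b * l i + 1 := by
      rw [ha, hb]
      have h4 : (l i - l 0) * (l i - l 1) * (l i - l 2) = 0 := by
        fin_cases i <;> simp
      linear_combination h4 + hprod
    simp
    linear_combination -h3

/-- no eigenvectors -/
lemma noev {A : Matrix (Fin 3) (Fin 3) F} {P : GL (Fin 3) K} {μ : Fin 3 → K}
    (h : P.1 * A.map φ = diagonal μ * P.1) (hμ : ∀ i (c : F), μ i ^ 6 ≠ φ c) (w : Fin 3 → F) (c : F)
    (hw : w ≠ 0) : A ^ 6 *ᵥ w ≠ c • w := by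
  intro h6
  have key : ∀ k : ℕ, P.1 * (A ^ k).map φ = diagonal (fun i => μ i ^ k) * P.1 := by
    intro k
    induction k with
    | zero =>
      rw [pow_zero, Matrix.map_one _ (map_zero φ) (map_one φ), Matrix.mul_one]
      have : (fun i => μ i ^ 0) = fun _ => (1 : K) := funext fun i => pow_zero _
      rw [this, diagonal_one, Matrix.one_mul]
    | succ k ih =>
      rw [pow_succ, Matrix.map_mul, ← Matrix.mul_assoc, ih, Matrix.mul_assoc, h, ← Matrix.mul_assoc,
        diagonal_mul_diagonal]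
      congr 2
      funext i
      rw [pow_succ]
  have h1 : (A ^ 6).map φ *ᵥ (φ ∘ w) = φ c • (φ ∘ w) := by
    ext i
    rw [← RingHom.map_mulVec φ (A ^ 6) w i, h6]
    simp
  have h2 := congrArg (fun v => P.1 *ᵥ v) h1
  simp only [mulVec_mulVec, key 6, mulVec_smul] at h2
  rw [← mulVec_mulVec] at h2
  have h3 : P.1 *ᵥ (φ ∘ w) ≠ 0 := by
    intro h4
    have h5 : φ ∘ w = 0 := by
      have := congrArg (fun v => (P⁻¹ : GL (Fin 3) K).1 *ᵥ v) h4
      simpa only [mulVec_mulVec, ← Units.val_mul, inv_mul_cancel, Units.val_one, one_mulVec,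
        mulVec_zero] using this
    apply hw
    ext i
    have := congrFun h5 i
    simpa using this
  obtain ⟨i, hi⟩ := Function.ne_iff.1 h3
  have h4 := congrFun h2 i
  rw [mulVec_diagonal, Pi.smul_apply, smul_eq_mul] at h4
  exact hμ i c (mul_right_cancel₀ hi h4)

end

end Vale.Agent.P240.H138
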