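import Mathlib.FieldTheory.IsAlgClosed.AlgebraicClosure
import Vale.Agent.P240.H138.Singer

/-!
Singer elements: existence and their action on the `27`-dimensional module.
-/

set_option autoImplicit false

namespace Vale.Agent.P240.H138

open Matrix Polynomial

section
variable {F K : Type*} [Field F] [Field K]

lemma exists_sing (F : Type*) [Field F] [Finite F] :
    ∃ l : AlgebraicClosure F, IsSing F l ∧ orderOf l = Nat.card F ^ 2 + Nat.card F + 1 := by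
  have := Fintype.ofFinite F
  have h0 : ((Nat.card F : ℕ) : AlgebraicClosure F) = 0 := by
    rw [Nat.card_eq_fintype_card, ← map_natCast (algebraMap F (AlgebraicClosure F)),
      FiniteField.cast_card_eq_zero, map_zero]
  have h1 : NeZero ((Nat.card F ^ 2 + Nat.card F + 1 : ℕ) : AlgebraicClosure F) := by
    refine ⟨?_⟩
    push_cast
    rw [h0]
    simp
  obtain ⟨l, hl⟩ := HasEnoughRootsOfUnity.exists_primitiveRoot (AlgebraicClosure F)
    (Nat.card F ^ 2 + Nat.card F + 1)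
  have h2 : orderOf l = Nat.card F ^ 2 + Nat.card F + 1 := hl.eq_orderOf.symm
  refine ⟨l, ⟨by rw [h2], ?_⟩, h2⟩
  rw [h2]
  intro h3
  have h4 : 1 < Nat.card F := by
    rw [Nat.card_eq_fintype_card]
    exact Fintype.one_lt_card
  obtain ⟨m, hm⟩ : ∃ m, Nat.card F = m + 2 := ⟨Nat.card F - 2, by omega⟩
  have h5 := Nat.le_of_dvd (by omega) h3
  rw [hm] at h5
  have h6 : 6 * (m + 2 - 1) = 6 * m + 6 := by omega
  rw [h6] at h5
  nlinarith [sq_nonneg ((m : ℤ) - 1)]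

/-- a diagonal conjugate -/
lemma vdm_conj (φ : F →+* K) {l : Fin 3 → K} (h : Function.Injective l)
    (hprod : l 0 * l 1 * l 2 = 1) {a b : F}
    (ha : φ a = l 0 + l 1 + l 2) (hb : φ b = l 0 * l 1 + l 1 * l 2 + l 2 * l 0)
    (hl : ∀ i, l i ≠ 0) : vdm l h * mG (Fin 3) φ (cyc a b) * (vdm l h)⁻¹ = d3 l hl := by
  rw [mul_inv_eq_iff_eq_mul]
  apply Units.ext
  rw [Units.val_mul, Units.val_mul]
  exact vdm_cyc φ h hprod ha hb

theorem sing_dg (φ : F →+* K) {l : Fin 3 → K} (h : Function.Injective l)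
    (hprod : l 0 * l 1 * l 2 = 1) {a b : F}
    (ha : φ a = l 0 + l 1 + l 2) (hb : φ b = l 0 * l 1 + l 1 * l 2 + l 2 * l 0)
    (hl : ∀ i, l i ≠ 0) : Dg φ (T ![1, cyc a b, (cyc a b)⁻¹]) (dlt l) := by
  have h1 := vdm_conj φ h hprod ha hb hl
  refine ⟨T ![1, vdm l h, vdm l h], ?_⟩
  rw [← T_d3 l hl, ← mG_val, T_map, ← Units.val_mul, ← Units.val_mul, ← map_inv, ← map_mul, ← map_mul]
  congr 2
  funext c
  fin_cases c
  · change 1 * mG (Fin 3) φ 1 * 1⁻¹ = 1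
    rw [map_one]
    group
  · exact h1
  · change vdm l h * mG (Fin 3) φ (cyc a b)⁻¹ * (vdm l h)⁻¹ = (d3 l hl)⁻¹
    rw [← h1, map_inv]
    group

/-- the transposed inverse -/
def tiG (g : GL (Fin 3) K) : GL (Fin 3) K where
  val := (g⁻¹.1)ᵀ
  inv := g.1ᵀ
  val_inv := by rw [← transpose_mul, Units.mul_inv, transpose_one]
  inv_val := by rw [← transpose_mul, Units.inv_mul, transpose_one]

variable [Finite F]

theorem sing_noev1 (φ : F →+* K) {l : Fin 3 → K} (h : Function.Injective l)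
    (hprod : l 0 * l 1 * l 2 = 1) {a b : F}
    (ha : φ a = l 0 + l 1 + l 2) (hb : φ b = l 0 * l 1 + l 1 * l 2 + l 2 * l 0)
    (hl : ∀ i, l i ≠ 0) (hμ : ∀ i (c : F), l i ^ 6 ≠ φ c) (w : Fin 3 → F) (c : F) (hw : w ≠ 0) :
    (((cyc a b)⁻¹.1)ᵀ ^ 6) *ᵥ w ≠ c • w := by
  have h1 := vdm_conj φ h hprod ha hb hl
  refine noev φ (P := tiG (vdm l h)) (μ := fun i => (l i)⁻¹) ?_ ?_ w c hw
  · have h2 : mG (Fin 3) φ (cyc a b)⁻¹ * (vdm l h)⁻¹ = (vdm l h)⁻¹ * (d3 l hl)⁻¹ := by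
      rw [← h1, map_inv]
      group
    have h3 := congrArg (fun x : GL (Fin 3) K => x.1ᵀ) h2
    simp only [Units.val_mul, transpose_mul] at h3
    change ((vdm l h)⁻¹.1)ᵀ * (((cyc a b)⁻¹.1)ᵀ).map φ = _
    refine Eq.trans (b := ((vdm l h)⁻¹.1)ᵀ * ((mG (Fin 3) φ (cyc a b)⁻¹).1)ᵀ) rfl (h3.trans ?_)
    change (diagonal fun i => (l i)⁻¹)ᵀ * _ = _
    rw [diagonal_transpose]
    rfl
  · intro i c hc
    refine hμ i c⁻¹ ?_
    rw [map_inv₀, ← hc, inv_pow, inv_inv]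

theorem sing_noev2 (φ : F →+* K) {l : Fin 3 → K} (h : Function.Injective l)
    (hprod : l 0 * l 1 * l 2 = 1) {a b : F}
    (ha : φ a = l 0 + l 1 + l 2) (hb : φ b = l 0 * l 1 + l 1 * l 2 + l 2 * l 0)
    (hl : ∀ i, l i ≠ 0) (hμ : ∀ i (c : F), l i ^ 6 ≠ φ c) (w : Fin 3 → F) (c : F) (hw : w ≠ 0) :
    ((cyc a b)⁻¹.1 ^ 6) *ᵥ w ≠ c • w := by
  have h1 := vdm_conj φ h hprod ha hb hl
  refine noev φ (P := vdm l h) (μ := fun i => (l i)⁻¹) ?_ ?_ w c hw
  · have h2 : vdm l h * mG (Fin 3) φ (cyc a b)⁻¹ = (d3 l hl)⁻¹ * vdm l h := by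
      rw [← h1, map_inv]
      group
    have h3 := congrArg Units.val h2
    exact h3
  · intro i c hc
    refine hμ i c⁻¹ ?_
    rw [map_inv₀, ← hc, inv_pow, inv_inv]

end

end Vale.Agent.P240.H138
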