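import Vale.Agent.P240.H138.Two

/-!
Sets of commuting involutions of the `27`-dimensional module.
-/

set_option autoImplicit false

namespace Vale.Agent.P240.H138

open Matrix

section
variable {K : Type*} [Field K]

/-- the second row of `A` -/
def m2 (a : Fin 3 → K) : I → K := fun p => if p.1 = 0 ∧ p.2.1 = 1 then a p.2.2 else 0

/-- the third row of `A` -/
def m3 (a : Fin 3 → K) : I → K := fun p => if p.1 = 0 ∧ p.2.1 = 2 then a p.2.2 else 0

/-- the second column of `C` -/
def k2 (a : Fin 3 → K) : I → K := fun p => if p.1 = 2 ∧ p.2.2 = 1 then a p.2.1 else 0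

/-- the first column of `C` -/
def k3 (a : Fin 3 → K) : I → K := fun p => if p.1 = 2 ∧ p.2.2 = 0 then a p.2.1 else 0

lemma x12_m2 (a : Fin 3 → K) : x12 K *ᵥ m2 a = iA a := by
  ext ⟨c, i, j⟩
  rw [x12_mulVec, iA_apply]
  fin_cases c <;> fin_cases i <;> fin_cases j <;> simp [m2]

lemma x23_m2 (a : Fin 3 → K) : x23 K *ᵥ m2 a = 0 := by
  ext ⟨c, i, j⟩
  rw [x23_mulVec]
  fin_cases c <;> fin_cases i <;> fin_cases j <;> simp [m2]

lemma x23_m3 (a : Fin 3 → K) : x23 K *ᵥ m3 a = m2 a := by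
  ext ⟨c, i, j⟩
  rw [x23_mulVec]
  fin_cases c <;> fin_cases i <;> fin_cases j <;> simp [m2, m3]

lemma x12_k2 (a : Fin 3 → K) : x12 K *ᵥ k2 a = 0 := by
  ext ⟨c, i, j⟩
  rw [x12_mulVec]
  fin_cases c <;> fin_cases i <;> fin_cases j <;> simp [k2]

lemma x23_k2 (a : Fin 3 → K) : x23 K *ᵥ k2 a = -iC a := by
  ext ⟨c, i, j⟩
  rw [x23_mulVec, Pi.neg_apply, iC_apply]
  fin_cases c <;> fin_cases i <;> fin_cases j <;> simp [k2]

lemma x12_k3 (a : Fin 3 → K) : x12 K *ᵥ k3 a = -k2 a := by
  ext ⟨c, i, j⟩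
  rw [x12_mulVec, Pi.neg_apply]
  fin_cases c <;> fin_cases i <;> fin_cases j <;> simp [k2, k3]

variable {e : Matrix I I K} (h12 : e * x12 K = x12 K * e) (h23 : e * x23 K = x23 K * e)
  (hN : ∀ v, Nf (e *ᵥ v) = Nf v)
include h12 h23 hN

omit h23 hN in
lemma comm12 (v : I → K) : x12 K *ᵥ (e *ᵥ v) = e *ᵥ (x12 K *ᵥ v) := by
  rw [mulVec_mulVec, mulVec_mulVec, h12]

omit h12 hN in
lemma comm23 (v : I → K) : x23 K *ᵥ (e *ᵥ v) = e *ᵥ (x23 K *ᵥ v) := by
  rw [mulVec_mulVec, mulVec_mulVec, h23]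

/-- the scalar on the first row -/
lemma scalA {α : K} (hA : ∀ a, e *ᵥ iA a = α • iA a) : α * α * α = 1 := by
  set u := e *ᵥ m2 (fun j => if j = 1 then (1 : K) else 0) with hu
  set w := e *ᵥ m3 (fun j => if j = 2 then (1 : K) else 0) with hw
  have u1 : x12 K *ᵥ u = α • iA (fun j => if j = 1 then (1 : K) else 0) := by
    rw [hu, comm12 h12, x12_m2, hA]
  have u2 : x23 K *ᵥ u = 0 := by
    rw [hu, comm23 h23, x23_m2, mulVec_zero]
  have w2 : x12 K *ᵥ (x23 K *ᵥ w) = α • iA (fun j => if j = 2 then (1 : K) else 0) := by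
    rw [hw, comm23 h23, comm12 h12, x23_m3, x12_m2, hA]
  -- the vectors in the second row
  have w3 : ∀ a : Fin 3 → K, ∀ c i j, c = 1 ∨ (c = 0 ∧ i = 0) → (e *ᵥ m2 a) (c, i, j) = 0 := by
    intro a c i j h
    have h1 : x23 K *ᵥ (e *ᵥ m3 a) = e *ᵥ m2 a := by
      rw [comm23 h23, x23_m3]
    rw [← h1, x23_mulVec]
    rcases h with rfl | ⟨rfl, rfl⟩ <;> simp
  have hu' : u = fun p => if p.1 = 0 ∧ p.2.1 = 1 ∧ p.2.2 = 1 then α else
      if p.1 = 2 ∧ p.2.2 = 2 then (fun i => u (2, i, 2)) p.2.1 else 0 := by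
    ext ⟨c, i, j⟩
    fin_cases c
    · fin_cases i
      · simp only [Fin.zero_eta, Fin.isValue]
        rw [hu, w3 _ _ _ _ (Or.inr ⟨rfl, rfl⟩)]
        simp
      · have h1 := congrFun u1 (0, 0, j)
        rw [x12_mulVec, Pi.smul_apply, iA_apply] at h1
        simp only [Fin.isValue, and_self, if_true, Fin.reduceEq, false_and, if_false, sub_zero,
          smul_eq_mul] at h1
        simp only [Fin.isValue, Fin.zero_eta, Fin.mk_one, true_and, Fin.reduceEq, false_and, if_false]
        rw [h1]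
        split_ifs <;> simp
      · have h1 := congrFun u2 (0, 1, j)
        rw [x23_mulVec] at h1
        simpa using h1
    · simp only [Fin.mk_one, Fin.isValue]
      rw [hu, w3 _ _ _ _ (Or.inl rfl)]
      simp
    · fin_cases j
      · have h1 := congrFun u1 (2, i, 1)
        rw [x12_mulVec, Pi.smul_apply, iA_apply] at h1
        simpa using h1
      · have h1 := congrFun u2 (2, i, 2)
        rw [x23_mulVec] at h1
        simpa using h1
      · simp
  have hw' : ∀ j, w (0, 2, j) = if j = 2 then α else 0 := by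
    intro j
    have h1 := congrFun w2 (0, 0, j)
    rw [PA_eq, iA_apply, Pi.smul_apply, iA_apply] at h1
    simp only [Fin.isValue, and_self, if_true, smul_eq_mul] at h1
    rw [h1]
    split_ifs <;> simp
  have h1 : e *ᵥ iA (fun j => if j = 0 then (1 : K) else 0) =
      fun p => if p.1 = 0 ∧ p.2.1 = 0 ∧ p.2.2 = 0 then α else 0 := by
    rw [hA]
    ext ⟨c, i, j⟩
    rw [Pi.smul_apply, iA_apply]
    fin_cases c <;> fin_cases i <;> fin_cases j <;> simp
  have h2 := N3_inv hN (iA (fun j => if j = 0 then (1 : K) else 0))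
    (m2 (fun j => if j = 1 then (1 : K) else 0)) (m3 (fun j => if j = 2 then (1 : K) else 0))
  have h4 : N3 (fun p => if p.1 = 0 ∧ p.2.1 = 0 ∧ p.2.2 = 0 then α else 0) u w = α * α * α := by
    rw [hu']
    exact N3_eval1 α (fun i => u (2, i, 2)) w hw'
  rw [h1, ← hu, ← hw, h4] at h2
  rw [h2]
  have h3 := N3_eval1 (1 : K) (fun _ => 0) (m3 (fun j => if j = 2 then (1 : K) else 0))
    (fun j => by simp [m3])
  rw [one_mul, one_mul] at h3
  refine Eq.trans ?_ h3
  congr 1
  · ext ⟨c, i, j⟩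
    rw [iA_apply]
    fin_cases c <;> fin_cases i <;> fin_cases j <;> simp
  · ext ⟨c, i, j⟩
    fin_cases c <;> fin_cases i <;> fin_cases j <;> simp [m2]

/-- the scalar on the last column -/
lemma scalC {α : K} (hC : ∀ a, e *ᵥ iC a = α • iC a) : α * α * α = 1 := by
  set u := e *ᵥ k2 (fun j => if j = 1 then (1 : K) else 0) with hu
  set w := e *ᵥ k3 (fun j => if j = 0 then (1 : K) else 0) with hw
  have u1 : x23 K *ᵥ u = -(α • iC (fun j => if j = 1 then (1 : K) else 0)) := by
    rw [hu, comm23 h23, x23_k2, mulVec_neg, hC]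
  have u2 : x12 K *ᵥ u = 0 := by
    rw [hu, comm12 h12, x12_k2, mulVec_zero]
  have w2 : x23 K *ᵥ (x12 K *ᵥ w) = α • iC (fun j => if j = 0 then (1 : K) else 0) := by
    rw [hw, comm12 h12, comm23 h23, x12_k3, mulVec_neg, x23_k2, neg_neg, hC]
  have w3 : ∀ a : Fin 3 → K, ∀ c i j, c = 1 ∨ (c = 2 ∧ j = 2) → (e *ᵥ k2 a) (c, i, j) = 0 := by
    intro a c i j h
    have h1 : x12 K *ᵥ (e *ᵥ k3 a) = -(e *ᵥ k2 a) := by
      rw [comm12 h12, x12_k3, mulVec_neg]
    have h2 := congrFun h1 (c, i, j)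
    rw [x12_mulVec, Pi.neg_apply] at h2
    rw [← neg_eq_zero, ← h2]
    rcases h with rfl | ⟨rfl, rfl⟩ <;> simp
  have hu' : u = fun p => if p.1 = 2 ∧ p.2.1 = 1 ∧ p.2.2 = 1 then α else
      if p.1 = 0 ∧ p.2.1 = 0 then (fun j => u (0, 0, j)) p.2.2 else 0 := by
    ext ⟨c, i, j⟩
    fin_cases c
    · fin_cases i
      · simp
      · have h1 := congrFun u2 (0, 0, j)
        rw [x12_mulVec] at h1
        simpa using h1
      · have h1 := congrFun u1 (0, 1, j)
        rw [x23_mulVec, Pi.neg_apply, Pi.smul_apply, iC_apply] at h1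
        simpa using h1
    · simp only [Fin.mk_one, Fin.isValue]
      rw [hu, w3 _ _ _ _ (Or.inl rfl)]
      simp
    · fin_cases j
      · have h1 := congrFun u2 (2, i, 1)
        rw [x12_mulVec] at h1
        simpa using h1
      · have h1 := congrFun u1 (2, i, 2)
        rw [x23_mulVec, Pi.neg_apply, Pi.smul_apply, iC_apply] at h1
        simp only [Fin.isValue, and_self, if_true, Fin.reduceEq, false_and, if_false, zero_sub,
          smul_eq_mul, neg_inj] at h1
        simp only [Fin.isValue, Fin.reduceFinMk, Fin.mk_one, true_and, and_true, Fin.reduceEq,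
          false_and, if_false]
        rw [h1]
        split_ifs <;> simp
      · simp only [Fin.isValue, Fin.reduceFinMk]
        rw [hu, w3 _ _ _ _ (Or.inr ⟨rfl, rfl⟩)]
        simp
  have hw' : ∀ i, w (2, i, 0) = if i = 0 then α else 0 := by
    intro i
    have h1 := congrFun w2 (2, i, 2)
    rw [PC_eq, iC_apply, Pi.smul_apply, iC_apply] at h1
    simp only [Fin.isValue, and_self, if_true, smul_eq_mul] at h1
    rw [h1]
    split_ifs <;> simp
  have h1 : e *ᵥ iC (fun j => if j = 2 then (1 : K) else 0) =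
      fun p => if p.1 = 2 ∧ p.2.1 = 2 ∧ p.2.2 = 2 then α else 0 := by
    rw [hC]
    ext ⟨c, i, j⟩
    rw [Pi.smul_apply, iC_apply]
    fin_cases c <;> fin_cases i <;> fin_cases j <;> simp
  have h2 := N3_inv hN (iC (fun j => if j = 2 then (1 : K) else 0))
    (k2 (fun j => if j = 1 then (1 : K) else 0)) (k3 (fun j => if j = 0 then (1 : K) else 0))
  have h4 : N3 (fun p => if p.1 = 2 ∧ p.2.1 = 2 ∧ p.2.2 = 2 then α else 0) u w = α * α * α := by
    rw [hu']
    exact N3_eval2 α (fun j => u (0, 0, j)) w hw'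
  rw [h1, ← hu, ← hw, h4] at h2
  rw [h2]
  have h3 := N3_eval2 (1 : K) (fun _ => 0) (k3 (fun j => if j = 0 then (1 : K) else 0))
    (fun j => by simp [k3])
  rw [one_mul, one_mul] at h3
  refine Eq.trans ?_ h3
  congr 1
  · ext ⟨c, i, j⟩
    rw [iC_apply]
    fin_cases c <;> fin_cases i <;> fin_cases j <;> simp
  · ext ⟨c, i, j⟩
    fin_cases c <;> fin_cases i <;> fin_cases j <;> simp [k2]

/-- trivial action on the first row and the last column -/
lemma eq_one_of (h2 : (2 : K) ≠ 0) (he : e * e = 1) (hA : ∀ a, e *ᵥ iA a = iA a)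
    (hC : ∀ a, e *ᵥ iC a = iC a) : e = 1 := by
  have hz : ∀ x : K, x = -x → x = 0 := by
    intro x hx
    have h3 : 2 * x = 0 := by linear_combination hx
    rcases mul_eq_zero.1 h3 with h4 | h4
    · exact absurd h4 h2
    · exact h4
  have key : ∀ w, e *ᵥ w = -w → w = 0 := by
    intro w hw
    have a2 : ∀ j, w (0, 2, j) = 0 := by
      intro j
      have h3 : e *ᵥ (x12 K *ᵥ (x23 K *ᵥ w)) = -(x12 K *ᵥ (x23 K *ᵥ w)) := by
        rw [← comm12 h12, ← comm23 h23, hw, mulVec_neg, mulVec_neg]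
      rw [PA_eq, hA] at h3
      have h4 := congrFun h3 (0, 0, j)
      rw [Pi.neg_apply, iA_apply] at h4
      simp only [Fin.isValue, and_self, if_true] at h4
      exact hz _ h4
    have c0 : ∀ i, w (2, i, 0) = 0 := by
      intro i
      have h3 : e *ᵥ (x23 K *ᵥ (x12 K *ᵥ w)) = -(x23 K *ᵥ (x12 K *ᵥ w)) := by
        rw [← comm23 h23, ← comm12 h12, hw, mulVec_neg, mulVec_neg]
      rw [PC_eq, hC] at h3
      have h4 := congrFun h3 (2, i, 2)
      rw [Pi.neg_apply, iC_apply] at h4
      simp only [Fin.isValue, and_self, if_true] at h4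
      exact hz _ h4
    have a1 : ∀ j, w (0, 1, j) = 0 := by
      intro j
      have h3 : e *ᵥ (x12 K *ᵥ w) = -(x12 K *ᵥ w) := by
        rw [← comm12 h12, hw, mulVec_neg]
      have h5 : x12 K *ᵥ w = iA (fun j => w (0, 1, j)) := by
        ext ⟨c, i, j⟩
        rw [x12_mulVec, iA_apply]
        fin_cases c <;> fin_cases i <;> fin_cases j <;> simp [c0]
      rw [h5, hA] at h3
      have h4 := congrFun h3 (0, 0, j)
      rw [Pi.neg_apply, iA_apply] at h4
      simp only [Fin.isValue, and_self, if_true] at h4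
      exact hz _ h4
    have c1 : ∀ i, w (2, i, 1) = 0 := by
      intro i
      have h3 : e *ᵥ (x23 K *ᵥ w) = -(x23 K *ᵥ w) := by
        rw [← comm23 h23, hw, mulVec_neg]
      have h5 : x23 K *ᵥ w = iC (fun i => -w (2, i, 1)) := by
        ext ⟨c, i, j⟩
        rw [x23_mulVec, iC_apply]
        fin_cases c <;> fin_cases i <;> fin_cases j <;> simp [a2]
      rw [h5, hC] at h3
      have h4 := congrFun h3 (2, i, 2)
      rw [Pi.neg_apply, iC_apply] at h4
      simp only [Fin.isValue, and_self, if_true] at h4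
      exact neg_eq_zero.1 (hz _ h4)
    have hB : ∀ j k, w (1, j, k) = 0 := by
      intro j k
      set u := e *ᵥ k3 (fun i => if i = k then (1 : K) else 0) with hu
      have hu0 : ∀ i, u (2, i, 0) = if i = k then 1 else 0 := by
        intro i
        have h3 : x23 K *ᵥ (x12 K *ᵥ u) = iC (fun i => if i = k then (1 : K) else 0) := by
          rw [hu, comm12 h12, comm23 h23, x12_k3, mulVec_neg, x23_k2, neg_neg, hC]
        rw [PC_eq] at h3
        have h4 := congrFun h3 (2, i, 2)
        rw [iC_apply, iC_apply] at h4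
        simpa using h4
      have h3 := N3_inv hN (iA (fun i => if i = j then (1 : K) else 0))
        (k3 (fun i => if i = k then (1 : K) else 0)) w
      rw [hA, ← hu, hw, N3_eval3 _ _ _ (fun j => by rw [Pi.neg_apply, a1, neg_zero])
        (fun j => by rw [Pi.neg_apply, a2, neg_zero]) (fun j => by rw [Pi.neg_apply, c0, neg_zero])
        (fun j => by rw [Pi.neg_apply, c1, neg_zero]), N3_eval3 _ _ _ a1 a2 c0 c1] at h3
      simp only [hu0, k3, Pi.neg_apply] at h3
      simp only [Fin.isValue, ite_mul, one_mul, zero_mul, mul_ite, mul_one, mul_zero, mul_neg,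
        and_self, if_true, Finset.sum_ite_eq', Finset.mem_univ, Finset.sum_neg_distrib,
        neg_neg] at h3
      exact hz _ h3
    have hw0 : w = iA (fun j => w (0, 0, j)) + iC (fun i => w (2, i, 2)) := by
      ext ⟨c, i, j⟩
      rw [Pi.add_apply, iA_apply, iC_apply]
      fin_cases c
      · fin_cases i
        · simp
        · simp [a1]
        · simp [a2]
      · simp [hB]
      · fin_cases j
        · simp [c0]
        · simp [c1]
        · simp
    have h3 : w = -w := by
      rw [← hw]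
      conv_rhs => rw [hw0]
      rw [mulVec_add, hA, hC, ← hw0]
    ext p
    exact hz _ (congrFun h3 p)
  apply mulVec_injective
  funext v
  have h3 : e *ᵥ (v - e *ᵥ v) = -(v - e *ᵥ v) := by
    rw [mulVec_sub, mulVec_mulVec, he, one_mulVec, neg_sub]
  have h4 := key _ h3
  rw [one_mulVec]
  exact (sub_eq_zero.1 h4).symm

end

end Vale.Agent.P240.H138
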