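import Mathlib.LinearAlgebra.Matrix.ToLin
import Vale.Agent.P240.H138.Two2

/-!
Sets of commuting involutions of the `27`-dimensional module.
-/

set_option autoImplicit false

namespace Vale.Agent.P240.H138

open Matrix

section
variable {K : Type*} [Field K]

lemma x12_sq : x12 K * x12 K = 0 := by
  rw [x12, ← map_mul, NS001_sq, map_zero]

lemma x23_sq : x23 K * x23 K = 0 := NF_sq (F := K) 1

/-- the action of `(x, y, z)` on the first row -/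
lemma T_iA (g1 g2 : GL (Fin 3) K) (a : Fin 3 → K) :
    (T ![1, g1, g2]).1 *ᵥ iA a = iA ((g1⁻¹.1)ᵀ *ᵥ a) := by
  ext ⟨c, i, j⟩
  rw [T_val, TM_mulVec, iA_apply]
  simp only [iA_apply]
  fin_cases c <;> fin_cases i <;>
    simp [Fin.sum_univ_three, mulVec, dotProduct, mul_comm]

/-- the action of `(x, y, z)` on the last column -/
lemma T_iC (g1 g2 : GL (Fin 3) K) (a : Fin 3 → K) :
    (T ![1, g1, g2]).1 *ᵥ iC a = iC (g2.1 *ᵥ a) := by
  ext ⟨c, i, j⟩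
  rw [T_val, TM_mulVec, iC_apply]
  simp only [iC_apply]
  fin_cases c <;> fin_cases j <;>
    simp [Fin.sum_univ_three, mulVec, dotProduct]

/-- the restriction to the first row -/
def restA (e : Matrix I I K) : (Fin 3 → K) →ₗ[K] (Fin 3 → K) := rA ∘ₗ (e.mulVecLin ∘ₗ iA)

/-- the restriction to the last column -/
def restC (e : Matrix I I K) : (Fin 3 → K) →ₗ[K] (Fin 3 → K) := rC ∘ₗ (e.mulVecLin ∘ₗ iC)

lemma restA_eq {e : Matrix I I K} (h12 : e * x12 K = x12 K * e) (h23 : e * x23 K = x23 K * e)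
    (a : Fin 3 → K) : iA (restA e a) = e *ᵥ iA a := by
  have h1 : e *ᵥ iA a = x12 K *ᵥ (x23 K *ᵥ (e *ᵥ m3 a)) := by
    rw [comm23 h23, comm12 h12, x23_m3, x12_m2]
  have h2 : restA e a = rA (e *ᵥ iA a) := rfl
  rw [h2, h1, PA_eq]
  rfl

lemma restC_eq {e : Matrix I I K} (h12 : e * x12 K = x12 K * e) (h23 : e * x23 K = x23 K * e)
    (a : Fin 3 → K) : iC (restC e a) = e *ᵥ iC a := by
  have h1 : e *ᵥ iC a = x23 K *ᵥ (x12 K *ᵥ (e *ᵥ k3 a)) := by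
    rw [comm12 h12, comm23 h23, x12_k3, mulVec_neg, x23_k2, neg_neg]
  have h2 : restC e a = rC (e *ᵥ iC a) := rfl
  rw [h2, h1, PC_eq]
  rfl

lemma iA_inj {a b : Fin 3 → K} (h : iA a = iA b) : a = b := by
  rw [← rA_iA a, h, rA_iA]

lemma iC_inj {a b : Fin 3 → K} (h : iC a = iC b) : a = b := by
  rw [← rC_iC a, h, rC_iC]

/-- conjugates -/
lemma conj_mulVec (g : GL I K) (e : Matrix I I K) (v : I → K) :
    (g.1 * e * g⁻¹.1) *ᵥ (g.1 *ᵥ v) = g.1 *ᵥ (e *ᵥ v) := by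
  rw [mulVec_mulVec, mulVec_mulVec, Matrix.mul_assoc (g.1 * e), Units.inv_mul, Matrix.mul_one]

/-- **the action on a `3`-dimensional subspace** -/
theorem three_of (h2 : (2 : K) ≠ 0) {S : Set (Matrix I I K)} (hsq : ∀ e ∈ S, e * e = 1)
    (hcomm : ∀ e ∈ S, ∀ f ∈ S, e * f = f * e) {g : GL I K} (hg : ∀ e ∈ S, g.1 * e * g⁻¹.1 ∈ S)
    {i : (Fin 3 → K) →ₗ[K] (I → K)} (hi : Function.Injective i)
    (rest : Matrix I I K → ((Fin 3 → K) →ₗ[K] (Fin 3 → K)))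
    (hrest : ∀ e ∈ S, ∀ a, i (rest e a) = e *ᵥ i a)
    {h : Matrix (Fin 3) (Fin 3) K} (hh : ∀ a, g.1 *ᵥ i a = i (h *ᵥ a))
    (hev : ∀ (w : Fin 3 → K) (c : K), w ≠ 0 → (h ^ 6) *ᵥ w ≠ c • w) {e : Matrix I I K} (he : e ∈ S) :
    ∃ α : K, α * α = 1 ∧ ∀ a, e *ᵥ i a = α • i a := by
  have hinj : Function.Injective h.mulVecLin := by
    intro a b hab
    have h3 : h *ᵥ a = h *ᵥ b := hab
    have h4 : g.1 *ᵥ i a = g.1 *ᵥ i b := by rw [hh, hh, h3]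
    have h5 : ∀ v : I → K, g⁻¹.1 *ᵥ (g.1 *ᵥ v) = v := fun v => by
      rw [mulVec_mulVec, Units.inv_mul, one_mulVec]
    exact hi (by rw [← h5 (i a), h4, h5])
  have hsq' : ∀ f ∈ S, ∀ x, rest f (rest f x) = x := by
    intro f hf x
    apply hi
    rw [hrest f hf, hrest f hf, mulVec_mulVec, hsq f hf, one_mulVec]
  have hcomm' : ∀ f ∈ S, ∀ f' ∈ S, ∀ x, rest f (rest f' x) = rest f' (rest f x) := by
    intro f hf f' hf' x
    apply hi
    rw [hrest f hf, hrest f' hf', hrest f' hf', hrest f hf, mulVec_mulVec, mulVec_mulVec,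
      hcomm f hf f' hf']
  have hconj : ∀ f ∈ S, ∀ x, h.mulVecLin (rest f x) = rest (g.1 * f * g⁻¹.1) (h.mulVecLin x) := by
    intro f hf x
    apply hi
    rw [hrest _ (hg f hf)]
    change i (h *ᵥ rest f x) = (g.1 * f * g⁻¹.1) *ᵥ i (h *ᵥ x)
    rw [← hh, ← hh, hrest f hf, conj_mulVec]
  have he1 := hg e he
  have he2 := hg _ he1
  rcases three (V := Fin 3 → K) h2 (by simp) (e₀ := rest e) (e₁ := rest (g.1 * e * g⁻¹.1))
    (e₂ := rest (g.1 * (g.1 * e * g⁻¹.1) * g⁻¹.1)) hinj (hsq' e he) (hsq' _ he1) (hsq' _ he2)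
    (hcomm' e he _ he1) (hcomm' e he _ he2) (hconj e he) (hconj _ he1) with h3 | h3 | ⟨w, c, hw, h3⟩
  · refine ⟨1, one_mul 1, fun a => ?_⟩
    rw [← hrest e he, h3, one_smul]
    rfl
  · refine ⟨-1, by ring, fun a => ?_⟩
    rw [← hrest e he, h3, neg_smul, one_smul, ← map_neg]
    rfl
  · exfalso
    refine hev w c hw ?_
    rw [← h3]
    simp only [mulVecLin_apply, mulVec_mulVec]
    congr 1
    simp only [pow_succ, pow_zero, Matrix.one_mul, Matrix.mul_assoc]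

/-- **Lemma II** -/
theorem lemII (h2 : (2 : K) ≠ 0) {S : Set (Matrix I I K)} (hsq : ∀ e ∈ S, e * e = 1)
    (hcomm : ∀ e ∈ S, ∀ f ∈ S, e * f = f * e) (hN : ∀ e ∈ S, ∀ v, Nf (e *ᵥ v) = Nf v)
    (h12 : ∀ e ∈ S, (1 + x12 K) * e * (1 - x12 K) ∈ S ∧ (1 - x12 K) * e * (1 + x12 K) ∈ S)
    (h23 : ∀ e ∈ S, (1 + x23 K) * e * (1 - x23 K) ∈ S ∧ (1 - x23 K) * e * (1 + x23 K) ∈ S)
    {g1 g2 : GL (Fin 3) K}
    (hg : ∀ e ∈ S, (T ![1, g1, g2]).1 * e * (T ![1, g1, g2])⁻¹.1 ∈ S)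
    (hev1 : ∀ (w : Fin 3 → K) (c : K), w ≠ 0 → (((g1⁻¹.1)ᵀ) ^ 6) *ᵥ w ≠ c • w)
    (hev2 : ∀ (w : Fin 3 → K) (c : K), w ≠ 0 → (g2.1 ^ 6) *ᵥ w ≠ c • w) : ∀ e ∈ S, e = 1 := by
  have c12 : ∀ e ∈ S, e * x12 K = x12 K * e := fun e he =>
    quad h2 x12_sq (hsq e he) (hsq _ (h12 e he).1) (hsq _ (h12 e he).2)
      (hcomm e he _ (h12 e he).1) (hcomm e he _ (h12 e he).2)
      (hcomm _ (h12 e he).1 _ (h12 e he).2) rfl rfl
  have c23 : ∀ e ∈ S, e * x23 K = x23 K * e := fun e he =>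
    quad h2 x23_sq (hsq e he) (hsq _ (h23 e he).1) (hsq _ (h23 e he).2)
      (hcomm e he _ (h23 e he).1) (hcomm e he _ (h23 e he).2)
      (hcomm _ (h23 e he).1 _ (h23 e he).2) rfl rfl
  intro e he
  have hone : ∀ α : K, α * α = 1 → α * α * α = 1 → α = 1 := by
    intro α h3 h4
    rwa [h3, one_mul] at h4
  obtain ⟨α, hα, hA⟩ := three_of h2 hsq hcomm hg (i := iA) (fun a b => iA_inj) restA
    (fun f hf => restA_eq (c12 f hf) (c23 f hf)) (T_iA g1 g2) hev1 he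
  obtain ⟨γ, hγ, hC⟩ := three_of h2 hsq hcomm hg (i := iC) (fun a b => iC_inj) restC
    (fun f hf => restC_eq (c12 f hf) (c23 f hf)) (T_iC g1 g2) hev2 he
  obtain rfl := hone α hα (scalA (c12 e he) (c23 e he) (hN e he) hA)
  obtain rfl := hone γ hγ (scalC (c12 e he) (c23 e he) (hN e he) hC)
  exact eq_one_of (c12 e he) (c23 e he) (hN e he) h2 (hsq e he)
    (fun a => by rw [hA, one_smul]) (fun a => by rw [hC, one_smul])

end

end Vale.Agent.P240.H138
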