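import Vale.Agent.P240.Bdl.B1
import Vale.Agent.P240.H195.EuDefs
import Vale.Agent.P240.H138.Two3
import Vale.Agent.P240.H138.Sing2

/-!
The Euler characteristic condition.
-/

set_option autoImplicit false

namespace Vale.Agent.P240.H138

open Subgroup Matrix Vale.Agent.P240.K Vale.Agent.P240.H195

universe u

/-- an `r`-group centralizing `s` and no fixed subgroups -/
theorem eu_ne {p r : ℕ} [hr : Fact r.Prime] {L : Type u} [Group L] [Finite L] {Q : Subgroup L}
    (hQ : IsPGroup r Q) {s : L} (hcomm : ∀ u ∈ Q, u * s = s * u)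
    (hfree : ∀ E : Subgroup L, ElemAb p E → s ∈ normalizer (E : Set L) →
      Q ≤ normalizer (E : Set L) → False) : eulerFix p (⊤ : Subgroup L) s ≠ 0 := by
  rw [eulerFix_eq, Vale.Agent.P240.K.lam]
  have h1 := eu_mod (r := r) (S := {E | E ∈ Ain p (⊤ : Subgroup L) ∧ s ∈ normalizer (E : Set L)})
    Q hQ (by
      rintro u hu E ⟨h1, h2⟩
      refine ⟨cj_mem_Ain (mem_top u) h1, ?_⟩
      rw [← cj_eq_iff] at h2 ⊢
      rw [← cj_mul, ← hcomm u hu, cj_mul, h2])
  have h0 : {E | E ∈ {E | E ∈ Ain p (⊤ : Subgroup L) ∧ s ∈ normalizer (E : Set L)} ∧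
      Q ≤ normalizer (E : Set L)} = ∅ := by
    ext E
    simp only [Set.mem_ofPred_eq, Set.mem_empty_iff_false, iff_false]
    rintro ⟨⟨⟨h1, -⟩, h2⟩, h3⟩
    exact hfree E h1 h2 h3
  rw [h0, l5_eu_empty] at h1
  intro h4
  rw [h4] at h1
  have h5 := Int.eq_one_of_dvd_one (by positivity) ((dvd_neg (a := (r : ℤ)) (b := 1)).1 (by
    simpa using h1))
  have h9 := hr.out.one_lt
  omega

section
variable {F : Type*} [Field F]

/-! ### the cubic form -/

lemma det_el {a b : Fin 3} (hab : a ≠ b) (t : F) : (el a b hab t).1.det = 1 :=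
  det_transvection_of_ne a b hab t

lemma Nf_Tf (f : Fin 3) {g : GL (Fin 3) F} (hg : g.1.det = 1) (v : I → F) :
    Nf ((Tf f g).1 *ᵥ v) = Nf v := by
  rw [Tf_apply, T_val]
  refine Nf_TM _ _ (fun c => Units.mul_inv _) (fun c => ?_) v
  by_cases h : c = f
  · subst h
    rw [Function.update_self]
    exact hg
  · rw [Function.update_of_ne h]
    exact det_one

lemma Nf_xp (i : Fin 6) (t : F) (v : I → F) : Nf ((xp i t).1 *ᵥ v) = Nf v := by
  have key : ∀ (f a b : Fin 3) (hab : a ≠ b), N6 i = NS f a b → Nf ((xp i t).1 *ᵥ v) = Nf v := by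
    intro f a b hab h
    rw [← xp_eq hab h]
    exact Nf_Tf f (det_el hab t) v
  fin_cases i
  · exact key 1 0 1 (by decide) rfl
  · exact key 0 1 2 (by decide) rfl
  · exact key 1 1 2 (by decide) rfl
  · exact Nf_N4 t v
  · exact key 2 1 2 (by decide) rfl
  · exact key 2 0 1 (by decide) rfl

lemma Nf_xm (i : Fin 6) (t : F) (v : I → F) : Nf ((xm i t).1 *ᵥ v) = Nf v := by
  have key : ∀ (f a b : Fin 3) (hab : a ≠ b), N6 i = NS f a b → Nf ((xm i t).1 *ᵥ v) = Nf v := by
    intro f a b hab h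
    rw [← xm_eq hab h]
    exact Nf_Tf f (det_el hab.symm t) v
  fin_cases i
  · exact key 1 0 1 (by decide) rfl
  · exact key 0 1 2 (by decide) rfl
  · exact key 1 1 2 (by decide) rfl
  · exact Nf_N4T t v
  · exact key 2 1 2 (by decide) rfl
  · exact key 2 0 1 (by decide) rfl

lemma gen_cases {g : GL I F} (h : g ∈ {g : GL I F | ∃ (i : Fin 6) (t : F),
    g.1 = 1 + t • NF F i ∨ g.1 = 1 + t • (NF F i)ᵀ}) : ∃ i t, g = xp i t ∨ g = xm i t := by
  obtain ⟨i, t, h | h⟩ := h
  · exact ⟨i, t, Or.inl (Units.ext h)⟩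
  · exact ⟨i, t, Or.inr (Units.ext h)⟩

/-- the group preserves the cubic form -/
theorem Nf_mem {g : GL I F} (hg : g ∈ G27 F) : ∀ v, Nf (g.1 *ᵥ v) = Nf v := by
  induction hg using closure_induction with
  | mem g h =>
    obtain ⟨i, t, rfl | rfl⟩ := gen_cases h
    · exact Nf_xp i t
    · exact Nf_xm i t
  | one => intro v; rw [Units.val_one, one_mulVec]
  | mul g h _ _ ih1 ih2 => intro v; rw [Units.val_mul, ← mulVec_mulVec, ih1, ih2]
  | inv g _ ih =>
    intro v
    rw [← ih (g⁻¹.1 *ᵥ v), mulVec_mulVec, Units.mul_inv, one_mulVec]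

lemma Nf_smul (c : F) (v : I → F) : Nf (c • v) = c * c * c * Nf v := by
  have h1 : ∀ k, blk (c • v) k = c • blk v k := fun k => rfl
  simp only [Nf, h1, det_smul, Fintype.card_fin, Matrix.smul_mul, Matrix.mul_smul, trace_smul,
    smul_eq_mul]
  ring

/-- scalars in the group -/
theorem scal_cube {g : GL I F} (hg : g ∈ G27 F) {c : F} (h : g.1 = c • (1 : Matrix I I F)) :
    c * c * c = 1 := by
  have h1 := Nf_mem hg (fun p => if p.1 = 0 ∧ p.2.1 = p.2.2 then 1 else 0)
  rw [h, smul_mulVec, one_mulVec, Nf_smul] at h1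
  have h2 : Nf (fun p : I => if p.1 = 0 ∧ p.2.1 = p.2.2 then (1 : F) else 0) = 1 := by
    have e0 : blk (fun p : I => if p.1 = 0 ∧ p.2.1 = p.2.2 then (1 : F) else 0) 0 = 1 := by
      ext i j
      simp [blk, Matrix.one_apply]
    have e1 : blk (fun p : I => if p.1 = 0 ∧ p.2.1 = p.2.2 then (1 : F) else 0) 1 = 0 := by
      ext i j
      simp [blk]
    have e2 : blk (fun p : I => if p.1 = 0 ∧ p.2.1 = p.2.2 then (1 : F) else 0) 2 = 0 := by
      ext i j
      simp [blk]
    simp [Nf, e0, e1, e2]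
  rw [h2, mul_one] at h1
  exact h1

end

end Vale.Agent.P240.H138
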