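import Mathlib.Algebra.CharP.Frobenius
import Mathlib.LinearAlgebra.Matrix.CharP
import Vale.Agent.P240.H138.Eu

/-!
No elementary abelian `2`-subgroups are normalized by a Singer element and a unipotent group.
-/

set_option autoImplicit false

namespace Vale.Agent.P240.H138

open Subgroup Matrix Vale.Agent.P240.K Vale.Agent.P240.H195

universe u

section
variable {F : Type*} [Field F]

lemma inv_of {g : GL I F} {N : Matrix I I F} (h : g.1 = 1 + N) (hN : N * N = 0) :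
    g⁻¹.1 = 1 - N := by
  have h1 : g.1 * (1 - N) = 1 := by
    rw [h, mul_sub, add_mul, add_mul, hN]
    simp
  calc g⁻¹.1 = g⁻¹.1 * (g.1 * (1 - N)) := by rw [h1, Matrix.mul_one]
    _ = 1 - N := by rw [← Matrix.mul_assoc, Units.inv_mul, Matrix.one_mul]

variable {L : Type*} [Group L] {π : G27 F →* L}

lemma cube_sq (hk : ∀ g, π g = 1 → ∃ c : F, g.1.1 = c • (1 : Matrix I I F)) {X : G27 F}
    (hX : π X ^ 2 = 1) : (X ^ 3).1.1 * (X ^ 3).1.1 = 1 := by
  rw [← map_pow] at hX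
  obtain ⟨c, hc⟩ := hk _ hX
  have h1 := scal_cube (X ^ 2).2 hc
  have h2 : X ^ 3 * X ^ 3 = X ^ 2 * X ^ 2 * X ^ 2 := by group
  have h3 := congrArg (fun g : G27 F => g.1.1) h2
  change (X ^ 3).1.1 * (X ^ 3).1.1 = (X ^ 2).1.1 * (X ^ 2).1.1 * (X ^ 2).1.1 at h3
  rw [h3, hc, smul_mul_smul_comm, smul_mul_smul_comm, h1, mul_one, mul_one, one_smul]

lemma cube_comm (hk : ∀ g, π g = 1 → ∃ c : F, g.1.1 = c • (1 : Matrix I I F)) {X Y : G27 F}
    (hX : π X ^ 2 = 1) (hY : π Y ^ 2 = 1) (hXY : π X * π Y = π Y * π X) :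
    (X ^ 3).1.1 * (Y ^ 3).1.1 = (Y ^ 3).1.1 * (X ^ 3).1.1 := by
  have hA := cube_sq hk hX
  have hB := cube_sq hk hY
  have h1 : π (X ^ 3 * Y ^ 3 * (X ^ 3)⁻¹ * (Y ^ 3)⁻¹) = 1 := by
    have h2 : Commute (π X ^ 3) (π Y ^ 3) := Commute.pow_pow hXY 3 3
    rw [map_mul, map_mul, map_mul, map_inv, map_inv, map_pow, map_pow, h2.eq]
    group
  obtain ⟨d, hd⟩ := hk _ h1
  have hd3 := scal_cube (X ^ 3 * Y ^ 3 * (X ^ 3)⁻¹ * (Y ^ 3)⁻¹).2 hd
  set A := (X ^ 3).1.1 with hA'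
  set B := (Y ^ 3).1.1 with hB'
  have h3 : A * B = d • (B * A) := by
    have h4 : X ^ 3 * Y ^ 3 = X ^ 3 * Y ^ 3 * (X ^ 3)⁻¹ * (Y ^ 3)⁻¹ * (Y ^ 3 * X ^ 3) := by group
    have h5 := congrArg (fun g : G27 F => g.1.1) h4
    change A * B = (X ^ 3 * Y ^ 3 * (X ^ 3)⁻¹ * (Y ^ 3)⁻¹).1.1 * (B * A) at h5
    rw [h5, hd, smul_mul_assoc, one_mul]
  have h6 : B * A = d • (A * B) := by
    calc B * A = A * A * B * A := by rw [hA, Matrix.one_mul]
      _ = A * (A * B) * A := by simp only [Matrix.mul_assoc]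
      _ = A * (d • (B * A)) * A := by rw [← h3]
      _ = d • (A * (B * A) * A) := by rw [Matrix.mul_smul, Matrix.smul_mul]
      _ = d • (A * B * (A * A)) := by simp only [Matrix.mul_assoc]
      _ = d • (A * B) := by rw [hA, Matrix.mul_one]
  have h7 : (d * d - 1) • (B * A) = 0 := by
    rw [sub_smul, mul_smul, ← h3, ← h6, one_smul, sub_self]
  have h8 : d * d = 1 := by
    by_contra h8
    have h9 : B * A = 0 := (smul_eq_zero.1 h7).resolve_left (sub_ne_zero.2 h8)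
    have h10 : (1 : Matrix I I F) = 0 := by
      calc (1 : Matrix I I F) = B * (B * A) * A := by
            rw [← Matrix.mul_assoc, hB, Matrix.one_mul, hA]
        _ = 0 := by rw [h9, Matrix.mul_zero, Matrix.zero_mul]
    exact one_ne_zero h10
  rw [h8, one_mul] at hd3
  rw [h3, hd3, one_smul]

/-- **no fixed elementary abelian `2`-subgroups** -/
theorem no_fix (h2 : (2 : F) ≠ 0) (hsur : Function.Surjective π)
    (hk : ∀ g, π g = 1 → ∃ c : F, g.1.1 = c • (1 : Matrix I I F)) {E : Subgroup L}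
    (hE : ElemAb 2 E) {a b s : G27 F} (ha : a.1.1 = 1 + x12 F) (hb : b.1.1 = 1 + x23 F)
    {g1 g2 : GL (Fin 3) F} (hs : s.1 = T ![1, g1, g2]) (hna : π a ∈ normalizer (E : Set L))
    (hnb : π b ∈ normalizer (E : Set L)) (hns : π s ∈ normalizer (E : Set L))
    (hev1 : ∀ (w : Fin 3 → F) (c : F), w ≠ 0 → (((g1⁻¹.1)ᵀ) ^ 6) *ᵥ w ≠ c • w)
    (hev2 : ∀ (w : Fin 3 → F) (c : F), w ≠ 0 → (g2.1 ^ 6) *ᵥ w ≠ c • w) : False := by
  obtain ⟨hE1, hE2, hE3⟩ := hE
  have hcj : ∀ g : G27 F, π g ∈ normalizer (E : Set L) → ∀ X : G27 F, π X ∈ E →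
      g.1.1 * (X ^ 3).1.1 * g.1⁻¹.1 ∈ {M : Matrix I I F | ∃ X : G27 F, π X ∈ E ∧ M = (X ^ 3).1.1} := by
    intro g hg X hX
    refine ⟨g * X * g⁻¹, ?_, ?_⟩
    · rw [map_mul, map_mul, map_inv]
      exact (mem_normalizer_iff.1 hg _).1 hX
    · rw [conj_pow]
      rfl
  have key := lemII h2 (S := {M : Matrix I I F | ∃ X : G27 F, π X ∈ E ∧ M = (X ^ 3).1.1})
    (g1 := g1) (g2 := g2) ?_ ?_ ?_ ?_ ?_ ?_ hev1 hev2
  · apply hE1
    rw [eq_bot_iff]
    intro y hy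
    obtain ⟨X, rfl⟩ := hsur y
    have h1 : X ^ 3 = 1 := Subtype.ext (Units.ext (key _ ⟨X, hy, rfl⟩))
    have h3 := hE3 _ hy
    have h4 : π X ^ 3 = 1 := by rw [← map_pow, h1, map_one]
    rw [pow_succ, h3, one_mul] at h4
    rw [h4]
    exact one_mem _
  · rintro _ ⟨X, hX, rfl⟩
    exact cube_sq hk (hE3 _ hX)
  · rintro _ ⟨X, hX, rfl⟩ _ ⟨Y, hY, rfl⟩
    exact cube_comm hk (hE3 _ hX) (hE3 _ hY) (hE2 _ hX _ hY)
  · rintro _ ⟨X, hX, rfl⟩
    exact Nf_mem (X ^ 3).2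
  · rintro _ ⟨X, hX, rfl⟩
    have h3 := inv_of ha x12_sq
    constructor
    · have h4 := hcj a hna X hX
      rw [ha, h3] at h4
      exact h4
    · have h4 := hcj a⁻¹ (by rw [map_inv]; exact inv_mem hna) X hX
      have h5 : (a⁻¹).1⁻¹ = a.1 := inv_inv a.1
      rw [h5, ha] at h4
      change a.1⁻¹.1 * _ * _ ∈ _ at h4
      rw [h3] at h4
      exact h4
  · rintro _ ⟨X, hX, rfl⟩
    have h3 := inv_of hb x23_sq
    constructor
    · have h4 := hcj b hnb X hX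
      rw [hb, h3] at h4
      exact h4
    · have h4 := hcj b⁻¹ (by rw [map_inv]; exact inv_mem hnb) X hX
      have h5 : (b⁻¹).1⁻¹ = b.1 := inv_inv b.1
      rw [h5, hb] at h4
      change b.1⁻¹.1 * _ * _ ∈ _ at h4
      rw [h3] at h4
      exact h4
  · rintro _ ⟨X, hX, rfl⟩
    have h4 := hcj s hns X hX
    rw [hs] at h4
    exact h4

/-! ### the unipotent group -/

/-- strictly upper triangular matrices -/
def SU (N : Matrix (Fin 3) (Fin 3) F) : Prop := ∀ i j, j ≤ i → N i j = 0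

lemma SU.add {N N' : Matrix (Fin 3) (Fin 3) F} (h : SU N) (h' : SU N') : SU (N + N') :=
  fun i j hij => by rw [Matrix.add_apply, h i j hij, h' i j hij, add_zero]

lemma SU.neg {N : Matrix (Fin 3) (Fin 3) F} (h : SU N) : SU (-N) :=
  fun i j hij => by rw [Matrix.neg_apply, h i j hij, neg_zero]

lemma SU.mul {N N' : Matrix (Fin 3) (Fin 3) F} (h : SU N) (h' : SU N') : SU (N * N') := by
  intro i j hij
  rw [mul_apply]
  refine Finset.sum_eq_zero fun k _ => ?_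
  rcases le_or_gt k i with hk | hk
  · rw [h i k hk, zero_mul]
  · rw [h' k j (hij.trans hk.le), mul_zero]

lemma SU.cube {N : Matrix (Fin 3) (Fin 3) F} (h : SU N) : N * N * N = 0 := by
  have h1 := h 0 0 (by decide)
  have h2 := h 1 0 (by decide)
  have h3 := h 2 0 (by decide)
  have h4 := h 1 1 (by decide)
  have h5 := h 2 1 (by decide)
  have h6 := h 2 2 (by decide)
  ext i j
  fin_cases i <;> fin_cases j <;> simp [mul_apply, Fin.sum_univ_three, h1, h2, h3, h4, h5, h6]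

/-- the unitriangular group -/
def UT (F : Type*) [Field F] : Subgroup (GL (Fin 3) F) where
  carrier := {g | SU (g.1 - 1)}
  one_mem' := by
    change SU ((1 : Matrix (Fin 3) (Fin 3) F) - 1)
    rw [sub_self]
    intro i j _
    rfl
  mul_mem' := by
    intro g h hg hh
    change SU (g.1 * h.1 - 1)
    have h1 : g.1 * h.1 - 1 = (g.1 - 1) + (h.1 - 1) + (g.1 - 1) * (h.1 - 1) := by noncomm_ring
    rw [h1]
    exact (SU.add hg hh).add (SU.mul hg hh)
  inv_mem' := by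
    intro g hg
    change SU (g⁻¹.1 - 1)
    have h1 : g.1 * (1 - (g.1 - 1) + (g.1 - 1) * (g.1 - 1)) = 1 := by
      have h2 := SU.cube hg
      have h3 : g.1 * (1 - (g.1 - 1) + (g.1 - 1) * (g.1 - 1)) =
        1 + (g.1 - 1) * (g.1 - 1) * (g.1 - 1) := by noncomm_ring
      rw [h3, h2, add_zero]
    have h2 : g⁻¹.1 = 1 - (g.1 - 1) + (g.1 - 1) * (g.1 - 1) := by
      calc g⁻¹.1 = g⁻¹.1 * (g.1 * (1 - (g.1 - 1) + (g.1 - 1) * (g.1 - 1))) := by
            rw [h1, Matrix.mul_one]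
        _ = _ := by rw [← Matrix.mul_assoc, Units.inv_mul, Matrix.one_mul]
    have h3 : g⁻¹.1 - 1 = -(g.1 - 1) + (g.1 - 1) * (g.1 - 1) := by
      rw [h2]
      abel
    rw [h3]
    exact (SU.neg hg).add (SU.mul hg hg)

lemma el_UT {a b : Fin 3} (hab : a < b) (t : F) : el a b hab.ne t ∈ UT F := by
  change SU (1 + Matrix.single a b t - 1)
  rw [add_sub_cancel_left]
  intro i j hij
  rw [Matrix.single_apply, if_neg]
  rintro ⟨rfl, rfl⟩
  exact absurd hab (not_lt.2 hij)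

lemma UT_pow {r : ℕ} [hr : Fact r.Prime] [CharP F r] {g : GL (Fin 3) F} (hg : g ∈ UT F) :
    g ^ r ^ 2 = 1 := by
  apply Units.ext
  rw [Units.val_pow_eq_pow_val, Units.val_one]
  have h1 : g.1 ^ r ^ 2 = (1 + (g.1 - 1)) ^ r ^ 2 := by
    congr 1
    abel
  rw [h1, add_pow_char_pow_of_commute _ _ (Commute.one_left _), one_pow]
  have h2 := SU.cube hg
  have h3 : 3 ≤ r ^ 2 := by nlinarith [hr.out.two_le]
  obtain ⟨k, hk⟩ := Nat.exists_eq_add_of_le h3
  rw [hk, pow_add]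
  have h4 : (g.1 - 1) ^ 3 = 0 := by
    rw [pow_succ, pow_two]
    exact h2
  rw [h4, zero_mul, add_zero]

end

end Vale.Agent.P240.H138
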