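import Mathlib

/-!
Mixed frames of quadratic spaces over the field with five elements (P240, `p = 2`, `q = 5`):
the algebra `ℚ⟨y₁, y₂, y₃, y₄⟩`, two odd derivations, and the relations.
-/

set_option autoImplicit false

namespace Vale.Agent.P240.H138.F5

open Finset

/-- the letters: `o1`, `o2` for the lines of norm `1`, `2` orthogonal to the fixed vector `v`, and
`y c` for the lines on which `v` has the norm `c` -/
inductive Lt
  | o1 | o2 | y1 | y2 | y3 | y4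
  deriving DecidableEq

instance : Fintype Lt where
  elems := {Lt.o1, Lt.o2, Lt.y1, Lt.y2, Lt.y3, Lt.y4}
  complete x := by cases x <;> decide

noncomputable section

/-- the free algebra -/
abbrev R := FreeAlgebra ℚ (Fin 4)

/-- the generators -/
def Y (i : Fin 4) : R := FreeAlgebra.ι ℚ i

/-- the relation -/
def ρ : R := Y 0 * Y 3 + Y 3 * Y 0 + Y 1 * Y 2 + Y 2 * Y 1

/-- the parity automorphism -/
def σ : R →ₐ[ℚ] R := FreeAlgebra.lift ℚ (fun i => - Y i)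

@[simp] lemma σ_Y (i : Fin 4) : σ (Y i) = - Y i := by
  simp [σ, Y]

/-- induction -/
lemma ind {P : R → Prop} (h1 : ∀ c : ℚ, P (algebraMap ℚ R c)) (h2 : ∀ i, P (Y i))
    (h3 : ∀ a b, P a → P b → P (a * b)) (h4 : ∀ a b, P a → P b → P (a + b)) (a : R) : P a :=
  FreeAlgebra.induction ℚ (Fin 4) (motive := P) h1 h2 h3 h4 a

/-- `a ↦ (σ a, D a; 0, a)` -/
def Θ (d : Fin 4 → R) : R →ₐ[ℚ] Matrix (Fin 2) (Fin 2) R :=
  FreeAlgebra.lift ℚ (fun i => !![-Y i, d i; 0, Y i])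

lemma Θ_Y (d : Fin 4 → R) (i : Fin 4) : Θ d (Y i) = !![-Y i, d i; 0, Y i] := by
  rw [Θ, Y, FreeAlgebra.lift_ι_apply]
  rfl

/-- the odd derivation with `y_i ↦ d_i` -/
def D (d : Fin 4 → R) : R →ₗ[ℚ] R where
  toFun a := Θ d a 0 1
  map_add' a b := by rw [map_add]; rfl
  map_smul' c a := by rw [map_smul]; rfl

lemma Θ_eq (d : Fin 4 → R) (a : R) : Θ d a = !![σ a, D d a; 0, a] := by
  have key : Θ d a 0 0 = σ a ∧ Θ d a 1 0 = 0 ∧ Θ d a 1 1 = a := by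
    refine ind (P := fun a => Θ d a 0 0 = σ a ∧ Θ d a 1 0 = 0 ∧ Θ d a 1 1 = a) ?_ ?_ ?_ ?_ a
    · intro c
      simp [Matrix.algebraMap_matrix_apply]
    · intro i
      rw [Θ_Y]
      simp
    · rintro a b ⟨h1, h2, h3⟩ ⟨h4, h5, h6⟩
      simp [map_mul, Matrix.mul_apply, Fin.sum_univ_two, h1, h2, h3, h4, h5, h6]
    · rintro a b ⟨h1, h2, h3⟩ ⟨h4, h5, h6⟩
      simp [map_add, h1, h2, h3, h4, h5, h6]
  obtain ⟨h1, h2, h3⟩ := key
  ext i j
  fin_cases i <;> fin_cases j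
  · exact h1
  · rfl
  · exact h2
  · exact h3

@[simp] lemma D_Y (d : Fin 4 → R) (i : Fin 4) : D d (Y i) = d i := by
  change Θ d (Y i) 0 1 = _
  rw [Θ_Y]
  rfl

lemma D_mul (d : Fin 4 → R) (a b : R) : D d (a * b) = D d a * b + σ a * D d b := by
  change Θ d (a * b) 0 1 = _
  rw [map_mul, Θ_eq, Θ_eq, Matrix.mul_apply, Fin.sum_univ_two]
  simp
  abel

lemma D_algebraMap (d : Fin 4 → R) (c : ℚ) : D d (algebraMap ℚ R c) = 0 := by
  change Θ d (algebraMap ℚ R c) 0 1 = _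
  rw [AlgHom.commutes]
  rw [Matrix.algebraMap_matrix_apply]
  simp

lemma D_one (d : Fin 4 → R) : D d 1 = 0 := by
  have := D_algebraMap d 1
  rwa [map_one] at this

/-- `D σ = - σ D` if the `d_i` are even -/
lemma D_σ (d : Fin 4 → R) (hd : ∀ i, σ (d i) = d i) (a : R) : D d (σ a) = - σ (D d a) := by
  refine ind (P := fun a => D d (σ a) = - σ (D d a)) ?_ ?_ ?_ ?_ a
  · intro c
    rw [AlgHom.commutes, D_algebraMap, map_zero, neg_zero]
  · intro i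
    rw [σ_Y, map_neg, D_Y, hd]
  · intro a b ha hb
    rw [map_mul, D_mul, D_mul, ha, hb, map_add, map_mul, map_mul]
    noncomm_ring
  · intro a b ha hb
    rw [map_add, map_add, map_add, ha, hb, map_add]
    abel

/-- the ideal generated by the relation -/
def I : Submodule ℚ R := Submodule.span ℚ {x | ∃ a b : R, x = a * ρ * b}

lemma I_mul_left (a : R) {x : R} (hx : x ∈ I) : a * x ∈ I := by
  refine Submodule.span_induction (p := fun x _ => a * x ∈ I) ?_ ?_ ?_ ?_ hx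
  · rintro _ ⟨b, c, rfl⟩
    exact Submodule.subset_span ⟨a * b, c, by noncomm_ring⟩
  · rw [mul_zero]; exact zero_mem _
  · intro x y _ _ h1 h2
    rw [mul_add]
    exact add_mem h1 h2
  · intro c x _ h1
    rw [mul_smul_comm]
    exact Submodule.smul_mem _ _ h1

lemma I_mul_right (a : R) {x : R} (hx : x ∈ I) : x * a ∈ I := by
  refine Submodule.span_induction (p := fun x _ => x * a ∈ I) ?_ ?_ ?_ ?_ hx
  · rintro _ ⟨b, c, rfl⟩
    exact Submodule.subset_span ⟨b, c * a, by noncomm_ring⟩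
  · rw [zero_mul]; exact zero_mem _
  · intro x y _ _ h1 h2
    rw [add_mul]
    exact add_mem h1 h2
  · intro c x _ h1
    rw [smul_mul_assoc]
    exact Submodule.smul_mem _ _ h1

lemma ρ_mem : ρ ∈ I := Submodule.subset_span ⟨1, 1, by rw [one_mul, mul_one]⟩

lemma D_I (d : Fin 4 → R) (hd : D d ρ = 0) {x : R} (hx : x ∈ I) : D d x ∈ I := by
  refine Submodule.span_induction (p := fun x _ => D d x ∈ I) ?_ ?_ ?_ ?_ hx
  · rintro _ ⟨b, c, rfl⟩
    have hσ : σ ρ = ρ := by simp [ρ]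
    rw [D_mul, D_mul, hd, map_mul, hσ, mul_zero, add_zero]
    exact add_mem (Submodule.subset_span ⟨_, _, rfl⟩) (Submodule.subset_span ⟨_, _, rfl⟩)
  · rw [map_zero]; exact zero_mem _
  · intro x y _ _ h1 h2
    rw [map_add]
    exact add_mem h1 h2
  · intro c x _ h1
    rw [map_smul]
    exact Submodule.smul_mem _ _ h1

/-- the values of the first derivation -/
def d1 : Fin 4 → R :=
  ![-2 * (Y 2 * Y 2), -2 * (Y 3 * Y 2 + Y 2 * Y 3), -2 * (Y 0 * Y 1 + Y 1 * Y 0), -2 * (Y 1 * Y 1)]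

/-- the values of the second derivation -/
def d2 : Fin 4 → R :=
  ![-2 * (Y 3 * Y 1 + Y 1 * Y 3), -2 * (Y 0 * Y 0), -2 * (Y 3 * Y 3), -2 * (Y 0 * Y 2 + Y 2 * Y 0)]

lemma σ_two : σ 2 = 2 := map_ofNat σ 2

lemma d1_even (i : Fin 4) : σ (d1 i) = d1 i := by
  fin_cases i <;> simp [d1, σ_two]

lemma d2_even (i : Fin 4) : σ (d2 i) = d2 i := by
  fin_cases i <;> simp [d2, σ_two]

lemma D1_ρ : D d1 ρ = 0 := by
  simp only [ρ, map_add, D_mul, D_Y, σ_Y, d1]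
  simp
  noncomm_ring

lemma D2_ρ : D d2 ρ = 0 := by
  simp only [ρ, map_add, D_mul, D_Y, σ_Y, d2]
  simp
  noncomm_ring

/-- `D₁² + D₂²` vanishes modulo the ideal -/
lemma sq_mem (a : R) : D d1 (D d1 a) + D d2 (D d2 a) ∈ I := by
  refine ind (P := fun a => D d1 (D d1 a) + D d2 (D d2 a) ∈ I) ?_ ?_ ?_ ?_ a
  · intro c
    rw [D_algebraMap, D_algebraMap, map_zero, map_zero, add_zero]
    exact zero_mem _
  · intro i
    have h1 : D d1 (D d1 (Y i)) + D d2 (D d2 (Y i)) = 4 * Y i * ρ + -4 * ρ * Y i := by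
      fin_cases i <;>
      · simp [D_mul, d1, d2, ρ, two_mul, ← sub_eq_add_neg]
        noncomm_ring
    rw [h1]
    exact add_mem (I_mul_left _ ρ_mem) (I_mul_right _ (I_mul_left _ ρ_mem))
  · intro a b ha hb
    have h1 : D d1 (D d1 (a * b)) + D d2 (D d2 (a * b)) =
        (D d1 (D d1 a) + D d2 (D d2 a)) * b + a * (D d1 (D d1 b) + D d2 (D d2 b)) := by
      rw [D_mul, D_mul, map_add, map_add, D_mul, D_mul, D_mul, D_mul, D_σ _ d1_even,
        D_σ _ d2_even]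
      have hσσ : ∀ x : R, σ (σ x) = x := by
        intro x
        refine ind (P := fun x => σ (σ x) = x) ?_ ?_ ?_ ?_ x
        · intro c; rw [AlgHom.commutes, AlgHom.commutes]
        · intro i; rw [σ_Y, map_neg, σ_Y, neg_neg]
        · intro x y hx hy; rw [map_mul, map_mul, hx, hy]
        · intro x y hx hy; rw [map_add, map_add, hx, hy]
      rw [hσσ]
      noncomm_ring
    rw [h1]
    exact add_mem (I_mul_right _ ha) (I_mul_left _ hb)
  · intro a b ha hb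
    have h1 : D d1 (D d1 (a + b)) + D d2 (D d2 (a + b)) =
        (D d1 (D d1 a) + D d2 (D d2 a)) + (D d1 (D d1 b) + D d2 (D d2 b)) := by
      rw [map_add, map_add, map_add, map_add]
      abel
    rw [h1]
    exact add_mem ha hb

/-- `D₁ D₂ + D₂ D₁ = 0` -/
lemma anti (a : R) : D d1 (D d2 a) + D d2 (D d1 a) = 0 := by
  refine ind (P := fun a => D d1 (D d2 a) + D d2 (D d1 a) = 0) ?_ ?_ ?_ ?_ a
  · intro c
    rw [D_algebraMap, D_algebraMap, map_zero, map_zero, add_zero]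
  · intro i
    fin_cases i <;>
    · simp [D_mul, d1, d2, two_mul, ← sub_eq_add_neg]
      noncomm_ring
  · intro a b ha hb
    have h1 : D d1 (D d2 (a * b)) + D d2 (D d1 (a * b)) =
        (D d1 (D d2 a) + D d2 (D d1 a)) * b + a * (D d1 (D d2 b) + D d2 (D d1 b)) := by
      rw [D_mul, D_mul, map_add, map_add, D_mul, D_mul, D_mul, D_mul, D_σ _ d1_even,
        D_σ _ d2_even]
      have hσσ : ∀ x : R, σ (σ x) = x := by
        intro x
        refine ind (P := fun x => σ (σ x) = x) ?_ ?_ ?_ ?_ x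
        · intro c; rw [AlgHom.commutes, AlgHom.commutes]
        · intro i; rw [σ_Y, map_neg, σ_Y, neg_neg]
        · intro x y hx hy; rw [map_mul, map_mul, hx, hy]
        · intro x y hx hy; rw [map_add, map_add, hx, hy]
      rw [hσσ]
      noncomm_ring
    rw [h1, ha, hb, zero_mul, mul_zero, add_zero]
  · intro a b ha hb
    have h1 : D d1 (D d2 (a + b)) + D d2 (D d1 (a + b)) =
        (D d1 (D d2 a) + D d2 (D d1 a)) + (D d1 (D d2 b) + D d2 (D d1 b)) := by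
      rw [map_add, map_add, map_add, map_add]
      abel
    rw [h1, ha, hb, add_zero]

/-- the operators of the letters -/
def op : Lt → R →ₗ[ℚ] R
  | Lt.o1 => D d1
  | Lt.o2 => D d2
  | Lt.y1 => LinearMap.mulLeft ℚ (Y 0)
  | Lt.y2 => LinearMap.mulLeft ℚ (Y 1)
  | Lt.y3 => LinearMap.mulLeft ℚ (Y 2)
  | Lt.y4 => LinearMap.mulLeft ℚ (Y 3)

lemma op_I (a : Lt) {x : R} (hx : x ∈ I) : op a x ∈ I := by
  cases a
  · exact D_I _ D1_ρ hx
  · exact D_I _ D2_ρ hx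
  all_goals exact I_mul_left _ hx

/-- the pairs of letters of the frames of a plane, in the eleven types of planes -/
def rl : Fin 11 → List (Lt × Lt)
  | 0 => [(Lt.o1, Lt.o1), (Lt.o1, Lt.o1), (Lt.o2, Lt.o2), (Lt.o2, Lt.o2)]
  | 1 => [(Lt.y1, Lt.y1), (Lt.y1, Lt.y1), (Lt.y2, Lt.o2), (Lt.o2, Lt.y2)]
  | 2 => [(Lt.y4, Lt.y4), (Lt.y4, Lt.y4), (Lt.y3, Lt.o2), (Lt.o2, Lt.y3)]
  | 3 => [(Lt.y2, Lt.y2), (Lt.y2, Lt.y2), (Lt.y4, Lt.o1), (Lt.o1, Lt.y4)]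
  | 4 => [(Lt.y3, Lt.y3), (Lt.y3, Lt.y3), (Lt.y1, Lt.o1), (Lt.o1, Lt.y1)]
  | 5 => [(Lt.y1, Lt.y4), (Lt.y4, Lt.y1), (Lt.y2, Lt.y3), (Lt.y3, Lt.y2)]
  | 6 => [(Lt.o1, Lt.o2), (Lt.o1, Lt.o2), (Lt.o1, Lt.o2), (Lt.o2, Lt.o1), (Lt.o2, Lt.o1),
      (Lt.o2, Lt.o1)]
  | 7 => [(Lt.y1, Lt.o2), (Lt.o2, Lt.y1), (Lt.y4, Lt.y2), (Lt.y4, Lt.y2), (Lt.y2, Lt.y4),
      (Lt.y2, Lt.y4)]
  | 8 => [(Lt.y4, Lt.o2), (Lt.o2, Lt.y4), (Lt.y1, Lt.y3), (Lt.y1, Lt.y3), (Lt.y3, Lt.y1),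
      (Lt.y3, Lt.y1)]
  | 9 => [(Lt.o1, Lt.y2), (Lt.y2, Lt.o1), (Lt.y4, Lt.y3), (Lt.y4, Lt.y3), (Lt.y3, Lt.y4),
      (Lt.y3, Lt.y4)]
  | 10 => [(Lt.o1, Lt.y3), (Lt.y3, Lt.o1), (Lt.y1, Lt.y2), (Lt.y1, Lt.y2), (Lt.y2, Lt.y1),
      (Lt.y2, Lt.y1)]

/-- the relations hold modulo the ideal -/
theorem rl_mem (i : Fin 11) (x : R) : ((rl i).map fun p => op p.1 (op p.2 x)).sum ∈ I := by
  have h0 : ∀ y : R, y = 0 → y ∈ I := fun y hy => hy ▸ zero_mem I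
  fin_cases i
  · change D d1 (D d1 x) + (D d1 (D d1 x) + (D d2 (D d2 x) + (D d2 (D d2 x) + 0))) ∈ I
    have h1 := sq_mem x
    have h2 : D d1 (D d1 x) + (D d1 (D d1 x) + (D d2 (D d2 x) + (D d2 (D d2 x) + 0))) =
      (D d1 (D d1 x) + D d2 (D d2 x)) + (D d1 (D d1 x) + D d2 (D d2 x)) := by abel
    rw [h2]
    exact add_mem h1 h1
  · apply h0
    change Y 0 * (Y 0 * x) + (Y 0 * (Y 0 * x) + (Y 1 * D d2 x + (D d2 (Y 1 * x) + 0))) = 0
    rw [D_mul, D_Y, σ_Y]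
    simp [d2]
    noncomm_ring
  · apply h0
    change Y 3 * (Y 3 * x) + (Y 3 * (Y 3 * x) + (Y 2 * D d2 x + (D d2 (Y 2 * x) + 0))) = 0
    rw [D_mul, D_Y, σ_Y]
    simp [d2]
    noncomm_ring
  · apply h0
    change Y 1 * (Y 1 * x) + (Y 1 * (Y 1 * x) + (Y 3 * D d1 x + (D d1 (Y 3 * x) + 0))) = 0
    rw [D_mul, D_Y, σ_Y]
    simp [d1]
    noncomm_ring
  · apply h0
    change Y 2 * (Y 2 * x) + (Y 2 * (Y 2 * x) + (Y 0 * D d1 x + (D d1 (Y 0 * x) + 0))) = 0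
    rw [D_mul, D_Y, σ_Y]
    simp [d1]
    noncomm_ring
  · change Y 0 * (Y 3 * x) + (Y 3 * (Y 0 * x) + (Y 1 * (Y 2 * x) + (Y 2 * (Y 1 * x) + 0))) ∈ I
    have h1 : Y 0 * (Y 3 * x) + (Y 3 * (Y 0 * x) + (Y 1 * (Y 2 * x) + (Y 2 * (Y 1 * x) + 0))) =
      ρ * x := by rw [ρ]; noncomm_ring
    rw [h1]
    exact I_mul_right _ ρ_mem
  · apply h0
    change D d1 (D d2 x) + (D d1 (D d2 x) + (D d1 (D d2 x) + (D d2 (D d1 x) + (D d2 (D d1 x) +
      (D d2 (D d1 x) + 0))))) = 0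
    have h1 := anti x
    rw [eq_neg_of_add_eq_zero_left h1]
    abel
  · apply h0
    change Y 0 * D d2 x + (D d2 (Y 0 * x) + (Y 3 * (Y 1 * x) + (Y 3 * (Y 1 * x) + (Y 1 * (Y 3 * x) +
      (Y 1 * (Y 3 * x) + 0))))) = 0
    rw [D_mul, D_Y, σ_Y]
    simp [d2]
    noncomm_ring
  · apply h0
    change Y 3 * D d2 x + (D d2 (Y 3 * x) + (Y 0 * (Y 2 * x) + (Y 0 * (Y 2 * x) + (Y 2 * (Y 0 * x) +
      (Y 2 * (Y 0 * x) + 0))))) = 0
    rw [D_mul, D_Y, σ_Y]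
    simp [d2]
    noncomm_ring
  · apply h0
    change D d1 (Y 1 * x) + (Y 1 * D d1 x + (Y 3 * (Y 2 * x) + (Y 3 * (Y 2 * x) + (Y 2 * (Y 3 * x) +
      (Y 2 * (Y 3 * x) + 0))))) = 0
    rw [D_mul, D_Y, σ_Y]
    simp [d1]
    noncomm_ring
  · apply h0
    change D d1 (Y 2 * x) + (Y 2 * D d1 x + (Y 0 * (Y 1 * x) + (Y 0 * (Y 1 * x) + (Y 1 * (Y 0 * x) +
      (Y 1 * (Y 0 * x) + 0))))) = 0
    rw [D_mul, D_Y, σ_Y]
    simp [d1]
    noncomm_ring

end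

end Vale.Agent.P240.H138.F5
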