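import Vale.Agent.P240.H138.F5a
import Vale.Agent.P240.R2.AS.Defs

/-!
Mixed frames of quadratic spaces over the field with five elements (P240, `p = 2`, `q = 5`):
the abstract form of the theorem.
-/

set_option autoImplicit false

namespace Vale.Agent.P240.H138.F5

open Finset Matrix
open Vale.Agent.P240.R2.AS (SOL)
open Vale.Agent.P240.R2.H986 (ev ev_nil ev_single ev_cons)
open scoped Classical

universe u

noncomputable section

/-- the first matrix -/
def MS : Matrix (Fin 2) (Fin 2) ℚ := !![1, 1; 0, 0]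

/-- the second matrix -/
def MT : Matrix (Fin 2) (Fin 2) ℚ := !![0, 0; 0, 1]

lemma MSS : MS * MS = MS := by
  rw [MS, Matrix.mul_fin_two]
  ext i j
  fin_cases i <;> fin_cases j <;> simp

lemma MTT : MT * MT = MT := by
  rw [MT, Matrix.mul_fin_two]
  ext i j
  fin_cases i <;> fin_cases j <;> simp

lemma MTS : MT * MS = 0 := by
  rw [MT, MS, Matrix.mul_fin_two]
  ext i j
  fin_cases i <;> fin_cases j <;> simp

lemma MST : (MS * MT) 0 1 = 1 := by simp [MS, MT]

/-- the homomorphism to matrices -/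
def Ψ : R →ₐ[ℚ] Matrix (Fin 2) (Fin 2) ℚ := FreeAlgebra.lift ℚ ![MS, MT, 0, 0]

lemma Ψ_Y (i : Fin 4) : Ψ (Y i) = (![MS, MT, 0, 0] : Fin 4 → Matrix (Fin 2) (Fin 2) ℚ) i := by
  rw [Ψ, Y, FreeAlgebra.lift_ι_apply]

lemma Ψ_ρ : Ψ ρ = 0 := by
  simp [ρ, Ψ_Y]

lemma Ψ_I {x : R} (hx : x ∈ I) : Ψ x = 0 := by
  refine Submodule.span_induction (p := fun x _ => Ψ x = 0) ?_ ?_ ?_ ?_ hx
  · rintro _ ⟨b, c, rfl⟩
    rw [map_mul, map_mul, Ψ_ρ, mul_zero, zero_mul]
  · exact map_zero _
  · intro x y _ _ h1 h2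
    rw [map_add, h1, h2, add_zero]
  · intro c x _ h1
    rw [map_smul, h1, smul_zero]

/-- the linear functional -/
def lam : R →ₗ[ℚ] ℚ where
  toFun x := Ψ x 0 1
  map_add' a b := by rw [map_add]; rfl
  map_smul' c a := by rw [map_smul]; rfl

lemma lam_I {x : R} (hx : x ∈ I) : lam x = 0 := by
  change Ψ x 0 1 = 0
  rw [Ψ_I hx]
  rfl

/-- words act on the algebra -/
def opl : List Lt → R →ₗ[ℚ] R
  | [] => LinearMap.id
  | a :: w => (op a).comp (opl w)

lemma opl_append (u v : List Lt) (x : R) : opl (u ++ v) x = opl u (opl v x) := by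
  induction u with
  | nil => rfl
  | cons a u ih =>
    change op a (opl (u ++ v) x) = op a (opl u (opl v x))
    rw [ih]

lemma opl_I (u : List Lt) {x : R} (hx : x ∈ I) : opl u x ∈ I := by
  induction u with
  | nil => exact hx
  | cons a u ih => exact op_I a ih

section
variable {L : Type u} [Fintype L] (F : Finset (List L)) (φ : L → Lt)

/-- the condition on the planes: the pairs of letters in a plane are those of one of the eleven
types of planes -/
def Pln : Prop := ∀ u v : List L, (∀ x : L × L, u ++ x.1 :: x.2 :: v ∉ F) ∨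
  ∃ i, ((univ.filter fun x : L × L => u ++ x.1 :: x.2 :: v ∈ F).val.map
    fun x => (φ x.1, φ x.2)) = (rl i : Multiset (Lt × Lt))

/-- the function -/
def zz (w : List L) : ℚ := if w ∈ F then lam (opl (w.map φ) 1) else 0

variable {F φ}

lemma zz_SOL (h : Pln F φ) : zz F φ ∈ SOL F := by
  refine ⟨fun w hw => if_neg hw, fun u v => ?_⟩
  have h1 : ∑ x : L × L, zz F φ (u ++ x.1 :: x.2 :: v) =
      ∑ x ∈ univ.filter (fun x : L × L => u ++ x.1 :: x.2 :: v ∈ F),
        lam (opl (u.map φ) (op (φ x.1) (op (φ x.2) (opl (v.map φ) 1)))) := by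
    rw [Finset.sum_filter]
    refine Finset.sum_congr rfl fun x _ => ?_
    unfold zz
    congr 1
    rw [List.map_append, opl_append]
    rfl
  rw [h1]
  rcases h u v with h2 | ⟨i, h2⟩
  · apply Finset.sum_eq_zero
    intro x hx
    exact absurd (Finset.mem_filter.1 hx).2 (h2 x)
  · have h3 := congrArg (fun s : Multiset (Lt × Lt) =>
      (s.map fun p => op p.1 (op p.2 (opl (v.map φ) 1))).sum) h2
    simp only [Multiset.map_map, Function.comp_def, Multiset.map_coe, Multiset.sum_coe] at h3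
    have h4 : ∑ x ∈ univ.filter (fun x : L × L => u ++ x.1 :: x.2 :: v ∈ F),
        op (φ x.1) (op (φ x.2) (opl (v.map φ) 1)) ∈ I := by
      rw [Finset.sum, h3]
      exact rl_mem i _
    rw [← map_sum, ← map_sum]
    exact lam_I (opl_I _ h4)

/-- the matrices of the letters -/
def mt : Lt → Matrix (Fin 2) (Fin 2) ℚ
  | Lt.y1 => MS
  | Lt.y2 => MT
  | _ => 0

lemma lam_word (w : List Lt) (hw : ∀ a ∈ w, a = Lt.y1 ∨ a = Lt.y2) :
    Ψ (opl w 1) = (w.map mt).prod := by
  induction w with
  | nil => exact map_one Ψ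
  | cons a w ih =>
    have h1 := ih fun b hb => hw b (by simp [hb])
    rw [List.map_cons, List.prod_cons, ← h1]
    rcases hw a (by simp) with rfl | rfl
    · change Ψ (Y 0 * opl w 1) = _
      rw [map_mul, Ψ_Y]
      rfl
    · change Ψ (Y 1 * opl w 1) = _
      rw [map_mul, Ψ_Y]
      rfl

/-- iterated super commutators -/
def bra : List Lt → Matrix (Fin 2) (Fin 2) ℚ
  | [] => 0
  | [a] => mt a
  | a :: b :: w => mt a * bra (b :: w) + (-1) ^ ((b :: w).length + 1) • (bra (b :: w) * mt a)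

lemma bra_cons (a : Lt) {w : List Lt} (hw : w ≠ []) :
    bra (a :: w) = mt a * bra w + (-1 : ℤ) ^ (w.length + 1) • (bra w * mt a) := by
  obtain ⟨b, w, rfl⟩ := List.exists_cons_of_ne_nil hw
  rfl

lemma ev_prod (φ : L → Lt) (g : List L) : ∀ u v : List L,
    ev (fun w => (((w.map φ).map mt).prod 0 1 : ℚ)) g u v =
      ((((u.map φ).map mt).prod * bra (g.map φ) * ((v.map φ).map mt).prod) 0 1) := by
  induction g with
  | nil => intro u v; simp [ev_nil, bra]
  | cons l g ih =>
    intro u v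
    rcases g.eq_nil_or_concat' with rfl | h
    · rw [ev_single]
      simp [bra, mul_assoc]
    · have hg : g ≠ [] := by rcases h with ⟨a, b, rfl⟩; simp
      have hg' : g.map φ ≠ [] := by simpa using hg
      rw [ev_cons _ _ hg, ih, ih]
      simp only [List.map_cons, List.map_append, List.prod_append, List.map_nil, List.prod_cons,
        List.prod_nil, mul_one]
      rw [bra_cons _ hg', List.length_map]
      have e1 : ((u.map φ).map mt).prod * (mt (φ l) * bra (g.map φ) +
          (-1 : ℤ) ^ (g.length + 1) • (bra (g.map φ) * mt (φ l))) * ((v.map φ).map mt).prod =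
          ((u.map φ).map mt).prod * mt (φ l) * bra (g.map φ) * ((v.map φ).map mt).prod +
          (-1 : ℤ) ^ (g.length + 1) • (((u.map φ).map mt).prod * bra (g.map φ) *
            (mt (φ l) * ((v.map φ).map mt).prod)) := by
        rw [mul_add, add_mul, mul_smul_comm, smul_mul_assoc]
        simp only [mul_assoc]
      rw [e1, Matrix.add_apply, Matrix.smul_apply, zsmul_eq_mul]
      push_cast
      rfl

lemma bra_one {j : ℕ} (hj : 1 ≤ j) : bra (List.replicate j Lt.y1 ++ [Lt.y2]) = MS * MT := by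
  induction j with
  | zero => omega
  | succ j ih =>
    rw [List.replicate_succ, List.cons_append, bra_cons _ (by simp)]
    rcases Nat.eq_zero_or_pos j with rfl | hj'
    · change MS * MT + _ • (MT * MS) = _
      rw [MTS, smul_zero, add_zero]
    · rw [ih hj']
      change MS * (MS * MT) + _ • (MS * MT * MS) = _
      rw [mul_assoc MS MT MS, MTS, mul_zero, smul_zero, add_zero, ← mul_assoc, MSS]

lemma bra_two {j : ℕ} (hj : 1 ≤ j) (m : ℕ) : ∃ s : ℤ, s ≠ 0 ∧
    bra (List.replicate m Lt.y2 ++ (List.replicate j Lt.y1 ++ [Lt.y2])) = s • (MS * MT) := by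
  induction m with
  | zero => exact ⟨1, one_ne_zero, by rw [one_smul]; exact bra_one hj⟩
  | succ m ih =>
    obtain ⟨s, hs, h1⟩ := ih
    rw [List.replicate_succ, List.cons_append, bra_cons _ (by simp), h1]
    refine ⟨(-1) ^ ((List.replicate m Lt.y2 ++ (List.replicate j Lt.y1 ++ [Lt.y2])).length + 1) * s,
      mul_ne_zero (pow_ne_zero _ (by norm_num)) hs, ?_⟩
    change MT * (s • (MS * MT)) + _ • (s • (MS * MT) * MT) = _
    rw [mul_smul_comm, ← mul_assoc, MTS, zero_mul, smul_zero, zero_add, smul_mul_assoc, mul_assoc,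
      MTT, smul_smul]

/-- **the abstract theorem** -/
theorem exists_sol (hperm : ∀ w ∈ F, ∀ w' : List L, w.Perm w' → w' ∈ F) (h : Pln F φ) {g : List L}
    (hg : g ∈ F) {m j : ℕ} (hj : 1 ≤ j)
    (hφ : g.map φ = List.replicate m Lt.y2 ++ (List.replicate j Lt.y1 ++ [Lt.y2])) :
    ∃ z ∈ SOL F, ev z g [] [] ≠ 0 := by
  refine ⟨zz F φ, zz_SOL h, ?_⟩
  have hy : ∀ a ∈ g.map φ, a = Lt.y1 ∨ a = Lt.y2 := by
    intro a ha
    rw [hφ] at ha
    simp only [List.mem_append, List.mem_replicate, List.mem_singleton] at ha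
    tauto
  have h1 : ev (zz F φ) g [] [] = ev (fun w => (((w.map φ).map mt).prod 0 1 : ℚ)) g [] [] := by
    apply Vale.Agent.P240.R2.H986.ev_congr
    intro w hw
    rw [List.nil_append, List.append_nil] at hw
    have hwF : w ∈ F := hperm g hg w hw.symm
    unfold zz
    rw [if_pos hwF]
    change Ψ (opl (w.map φ) 1) 0 1 = _
    rw [lam_word]
    intro a ha
    exact hy a ((hw.map φ).mem_iff.1 ha)
  rw [h1, ev_prod]
  obtain ⟨s, hs, h2⟩ := bra_two hj m
  rw [hφ, h2]
  simp only [List.map_nil, List.prod_nil, one_mul, mul_one]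
  rw [Matrix.smul_apply, MST, zsmul_eq_mul, mul_one]
  exact_mod_cast hs

end

end

end Vale.Agent.P240.H138.F5
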