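import Vale.Agent.P240.H138.F5b

/-!
Mixed frames of quadratic spaces over the field with five elements (P240, `p = 2`, `q = 5`):
the planes.
-/

set_option autoImplicit false

namespace Vale.Agent.P240.H138.F5

open Finset Matrix
open Vale.Agent.P240.R2.AS (SOL)
open Vale.Agent.P240.R2.H986 (ev ev_nil ev_single ev_cons)

universe u

/-- the letter of the line spanned by `e`, `N = (e, e)`, `m = (e, v)` -/
def lt (N m : ZMod 5) : Lt :=
  if m = 0 then (if N = 1 ∨ N = 4 then Lt.o1 else Lt.o2) else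
    if m * m = N then Lt.y1 else if m * m = 2 * N then Lt.y2 else
      if m * m = 3 * N then Lt.y3 else Lt.y4

lemma lt_smul : ∀ t N m : ZMod 5, t ≠ 0 → N ≠ 0 → lt (t * t * N) (t * m) = lt N m := by
  decide +kernel

/-- the points of the projective line -/
def pt (p : Option (ZMod 5)) : ZMod 5 × ZMod 5 :=
  match p with
  | none => (0, 1)
  | some d => (1, d)

/-- the pair of letters -/
def ltp (Na Nb ma mb : ZMod 5) (p : Option (ZMod 5)) : Lt × Lt :=
  (lt ((pt p).1 * (pt p).1 * Na + (pt p).2 * (pt p).2 * Nb) ((pt p).1 * ma + (pt p).2 * mb),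
    lt (Na * Nb * ((pt p).1 * (pt p).1 * Na + (pt p).2 * (pt p).2 * Nb))
      (- (pt p).2 * Nb * ma + (pt p).1 * Na * mb))

/-- the lines of the plane -/
def pts (Na Nb : ZMod 5) : List (Option (ZMod 5)) :=
  [none, some 0, some 1, some 2, some 3, some 4].filter
    (fun p => (pt p).1 * (pt p).1 * Na + (pt p).2 * (pt p).2 * Nb ≠ 0)

theorem planes : ∀ Na Nb ma mb : ZMod 5, Na ≠ 0 → Nb ≠ 0 →
    ∃ i, ((pts Na Nb).map (ltp Na Nb ma mb)).Perm (rl i) := by
  decide +kernel

lemma pts_nodup (Na Nb : ZMod 5) : (pts Na Nb).Nodup :=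
  List.Nodup.filter _ (by decide)

lemma mem_pts {Na Nb : ZMod 5} {p : Option (ZMod 5)} : p ∈ pts Na Nb ↔
    (pt p).1 * (pt p).1 * Na + (pt p).2 * (pt p).2 * Nb ≠ 0 := by
  have h1 : ∀ p : Option (ZMod 5), p ∈ [none, some 0, some 1, some 2, some 3, some 4] := by
    decide
  simp only [pts, List.mem_filter, decide_eq_true_eq]
  exact ⟨fun h => h.2, fun h => ⟨h1 p, h⟩⟩

section
variable {L : Type u} {K : Type*} [Field K] {V : Type*} [AddCommGroup V] [Module K V]

/-- the frames of a quadratic space: words in the nondegenerate lines `l ∈ S`, given by vectors -/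
structure Geo (F : Finset (List L)) (S : Set L) (B : LinearMap.BilinForm K V) (vec : L → V) :
    Prop where
  perm : ∀ w ∈ F, ∀ w' : List L, w.Perm w' → w' ∈ F
  mem : ∀ w ∈ F, ∀ l ∈ w, l ∈ S
  symm : ∀ x y, B x y = B y x
  ne : ∀ l ∈ S, B (vec l) (vec l) ≠ 0
  inj : ∀ l ∈ S, ∀ l' ∈ S, ∀ c : K, vec l' = c • vec l → l' = l
  orth : ∀ w ∈ F, w.Pairwise (fun a b => B (vec a) (vec b) = 0)
  span : ∀ (u : List L) (a b a' b' : L) (v : List L), u ++ a :: b :: v ∈ F →
    u ++ a' :: b' :: v ∈ F → ∃ c d : K, vec a' = c • vec a + d • vec b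
  ex : ∀ (u : List L) (a b : L) (v : List L), u ++ a :: b :: v ∈ F → ∀ c d : K,
    B (c • vec a + d • vec b) (c • vec a + d • vec b) ≠ 0 →
    ∃ a' b' : L, u ++ a' :: b' :: v ∈ F ∧ ∃ t : K, vec a' = t • (c • vec a + d • vec b)

variable {F : Finset (List L)} {S : Set L} {B : LinearMap.BilinForm K V} {vec : L → V}

namespace Geo
variable (h : Geo F S B vec)
include h

lemma orth2 {u : List L} {a b : L} {v : List L} (hw : u ++ a :: b :: v ∈ F) :
    B (vec a) (vec b) = 0 := by
  have h1 := h.orth _ hw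
  rw [List.pairwise_append] at h1
  exact (List.pairwise_cons.1 h1.2.1).1 b (by simp)

lemma swap {u : List L} {a b : L} {v : List L} (hw : u ++ a :: b :: v ∈ F) :
    u ++ b :: a :: v ∈ F :=
  h.perm _ hw _ (List.Perm.append_left u (List.Perm.swap _ _ _))

lemma mem1 {u : List L} {a b : L} {v : List L} (hw : u ++ a :: b :: v ∈ F) : a ∈ S :=
  h.mem _ hw _ (by simp)

lemma mem2 {u : List L} {a b : L} {v : List L} (hw : u ++ a :: b :: v ∈ F) : b ∈ S :=
  h.mem _ hw _ (by simp)

/-- **the planes** -/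
theorem plane_map [Fintype L] (e : K ≃+* ZMod 5) {Λ : Type*} (ℓ : V → Λ)
    (hℓ : ∀ (t : K) (x : V), t ≠ 0 → B x x ≠ 0 → ℓ (t • x) = ℓ x)
    {u : List L} {a b : L} {w : List L} (hab : u ++ a :: b :: w ∈ F)
    (hdec : DecidablePred fun x : L × L => u ++ x.1 :: x.2 :: w ∈ F) :
    ((univ.filter fun x : L × L => u ++ x.1 :: x.2 :: w ∈ F).val.map
      fun x => (ℓ (vec x.1), ℓ (vec x.2))) =
    (((pts (e (B (vec a) (vec a))) (e (B (vec b) (vec b)))).map fun p =>
      (ℓ (e.symm (pt p).1 • vec a + e.symm (pt p).2 • vec b),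
        ℓ ((-e.symm (pt p).2 * B (vec b) (vec b)) • vec a +
          (e.symm (pt p).1 * B (vec a) (vec a)) • vec b)) : List (Λ × Λ)) : Multiset (Λ × Λ)) := by
  classical
  set Na := B (vec a) (vec a) with hNa
  set Nb := B (vec b) (vec b) with hNb
  have hab0 : B (vec a) (vec b) = 0 := h.orth2 hab
  have hba0 : B (vec b) (vec a) = 0 := by rw [h.symm, hab0]
  have hNa0 : Na ≠ 0 := h.ne a (h.mem1 hab)
  have hNb0 : Nb ≠ 0 := h.ne b (h.mem2 hab)
  rw [← Multiset.map_coe]
  symm
  -- the vectors
  have hB : ∀ c d c' d' : K, B (c • vec a + d • vec b) (c' • vec a + d' • vec b) =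
      c * c' * Na + d * d' * Nb := by
    intro c d c' d'
    simp only [map_add, map_smul, LinearMap.add_apply, LinearMap.smul_apply, smul_eq_mul, hab0,
      hba0, ← hNa, ← hNb]
    ring
  have hind : ∀ c d c' d' : K, c • vec a + d • vec b = c' • vec a + d' • vec b →
      c = c' ∧ d = d' := by
    intro c d c' d' h1
    have h2 := congrArg (fun z => B z (vec a)) h1
    have h3 := congrArg (fun z => B z (vec b)) h1
    simp only [map_add, map_smul, LinearMap.add_apply, LinearMap.smul_apply, smul_eq_mul, hab0,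
      hba0, ← hNa, ← hNb, mul_zero, add_zero, zero_add] at h2 h3
    exact ⟨mul_right_cancel₀ hNa0 h2, mul_right_cancel₀ hNb0 h3⟩
  have hpx : ∀ p : Option (ZMod 5), p ∈ pts (e Na) (e Nb) →
      B (e.symm (pt p).1 • vec a + e.symm (pt p).2 • vec b)
        (e.symm (pt p).1 • vec a + e.symm (pt p).2 • vec b) ≠ 0 := by
    intro p hp h0
    rw [mem_pts] at hp
    apply hp
    rw [hB] at h0
    have := congrArg e h0
    simpa using this
  have hex : ∀ p : Option (ZMod 5), p ∈ pts (e Na) (e Nb) → ∃ x : L × L,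
      u ++ x.1 :: x.2 :: w ∈ F ∧ ∃ t : K,
        vec x.1 = t • (e.symm (pt p).1 • vec a + e.symm (pt p).2 • vec b) := by
    intro p hp
    obtain ⟨a', b', h1, h2⟩ := h.ex u a b w hab _ _ (hpx p hp)
    exact ⟨(a', b'), h1, h2⟩
  choose f hf1 hf2 using hex
  -- the second line
  have hsec : ∀ (c d : K) (a' b' : L), u ++ a' :: b' :: w ∈ F → ∀ t : K,
      vec a' = t • (c • vec a + d • vec b) →
      ∃ s : K, vec b' = s • ((-d * Nb) • vec a + (c * Na) • vec b) := by
    intro c d a' b' hw t ht
    obtain ⟨c', d', h1⟩ := h.span u a b b' a' w hab (h.swap hw)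
    have h2 : B (vec a') (vec b') = 0 := h.orth2 hw
    have ht0 : t ≠ 0 := by
      rintro rfl
      rw [zero_smul] at ht
      apply h.ne a' (h.mem1 hw)
      rw [ht, map_zero]
    rw [ht, h1, map_smul, LinearMap.smul_apply, smul_eq_mul, hB] at h2
    have h3 : c * c' * Na + d * d' * Nb = 0 := by
      rcases mul_eq_zero.1 h2 with h4 | h4
      · exact absurd h4 ht0
      · exact h4
    by_cases hc : c = 0
    · subst hc
      have hd : d ≠ 0 := by
        rintro rfl
        apply h.ne a' (h.mem1 hw)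
        rw [ht]
        simp
      have hd' : d' = 0 := by
        have : d * Nb * d' = 0 := by linear_combination h3
        rcases mul_eq_zero.1 this with h4 | h4
        · exact absurd h4 (mul_ne_zero hd hNb0)
        · exact h4
      refine ⟨-c' / (d * Nb), ?_⟩
      rw [h1, hd', smul_add, smul_smul, smul_smul]
      congr 2
      · field_simp
      · ring
    · refine ⟨d' / (c * Na), ?_⟩
      rw [h1, smul_add, smul_smul, smul_smul]
      congr 2
      · field_simp
        linear_combination h3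
      · field_simp
  apply Multiset.map_eq_map_of_bij_of_nodup _ _ (Multiset.coe_nodup.2 (pts_nodup _ _))
    (Finset.nodup _) (fun p hp => f p hp)
  · intro p hp
    exact Finset.mem_filter.2 ⟨Finset.mem_univ _, hf1 p hp⟩
  · intro p hp q hq hpq
    obtain ⟨t, ht⟩ := hf2 p hp
    obtain ⟨s, hs⟩ := hf2 q hq
    rw [← hpq, ht, smul_add, smul_add, smul_smul, smul_smul, smul_smul, smul_smul] at hs
    obtain ⟨h1, h2⟩ := hind _ _ _ _ hs
    have ht0 : t ≠ 0 := by
      rintro rfl
      rw [zero_smul] at ht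
      apply h.ne (f p hp).1 (h.mem1 (hf1 p hp))
      rw [ht, map_zero]
    have h1' : e t * (pt p).1 = e s * (pt q).1 := by
      have := congrArg e h1
      simpa using this
    have h2' : e t * (pt p).2 = e s * (pt q).2 := by
      have := congrArg e h2
      simpa using this
    have ht0' : e t ≠ 0 := by simpa using ht0
    have key : ∀ (t s : ZMod 5) (p q : Option (ZMod 5)), t ≠ 0 → t * (pt p).1 = s * (pt q).1 →
        t * (pt p).2 = s * (pt q).2 → p = q := by decide +kernel
    exact key _ _ _ _ ht0' h1' h2'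
  · rintro ⟨a', b'⟩ hx
    have hx' : u ++ a' :: b' :: w ∈ F := (Finset.mem_filter.1 hx).2
    obtain ⟨c, d, hcd⟩ := h.span u a b a' b' w hab hx'
    have hne' := h.ne a' (h.mem1 hx')
    -- the point
    obtain ⟨p, t, ht0, hc, hd⟩ : ∃ (p : Option (ZMod 5)) (t : K), t ≠ 0 ∧
        c = t * e.symm (pt p).1 ∧ d = t * e.symm (pt p).2 := by
      by_cases hc : c = 0
      · refine ⟨none, d, ?_, ?_, ?_⟩
        · rintro rfl
          apply hne'
          rw [hcd, hc]
          simp
        · simp [pt, hc]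
        · simp [pt]
      · refine ⟨some (e (d / c)), c, hc, ?_, ?_⟩
        · simp [pt]
        · simp only [pt, RingEquiv.symm_apply_apply]
          field_simp
    have hva : vec a' = t • (e.symm (pt p).1 • vec a + e.symm (pt p).2 • vec b) := by
      rw [hcd, hc, hd, smul_add, smul_smul, smul_smul]
    have hp : p ∈ pts (e Na) (e Nb) := by
      rw [mem_pts]
      intro h0
      apply hne'
      rw [hva, map_smul, map_smul, LinearMap.smul_apply, hB]
      have h1 : e (e.symm (pt p).1 * e.symm (pt p).1 * Na + e.symm (pt p).2 * e.symm (pt p).2 * Nb) = 0 := by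
        simpa using h0
      have h2 := (EmbeddingLike.map_eq_zero_iff (f := e)).1 h1
      rw [h2, smul_zero, smul_zero]
    refine ⟨p, hp, ?_⟩
    obtain ⟨t', ht'⟩ := hf2 p hp
    have ht'0 : t' ≠ 0 := by
      rintro rfl
      rw [zero_smul] at ht'
      apply h.ne (f p hp).1 (h.mem1 (hf1 p hp))
      rw [ht', map_zero]
    have e1 : (f p hp).1 = a' := by
      apply h.inj a' (h.mem1 hx') _ (h.mem1 (hf1 p hp)) (t' * t⁻¹)
      rw [ht', hva, smul_smul]
      congr 1
      field_simp
    obtain ⟨s, hs⟩ := hsec _ _ a' b' hx' t hva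
    obtain ⟨s', hs'⟩ := hsec _ _ (f p hp).1 (f p hp).2 (hf1 p hp) t' ht'
    have hs0 : s ≠ 0 := by
      rintro rfl
      rw [zero_smul] at hs
      apply h.ne b' (h.mem2 hx')
      rw [hs, map_zero]
    have e2 : (f p hp).2 = b' := by
      apply h.inj b' (h.mem2 hx') _ (h.mem2 (hf1 p hp)) (s' * s⁻¹)
      rw [hs', hs, smul_smul]
      congr 1
      field_simp
    exact Prod.ext e1 e2
  · intro p hp
    obtain ⟨t, ht⟩ := hf2 p hp
    obtain ⟨s, hs⟩ := hsec _ _ _ _ (hf1 p hp) t ht
    have ht0 : t ≠ 0 := by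
      rintro rfl
      rw [zero_smul] at ht
      apply h.ne (f p hp).1 (h.mem1 (hf1 p hp))
      rw [ht, map_zero]
    have hs0 : s ≠ 0 := by
      rintro rfl
      rw [zero_smul] at hs
      apply h.ne (f p hp).2 (h.mem2 (hf1 p hp))
      rw [hs, map_zero]
    have hN2 : B ((-e.symm (pt p).2 * Nb) • vec a + (e.symm (pt p).1 * Na) • vec b)
        ((-e.symm (pt p).2 * Nb) • vec a + (e.symm (pt p).1 * Na) • vec b) ≠ 0 := by
      intro h0
      apply h.ne (f p hp).2 (h.mem2 (hf1 p hp))
      rw [hs, map_smul, map_smul, LinearMap.smul_apply, h0, smul_zero, smul_zero]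
    change _ = (ℓ (vec (f p hp).1), ℓ (vec (f p hp).2))
    rw [ht, hs, hℓ t _ ht0 (hpx p hp), hℓ s _ hs0 hN2]

end Geo

/-- the letters -/
def ph (e : K ≃+* ZMod 5) (B : LinearMap.BilinForm K V) (v x : V) : Lt :=
  lt (e (B x x)) (e (B x v))

/-- the multiples of a vector have the same letter -/
lemma ph_smul (e : K ≃+* ZMod 5) (B : LinearMap.BilinForm K V) (v x : V) {t : K} (ht : t ≠ 0)
    (hx : B x x ≠ 0) : ph e B v (t • x) = ph e B v x := by
  rw [ph]
  have e1 : B (t • x) (t • x) = t * t * B x x := by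
    simp [mul_assoc]
  have e2 : B (t • x) v = t * B x v := by simp
  rw [e1, e2, map_mul, map_mul, map_mul]
  exact lt_smul _ _ _ (by simpa using ht) (by simpa using hx)

namespace Geo
variable (h : Geo F S B vec)
include h

/-- **the planes** -/
theorem pln [Fintype L] (e : K ≃+* ZMod 5) (v : V) : Pln F (fun l => ph e B v (vec l)) := by
  classical
  intro u w
  by_cases hex : ∃ x : L × L, u ++ x.1 :: x.2 :: w ∈ F
  swap
  · left
    push Not at hex
    exact hex
  right
  obtain ⟨⟨a, b⟩, hab⟩ := hex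
  change u ++ a :: b :: w ∈ F at hab
  have h1 := h.plane_map e (ph e B v) (fun t x ht hx => ph_smul e B v x ht hx) hab
    (fun _ => Classical.propDecidable _)
  have hNa0 := h.ne a (h.mem1 hab)
  have hNb0 := h.ne b (h.mem2 hab)
  have hab0 : B (vec a) (vec b) = 0 := h.orth2 hab
  have hba0 : B (vec b) (vec a) = 0 := by rw [h.symm, hab0]
  obtain ⟨i, hi⟩ := planes (e (B (vec a) (vec a))) (e (B (vec b) (vec b))) (e (B (vec a) v))
    (e (B (vec b) v)) (by simpa using hNa0) (by simpa using hNb0)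
  refine ⟨i, ?_⟩
  rw [← Multiset.coe_eq_coe.2 hi]
  refine Eq.trans ?_ (h1.trans ?_)
  · congr!
  · congr 1
    apply List.map_congr_left
    intro p hp
    unfold ltp ph
    have hB : ∀ c d c' d' : K, B (c • vec a + d • vec b) (c' • vec a + d' • vec b) =
        c * c' * B (vec a) (vec a) + d * d' * B (vec b) (vec b) := by
      intro c d c' d'
      simp only [map_add, map_smul, LinearMap.add_apply, LinearMap.smul_apply, smul_eq_mul, hab0,
        hba0]
      ring
    have hBv : ∀ c d : K, B (c • vec a + d • vec b) v = c * B (vec a) v + d * B (vec b) v := by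
      intro c d
      simp only [map_add, map_smul, LinearMap.add_apply, LinearMap.smul_apply, smul_eq_mul]
    rw [hB, hB, hBv, hBv]
    congr 1
    · congr 1 <;> simp
    · congr 1
      · simp
        ring
      · simp

end Geo

end

end Vale.Agent.P240.H138.F5
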