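import Vale.Agent.P240.H138.F5c

/-!
Mixed frames of quadratic spaces over the field with five elements (P240, `p = 2`, `q = 5`):
the theorem.
-/

set_option autoImplicit false

namespace Vale.Agent.P240.H138.F5

open Finset Matrix
open Vale.Agent.P240.R2.AS (SOL)
open Vale.Agent.P240.R2.H986 (ev ev_nil ev_single ev_cons)

universe u

section
variable {L : Type u} {K : Type*} [Field K] {V : Type*} [AddCommGroup V] [Module K V]
variable {F : Finset (List L)} {S : Set L} {B : LinearMap.BilinForm K V} {vec : L → V}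

lemma lt_sq : ∀ N μ : ZMod 5, N = 1 ∨ N = 4 → μ = (if N = 1 ∨ N = 2 then 1 else 2) →
    lt N (μ * N) = Lt.y1 := by decide +kernel

lemma lt_ns : ∀ N μ : ZMod 5, N ≠ 0 → ¬ (N = 1 ∨ N = 4) → μ = (if N = 1 ∨ N = 2 then 1 else 2) →
    lt N (μ * N) = Lt.y2 := by decide +kernel

lemma sq5 : ∀ N : ZMod 5, N ≠ 0 → ((∃ r, N = r * r) ↔ (N = 1 ∨ N = 4)) := by decide +kernel

lemma isSquare_iff (e : K ≃+* ZMod 5) {N : K} (hN : N ≠ 0) :
    IsSquare N ↔ (e N = 1 ∨ e N = 4) := by
  rw [← sq5 (e N) (by simpa using hN)]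
  constructor
  · rintro ⟨r, hr⟩
    exact ⟨e r, by rw [hr, map_mul]⟩
  · rintro ⟨r, hr⟩
    refine ⟨e.symm r, e.injective ?_⟩
    rw [hr, map_mul, e.apply_symm_apply]

namespace Geo

/-- the vector of a frame -/
def vv (e : K ≃+* ZMod 5) (B : LinearMap.BilinForm K V) (vec : L → V) (g : List L) : V :=
  (g.map fun l => e.symm (if e (B (vec l) (vec l)) = 1 ∨ e (B (vec l) (vec l)) = 2 then 1 else 2) •
    vec l).sum

lemma B_vv_eq_zero (e : K ≃+* ZMod 5) (g : List L) (x : V)
    (hx : ∀ l ∈ g, B x (vec l) = 0) : B x (vv e B vec g) = 0 := by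
  induction g with
  | nil => simp [vv]
  | cons a g ih =>
    have h1 := ih fun l hl => hx l (by simp [hl])
    rw [vv, List.map_cons, List.sum_cons, map_add, map_smul, hx a (by simp), smul_zero, zero_add]
    exact h1

variable (h : Geo F S B vec)
include h

lemma B_vv (e : K ≃+* ZMod 5) {g : List L}
    (hg : g.Pairwise (fun a b => B (vec a) (vec b) = 0)) {l : L} (hl : l ∈ g) :
    B (vec l) (vv e B vec g) =
      e.symm (if e (B (vec l) (vec l)) = 1 ∨ e (B (vec l) (vec l)) = 2 then 1 else 2) *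
        B (vec l) (vec l) := by
  induction g with
  | nil => simp at hl
  | cons a g ih =>
    rw [List.pairwise_cons] at hg
    have e0 : vv e B vec (a :: g) =
      e.symm (if e (B (vec a) (vec a)) = 1 ∨ e (B (vec a) (vec a)) = 2 then 1 else 2) • vec a +
        vv e B vec g := by
      rw [vv, List.map_cons, List.sum_cons, vv]
    rcases List.mem_cons.1 hl with rfl | hl'
    · rw [e0, map_add, map_smul, smul_eq_mul, B_vv_eq_zero e g _ (fun l' hl' => hg.1 l' hl'),
        add_zero]
    · rw [e0, map_add, map_smul, ih hg.2 hl', h.symm (vec l) (vec a), hg.1 l hl', smul_zero, zero_add]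

/-- **the theorem**: `k` nonsquare lines, `1 ≤ k ≤ n - 1` -/
theorem exists_sol [Fintype L] (e : K ≃+* ZMod 5) {g : List L} (hg : g ∈ F) {m j : ℕ}
    (hj : 1 ≤ j) (ht : g.map (fun l => IsSquare (B (vec l) (vec l))) =
      List.replicate m False ++ (List.replicate j True ++ [False])) :
    ∃ z ∈ SOL F, ev z g [] [] ≠ 0 := by
  classical
  refine F5.exists_sol h.perm (h.pln e (vv e B vec g)) hg (m := m) hj ?_
  have h1 : ∀ l ∈ g, ph e B (vv e B vec g) (vec l) =
      if IsSquare (B (vec l) (vec l)) then Lt.y1 else Lt.y2 := by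
    intro l hl
    have hN := h.ne l (h.mem g hg l hl)
    have hN' : e (B (vec l) (vec l)) ≠ 0 := by simpa using hN
    rw [ph, h.B_vv e (h.orth g hg) hl, map_mul, e.apply_symm_apply]
    split_ifs with h2 h2
    all_goals try exact lt_sq _ _ ((isSquare_iff e hN).1 ‹_›) (by simp_all)
    all_goals exact lt_ns _ _ hN' (fun h3 => absurd ((isSquare_iff e hN).2 h3) ‹_›) (by simp_all)
  have h2 : g.map (fun l => ph e B (vv e B vec g) (vec l)) =
      (g.map (fun l => IsSquare (B (vec l) (vec l)))).map (fun p => if p then Lt.y1 else Lt.y2) := by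
    rw [List.map_map]
    exact List.map_congr_left h1
  rw [h2, ht]
  simp

end Geo

end

end Vale.Agent.P240.H138.F5
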