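import Vale.Agent.P240.H138.F5c
import Vale.Agent.P240.R2.H584.Sol

/-!
Mixed frames of quadratic spaces over the field with five elements, coloured by a vector of the
extension to the field with 25 elements: the planes.
-/

set_option autoImplicit false

namespace Vale.Agent.P240.H138.F5

open Finset Matrix

universe u

/-- the type and the colour of the line spanned by `e`, `N = (e, e)`, `(w, e) = m + α m'`, `α² = 2` -/
def col (N m m' : ZMod 5) : Option (Bool × Fin 3) :=
  if m * m + 2 * (m' * m') = N then (if m * m' = 0 then some (!(N = 1 ∨ N = 4), 0) else none) else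
    if 2 * (m * m') = 3 * N then
      (if m * m + 2 * (m' * m') = 3 * N then some (!(N = 1 ∨ N = 4), 1) else
        if m * m + 2 * (m' * m') = 2 * N then some (!(N = 1 ∨ N = 4), 2) else none) else none

lemma col_smul : ∀ t N m m' : ZMod 5, t ≠ 0 → N ≠ 0 →
    col (t * t * N) (t * m) (t * m') = col N m m' := by
  decide +kernel

/-- the pair of letters -/
def colp (Na Nb ma ma' mb mb' : ZMod 5) (p : Option (ZMod 5)) :
    Option (Bool × Fin 3) × Option (Bool × Fin 3) :=
  (col ((pt p).1 * (pt p).1 * Na + (pt p).2 * (pt p).2 * Nb) ((pt p).1 * ma + (pt p).2 * mb)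
      ((pt p).1 * ma' + (pt p).2 * mb'),
    col (Na * Nb * ((pt p).1 * (pt p).1 * Na + (pt p).2 * (pt p).2 * Nb))
      (- (pt p).2 * Nb * ma + (pt p).1 * Na * mb) (- (pt p).2 * Nb * ma' + (pt p).1 * Na * mb'))

/-- the three equalities -/
def chk (l : List (Option (Bool × Fin 3) × Option (Bool × Fin 3))) : Bool :=
  (l.count (some (false, 0), some (false, 1)) == l.count (some (true, 0), some (true, 1))) &&
  (l.count (some (false, 1), some (false, 2)) == l.count (some (true, 1), some (true, 2))) &&
  (l.count (some (false, 0), some (true, 2)) == l.count (some (true, 0), some (false, 2)))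

/-- the three equalities -/
def chk' (l : Multiset (Option (Bool × Fin 3) × Option (Bool × Fin 3))) : Prop :=
  (l.count (some (false, 0), some (false, 1)) = l.count (some (true, 0), some (true, 1))) ∧
  (l.count (some (false, 1), some (false, 2)) = l.count (some (true, 1), some (true, 2))) ∧
  (l.count (some (false, 0), some (true, 2)) = l.count (some (true, 0), some (false, 2)))

theorem planes_col : ∀ Na ∈ ([1, 2] : List (ZMod 5)), ∀ Nb ∈ ([1, 2] : List (ZMod 5)),
    ∀ ma ma' mb mb' : ZMod 5,
    chk ((pts Na Nb).map (colp Na Nb ma ma' mb mb')) = true := by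
  decide +kernel

section
variable {L : Type u} {K : Type*} [Field K] {V : Type*} [AddCommGroup V] [Module K V]
variable {F : Finset (List L)} {S : Set L} {B : LinearMap.BilinForm K V} {vec : L → V}

/-- rescaling of the vectors -/
lemma Geo.rescale (h : Geo F S B vec) (c : L → K) (hc : ∀ l ∈ S, c l ≠ 0) :
    Geo F S B (fun l => c l • vec l) where
  perm := h.perm
  mem := h.mem
  symm := h.symm
  ne l hl := by
    rw [map_smul, map_smul, LinearMap.smul_apply, smul_eq_mul, smul_eq_mul]
    exact mul_ne_zero (hc l hl) (mul_ne_zero (hc l hl) (h.ne l hl))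
  inj l hl l' hl' t ht := by
    apply h.inj l hl l' hl' ((c l')⁻¹ * t * c l)
    rw [mul_smul, mul_smul, ← ht, smul_smul, inv_mul_cancel₀ (hc l' hl'), one_smul]
  orth w hw := by
    refine (h.orth w hw).imp fun {a b} hab => ?_
    rw [map_smul, map_smul, LinearMap.smul_apply, hab, smul_zero, smul_zero]
  span u a b a' b' v h1 h2 := by
    obtain ⟨s, t, hst⟩ := h.span u a b a' b' v h1 h2
    refine ⟨c a' * s * (c a)⁻¹, c a' * t * (c b)⁻¹, ?_⟩
    rw [smul_smul, smul_smul, inv_mul_cancel_right₀ (hc a (h.mem1 h1)),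
      inv_mul_cancel_right₀ (hc b (h.mem2 h1)), mul_smul, mul_smul, ← smul_add, ← hst]
  ex u a b v h1 s t hst := by
    simp only [smul_smul] at hst ⊢
    obtain ⟨a', b', h2, r, hr⟩ := h.ex u a b v h1 (s * c a) (t * c b) hst
    exact ⟨a', b', h2, c a' * r, by rw [hr, smul_smul]⟩

/-- the colours -/
def cl (e : K ≃+* ZMod 5) (B : LinearMap.BilinForm K V) (μ μ' : V →ₗ[K] K) (x : V) :
    Option (Bool × Fin 3) :=
  col (e (B x x)) (e (μ x)) (e (μ' x))

/-- the multiples of a vector have the same colour -/
lemma cl_smul (e : K ≃+* ZMod 5) (B : LinearMap.BilinForm K V) (μ μ' : V →ₗ[K] K) (x : V) {t : K}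
    (ht : t ≠ 0) (hx : B x x ≠ 0) : cl e B μ μ' (t • x) = cl e B μ μ' x := by
  rw [cl]
  have e1 : B (t • x) (t • x) = t * t * B x x := by
    simp [mul_assoc]
  have e2 : μ (t • x) = t * μ x := μ.map_smul t x
  have e3 : μ' (t • x) = t * μ' x := μ'.map_smul t x
  rw [e1, e2, e3, map_mul, map_mul, map_mul, map_mul]
  exact col_smul _ _ _ _ (by simpa using ht) (by simpa using hx)

omit [AddCommGroup V] [Module K V] in
lemma B_comb [AddCommGroup V] [Module K V] {B : LinearMap.BilinForm K V} {X Y : V} (h1 : B X Y = 0)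
    (h2 : B Y X = 0) (s t s' t' : K) :
    B (s • X + t • Y) (s' • X + t' • Y) = s * s' * B X X + t * t' * B Y Y := by
  simp only [map_add, map_smul, LinearMap.add_apply, LinearMap.smul_apply, smul_eq_mul, h1, h2]
  ring

lemma nf_mem : ∀ N : ZMod 5, N ≠ 0 → (if N = 1 ∨ N = 2 then 1 else 2) *
    ((if N = 1 ∨ N = 2 then 1 else 2) * N) ∈ ([1, 2] : List (ZMod 5)) := by decide +kernel

lemma nf_ne : ∀ N : ZMod 5, (if N = 1 ∨ N = 2 then (1 : ZMod 5) else 2) ≠ 0 := by decide +kernel

lemma card_count {X Λ : Type*} [Fintype X] [DecidableEq Λ] (P : X × X → Prop) (φ : X → Λ)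
    (hP : DecidablePred P) (a b : Λ)
    (hd : DecidablePred fun x : X × X => P x ∧ φ x.1 = a ∧ φ x.2 = b) :
    (univ.filter fun x : X × X => P x ∧ φ x.1 = a ∧ φ x.2 = b).card =
      ((univ.filter P).val.map fun x => (φ x.1, φ x.2)).count (a, b) := by
  classical
  rw [Multiset.count_map, ← Finset.filter_val, Finset.card_val, Finset.filter_filter]
  congr 1
  ext x
  simp only [Finset.mem_filter, Finset.mem_univ, true_and, Prod.mk.injEq]
  constructor
  · rintro ⟨h1, h2, h3⟩
    exact ⟨h1, h2.symm, h3.symm⟩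
  · rintro ⟨h1, h2, h3⟩
    exact ⟨h1, h2.symm, h3.symm⟩

/-- **the planes, colours** -/
theorem Geo.planeC [Fintype L] (h : Geo F S B vec) (e : K ≃+* ZMod 5) (μ μ' : V →ₗ[K] K) :
    Vale.Agent.P240.R2.H584.PlaneC F (fun l => cl e B μ μ' (vec l)) := by
  classical
  -- normalization
  set c : L → K := fun l =>
    e.symm (if e (B (vec l) (vec l)) = 1 ∨ e (B (vec l) (vec l)) = 2 then 1 else 2) with hc
  have hc0 : ∀ l ∈ S, c l ≠ 0 := by
    intro l _ h0
    apply nf_ne (e (B (vec l) (vec l)))
    have := congrArg e h0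
    simpa [hc] using this
  have h' := h.rescale c hc0
  have hN : ∀ l ∈ S, e (B (c l • vec l) (c l • vec l)) ∈ ([1, 2] : List (ZMod 5)) := by
    intro l hl
    have h0 : B (c l • vec l) (c l • vec l) = c l * (c l * B (vec l) (vec l)) := by simp
    rw [h0, map_mul, map_mul, hc]
    simp only [RingEquiv.apply_symm_apply]
    exact nf_mem _ (by simpa using h.ne l hl)
  have key : ∀ u v : List L, chk' (((univ.filter fun x : L × L => u ++ x.1 :: x.2 :: v ∈ F).val.map
      fun x => (cl e B μ μ' (vec x.1), cl e B μ μ' (vec x.2)))) := by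
    intro u w
    by_cases hex : ∃ x : L × L, u ++ x.1 :: x.2 :: w ∈ F
    swap
    · have h0 : (univ.filter fun x : L × L => u ++ x.1 :: x.2 :: w ∈ F) = ∅ := by
        rw [Finset.filter_eq_empty_iff]
        intro x _ hx
        exact hex ⟨x, hx⟩
      rw [h0]
      simp [chk']
    obtain ⟨⟨a, b⟩, hab⟩ := hex
    change u ++ a :: b :: w ∈ F at hab
    have h1 := h'.plane_map e (cl e B μ μ') (fun t x ht hx => cl_smul e B μ μ' x ht hx) hab
      (fun _ => Classical.propDecidable _)
    have haS := h.mem1 hab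
    have hbS := h.mem2 hab
    have hab0 : B (c a • vec a) (c b • vec b) = 0 := h'.orth2 hab
    have hba0 : B (c b • vec b) (c a • vec a) = 0 := by rw [h.symm, hab0]
    have h2 := planes_col _ (hN a haS) _ (hN b hbS) (e (μ (c a • vec a))) (e (μ' (c a • vec a)))
      (e (μ (c b • vec b))) (e (μ' (c b • vec b)))
    have h3 : ((univ.filter fun x : L × L => u ++ x.1 :: x.2 :: w ∈ F).val.map
        fun x => (cl e B μ μ' (vec x.1), cl e B μ μ' (vec x.2))) =
        ((univ.filter fun x : L × L => u ++ x.1 :: x.2 :: w ∈ F).val.map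
        fun x => (cl e B μ μ' (c x.1 • vec x.1), cl e B μ μ' (c x.2 • vec x.2))) := by
      apply Multiset.map_congr rfl
      intro x hx
      have hx' : u ++ x.1 :: x.2 :: w ∈ F := (Finset.mem_filter.1 hx).2
      have h4 := h.mem1 hx'
      have h5 := h.mem2 hx'
      rw [cl_smul e B μ μ' _ (hc0 _ h4) (h.ne _ h4), cl_smul e B μ μ' _ (hc0 _ h5) (h.ne _ h5)]
    rw [h3]
    have h6 : ((univ.filter fun x : L × L => u ++ x.1 :: x.2 :: w ∈ F).val.map
        fun x => (cl e B μ μ' (c x.1 • vec x.1), cl e B μ μ' (c x.2 • vec x.2))) =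
        (((pts (e (B (c a • vec a) (c a • vec a))) (e (B (c b • vec b) (c b • vec b)))).map
          (colp (e (B (c a • vec a) (c a • vec a))) (e (B (c b • vec b) (c b • vec b)))
            (e (μ (c a • vec a))) (e (μ' (c a • vec a))) (e (μ (c b • vec b)))
            (e (μ' (c b • vec b))))) : Multiset _) := by
      refine Eq.trans ?_ (h1.trans ?_)
      · congr!
      · congr 1
        apply List.map_congr_left
        intro p hp
        unfold colp cl
        have hμ : ∀ (ν : V →ₗ[K] K) (s t : K) (X Y : V), ν (s • X + t • Y) = s * ν X + t * ν Y := by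
          intro ν s t X Y
          rw [ν.map_add, ν.map_smul, ν.map_smul]
          rfl
        rw [B_comb hab0 hba0, B_comb hab0 hba0, hμ, hμ, hμ, hμ]
        simp only [map_add, map_mul, map_neg, e.apply_symm_apply]
        congr 2
        ring
    rw [h6]
    rw [chk, Bool.and_eq_true, Bool.and_eq_true, beq_iff_eq, beq_iff_eq, beq_iff_eq] at h2
    refine ⟨?_, ?_, ?_⟩
    · rw [Multiset.coe_count, Multiset.coe_count]
      convert h2.1.1
    · rw [Multiset.coe_count, Multiset.coe_count]
      convert h2.1.2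
    · rw [Multiset.coe_count, Multiset.coe_count]
      convert h2.2
  refine ⟨h.perm, fun u v => ?_, fun u v => ?_, fun u v => ?_⟩
  · rw [card_count (fun x : L × L => u ++ x.1 :: x.2 :: v ∈ F) (fun l => cl e B μ μ' (vec l)) (fun _ => Classical.propDecidable _),
      card_count (fun x : L × L => u ++ x.1 :: x.2 :: v ∈ F) (fun l => cl e B μ μ' (vec l)) (fun _ => Classical.propDecidable _)]
    convert (key u v).1
  · rw [card_count (fun x : L × L => u ++ x.1 :: x.2 :: v ∈ F) (fun l => cl e B μ μ' (vec l)) (fun _ => Classical.propDecidable _),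
      card_count (fun x : L × L => u ++ x.1 :: x.2 :: v ∈ F) (fun l => cl e B μ μ' (vec l)) (fun _ => Classical.propDecidable _)]
    convert (key u v).2.1
  · rw [card_count (fun x : L × L => u ++ x.1 :: x.2 :: v ∈ F) (fun l => cl e B μ μ' (vec l)) (fun _ => Classical.propDecidable _),
      card_count (fun x : L × L => u ++ x.1 :: x.2 :: v ∈ F) (fun l => cl e B μ μ' (vec l)) (fun _ => Classical.propDecidable _)]
    convert (key u v).2.2

end

end Vale.Agent.P240.H138.F5
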