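import Vale.Agent.P240.H138.Num
import Vale.Agent.P240.H138.Sing2
import Vale.Agent.P240.H138.Aut
import Vale.Agent.P240.H138.Eu2

/-!
**Automorphisms that fix a Singer element**, and the main result for the groups of type `E₆`.
-/

set_option autoImplicit false

namespace Vale.Agent.P240.H138

open Subgroup CartanMatrix Matrix Polynomial Vale.Agent.P240.K Vale.Agent.P240.H195
  Vale.Agent.P240.R2.H986.X Vale.Agent.P240.R2.H281EA Vale.Agent.P240.R2.H165
  Vale.Agent.P240.R2.H165.XC Vale.Agent.P240.R2.H281EB Vale.Agent.P240.R2.H997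
  Vale.Agent.P240.R2.H164.EX

universe u

section
variable {K : Type*} [Field K]

lemma zp1 {l c : K} (h0 : l ≠ 0) (hc : c * c * c = 1) {n : ℕ} (h : (l ^ n)⁻¹ = c * l⁻¹) :
    l ^ (3 * ((n : ℤ) - 1)) = 1 := by
  have h1 : l ^ n ≠ 0 := pow_ne_zero _ h0
  have h2 : l = c * l ^ n := by
    field_simp at h
    rw [mul_comm]
    exact h
  have h3 : l ^ 3 = (l ^ n) ^ 3 := by
    calc l ^ 3 = (c * l ^ n) ^ 3 := by rw [← h2]
      _ = (c * c * c) * (l ^ n) ^ 3 := by ring
      _ = (l ^ n) ^ 3 := by rw [hc, one_mul]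
  have h4 : l ^ (3 * ((n : ℤ) - 1)) = (l ^ n) ^ 3 * (l ^ 3)⁻¹ := by
    rw [mul_sub, mul_one, zpow_sub₀ h0, div_eq_mul_inv, mul_comm 3, _root_.zpow_mul, zpow_natCast,
      zpow_ofNat, zpow_ofNat]
  rw [h4, h3, mul_inv_cancel₀ (pow_ne_zero _ h1)]

lemma zp2 {l c : K} (h0 : l ≠ 0) (hc : c * c * c = 1) {n : ℕ} (h : l ^ n = c * l⁻¹) :
    l ^ (3 * ((n : ℤ) - -1)) = 1 := by
  have h3 : (l ^ n) ^ 3 = (l ^ 3)⁻¹ := by
    calc (l ^ n) ^ 3 = (c * l⁻¹) ^ 3 := by rw [← h]
      _ = (c * c * c) * (l ^ 3)⁻¹ := by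
        rw [mul_pow, inv_pow]
        ring
      _ = (l ^ 3)⁻¹ := by rw [hc, one_mul]
  have h4 : l ^ (3 * ((n : ℤ) - -1)) = (l ^ n) ^ 3 * l ^ 3 := by
    rw [sub_neg_eq_add, mul_add, mul_one, zpow_add₀ h0, mul_comm 3, _root_.zpow_mul, zpow_natCast,
      zpow_ofNat, zpow_ofNat]
  rw [h4, h3, inv_mul_cancel₀ (pow_ne_zero _ h0)]

end

section
variable {F : Type*} [Field F] [Finite F]

/-- the eigenvalues of a Singer element and of its image under an automorphism -/
theorem no_eig {r : ℕ} [hr : Fact r.Prime] [CharP F r] (hr3 : 3 ≤ r) {l : AlgebraicClosure F}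
    (hl : IsSing F l) (ho : orderOf l = Nat.card F ^ 2 + Nat.card F + 1) {v W : GL I F}
    (hv : Dg (algebraMap F (AlgebraicClosure F)) v (dlt (lam F l))) {c : F} (hc : c * c * c = 1)
    (hW : W.1 = c • v.1) {g : Bool} {σ : RingAut F} (hσ : σ ^ 2 = 1)
    (hgσ : ¬ (g = false ∧ σ = 1))
    (hch : W.1.charpoly = (if g then (fA σ v)⁻¹ else fA σ v).1.charpoly) : False := by
  set φ := algebraMap F (AlgebraicClosure F) with hφ
  have hKr : CharP (AlgebraicClosure F) r := charP_of_injective_ringHom φ.injective r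
  obtain ⟨n, k, hkn, hcard, hτ, hn⟩ := ff_aut' (r := r) σ
  have h1 : n ∣ 2 * k := hn _ fun x => by
    have h2 : (σ ^ 2) x = x := by rw [hσ, RingAut.one_apply]
    rw [pow_two, RingAut.mul_apply, hτ, hτ, ← pow_mul, ← pow_add, ← two_mul] at h2
    exact h2
  have hk : k = 0 ∨ 2 * k = n := by
    obtain ⟨m, hm⟩ := h1
    rcases Nat.lt_or_ge m 2 with h3 | h3
    · interval_cases m
      · left
        rw [mul_zero] at hm
        omega
      · right
        rw [mul_one] at hm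
        exact hm
    · exfalso
      have h4 := Nat.mul_le_mul_left n h3
      omega
  set τ : AlgebraicClosure F →+* AlgebraicClosure F := iterateFrobenius _ r k with hτ'
  have hτφ : ∀ x, τ (φ x) = φ (σ x) := fun x => by
    rw [hτ', iterateFrobenius_def, ← map_pow, ← hτ]
  have hd0 : ∀ p, dlt (lam F l) p ≠ 0 := by
    intro p
    have h3 : ∀ i, lam F l i ≠ 0 := fun i => pow_ne_zero _ hl.ne
    refine mul_ne_zero ?_ ?_
    · obtain ⟨c, i, j⟩ := p
      fin_cases c
      · exact one_ne_zero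
      · exact h3 i
      · exact inv_ne_zero (h3 i)
    · obtain ⟨c, i, j⟩ := p
      fin_cases c
      · exact inv_ne_zero (h3 j)
      · exact h3 j
      · exact one_ne_zero
  have hW2 := (hv.smul hW).charpoly
  have hm : ((r ^ k : ℕ) : ℤ) = 1 ∨ (3 ≤ ((r ^ k : ℕ) : ℤ) ∧
      (Nat.card F : ℤ) = ((r ^ k : ℕ) : ℤ) ^ 2) := by
    rcases hk with rfl | hk
    · left; simp
    · right
      have hk0 : k ≠ 0 := by
        rintro rfl
        omega
      refine ⟨?_, ?_⟩
      · have h3 : r ^ 1 ≤ r ^ k := Nat.pow_le_pow_right hr.out.pos (by omega)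
        rw [pow_one] at h3
        exact_mod_cast hr3.trans h3
      · rw [hcard, ← hk]
        push_cast
        ring
  have hq : (3 : ℤ) ≤ Nat.card F := by
    have h3 : n ≠ 0 := by omega
    have h4 : r ^ 1 ≤ r ^ n := Nat.pow_le_pow_right hr.out.pos (by omega)
    rw [pow_one] at h4
    rw [hcard]
    exact_mod_cast hr3.trans h4
  have hMc : ((orderOf l : ℕ) : ℤ) = (Nat.card F : ℤ) ^ 2 + (Nat.card F : ℤ) + 1 := by
    rw [ho]
    push_cast
    ring
  have hexp : ∀ i : Fin 3, τ ((lam F l i)⁻¹) = (l ^ (r ^ k * Nat.card F ^ (i : ℕ)))⁻¹ := by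
    intro i
    rw [map_inv₀, hτ', iterateFrobenius_def, lam, ← pow_mul, mul_comm]
  have hcφ : φ c * φ c * φ c = 1 := by rw [← map_mul, ← map_mul, hc, map_one]
  have hcast : ∀ i : Fin 3, (((r ^ k * Nat.card F ^ (i : ℕ) : ℕ) : ℤ)) =
      ((r ^ k : ℕ) : ℤ) * (Nat.card F : ℤ) ^ (i : ℕ) := by
    intro i
    push_cast
    ring
  cases g
  · have hσ1 : ((r ^ k : ℕ) : ℤ) ≠ 1 := by
      intro h3
      apply hgσ
      refine ⟨rfl, ?_⟩
      ext x
      have h4 : r ^ k = 1 := by exact_mod_cast h3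
      rw [hτ, h4, pow_one, RingAut.one_apply]
    have h3 := (hv.field (σ := σ) hτφ).charpoly
    have h4 : W.1.charpoly = (fA σ v).1.charpoly := hch
    rw [← h4, hW2] at h3
    obtain ⟨i, hi⟩ := exists_k hl.prod (f := τ) (g := fun x => φ c * x) (mset_of_prod h3).symm
    rw [hexp, lam_zero] at hi
    have h5 := zp1 hl.ne hcφ hi
    rw [(IsPrimitiveRoot.orderOf l).zpow_eq_one_iff_dvd, hcast] at h5
    exact num hMc hq hm i (Or.inl ⟨rfl, hσ1⟩) h5
  · have h3 := ((hv.field (σ := σ) hτφ).inv (fun p => (map_ne_zero τ).2 (hd0 p))).charpoly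
    have h4 : W.1.charpoly = (fA σ v)⁻¹.1.charpoly := hch
    rw [← h4, hW2] at h3
    obtain ⟨i, hi⟩ := exists_k hl.prod (f := fun x => (τ x)⁻¹) (g := fun x => φ c * x)
      (mset_of_prod h3).symm
    rw [hexp, lam_zero, inv_inv] at hi
    have h5 := zp2 hl.ne hcφ hi
    rw [(IsPrimitiveRoot.orderOf l).zpow_eq_one_iff_dvd, hcast] at h5
    exact num hMc hq hm i (Or.inr rfl) h5

end

end Vale.Agent.P240.H138
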