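import Vale.Agent.P240.H138.Fix

/-!
**The groups of type `E₆` at `p = 2`**: a Singer element of `SL_3(F)` gives an element that is not
fixed by the outer automorphisms of order `2`, and whose fixed points on the poset of elementary
abelian `2`-subgroups have nonzero Euler characteristic.
-/

set_option autoImplicit false

namespace Vale.Agent.P240.H138

open Subgroup CartanMatrix Matrix Vale.Agent.P240.K Vale.Agent.P240.H195
  Vale.Agent.P240.R2.H986.X Vale.Agent.P240.R2.H281EA Vale.Agent.P240.R2.H165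
  Vale.Agent.P240.R2.H165.XC Vale.Agent.P240.R2.H281EB Vale.Agent.P240.R2.H997
  Vale.Agent.P240.R2.H164.EX

universe u

section
variable {F : Type*} [Field F]

/-! ### the elements -/

lemma SF_xp {i : Fin 6} {f a b : Fin 3} (hab : a ≠ b) (h : N6 i = NS f a b) (t : F) :
    el a b hab t ∈ SF (G27 F) f := by
  change Tf f (el a b hab t) ∈ G27 F
  rw [xp_eq hab h]
  exact xp_mem i t

lemma SF_xm {i : Fin 6} {f a b : Fin 3} (hab : a ≠ b) (h : N6 i = NS f a b) (t : F) :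
    el b a hab.symm t ∈ SF (G27 F) f := by
  change Tf f (el b a hab.symm t) ∈ G27 F
  rw [xm_eq hab h]
  exact xm_mem i t

lemma nB_mem {f : Fin 3} {i : Fin 6} (h : N6 i = NS f 1 2) : (nB : GL (Fin 3) F) ∈ SF (G27 F) f :=
  mul_mem (mul_mem (SF_xp (by decide) h _) (SF_xm (by decide) h _)) (SF_xp (by decide) h _)

lemma nA_mem {f : Fin 3} {i : Fin 6} (h : N6 i = NS f 0 1) : (nA : GL (Fin 3) F) ∈ SF (G27 F) f :=
  mul_mem (mul_mem (SF_xp (by decide) h _) (SF_xm (by decide) h _)) (SF_xp (by decide) h _)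

lemma T_eq (g1 g2 : GL (Fin 3) F) : T ![1, g1, g2] = Tf 1 g1 * Tf 2 g2 := by
  rw [Tf_apply, Tf_apply, ← map_mul]
  congr 1
  funext c
  fin_cases c
  · change (1 : GL (Fin 3) F) = 1 * 1
    rw [one_mul]
  · change g1 = g1 * 1
    rw [mul_one]
  · change g2 = 1 * g2
    rw [one_mul]

lemma T_mem {g1 g2 : GL (Fin 3) F} (h1 : g1 ∈ SF (G27 F) 1) (h2 : g2 ∈ SF (G27 F) 2) :
    T ![1, g1, g2] ∈ G27 F := by
  rw [T_eq]
  exact mul_mem h1 h2

lemma T0_eq (g : GL (Fin 3) F) : T ![g, 1, 1] = Tf 0 g := by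
  rw [Tf_apply]
  congr 1
  funext c
  fin_cases c
  · rfl
  · rfl
  · rfl

lemma e12_mem' (t : F) : Tf 0 (el 0 1 (by decide) t) ∈ G27 F := by
  have h1 : (nB : GL (Fin 3) F) ∈ SF (G27 F) 1 := nB_mem (i := 2) rfl
  have h2 : (nB : GL (Fin 3) F) ∈ SF (G27 F) 2 := nB_mem (i := 4) rfl
  have h3 : (nA : GL (Fin 3) F) ∈ SF (G27 F) 1 := nA_mem (i := 0) rfl
  have h4 : (nA : GL (Fin 3) F) ∈ SF (G27 F) 2 := nA_mem (i := 5) rfl
  have h5 : (nB : GL (Fin 3) F) ∈ SF (G27 F) 0 := nB_mem (i := 1) rfl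
  exact e12_mem (by rw [T0_eq]; exact h5) (mul_mem (mul_mem (xp_mem _ _) (xm_mem _ _)) (xp_mem _ _))
    (T_mem h1 h2) (T_mem h3 h4) (xm_mem _ _)

lemma cyc_mem1 (a b : F) : cyc a b ∈ SF (G27 F) 1 :=
  cyc_mem (fun t => SF_xp (i := 0) (by decide) rfl t) (fun t => SF_xm (i := 0) (by decide) rfl t)
    (fun t => SF_xp (i := 2) (by decide) rfl t) (fun t => SF_xm (i := 2) (by decide) rfl t) a b

lemma cyc_mem2 (a b : F) : cyc a b ∈ SF (G27 F) 2 :=
  cyc_mem (fun t => SF_xp (i := 5) (by decide) rfl t) (fun t => SF_xm (i := 5) (by decide) rfl t)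
    (fun t => SF_xp (i := 4) (by decide) rfl t) (fun t => SF_xm (i := 4) (by decide) rfl t) a b

lemma Tf0_comm (U g1 g2 : GL (Fin 3) F) : Tf 0 U * T ![1, g1, g2] = T ![1, g1, g2] * Tf 0 U := by
  rw [← T0_eq, ← map_mul, ← map_mul]
  congr 1
  funext c
  fin_cases c
  · change U * 1 = 1 * U
    rw [one_mul, mul_one]
  · change 1 * g1 = g1 * 1
    rw [one_mul, mul_one]
  · change 1 * g2 = g2 * 1
    rw [one_mul, mul_one]

end

section
variable {F : Type*} [Field F] {L : Type*} [Group L] {π : G27 F →* L}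

omit [Group L] in
lemma scal_cube' {g : G27 F} {c : F} (h : g.1.1 = c • (1 : Matrix I I F)) : c * c * c = 1 :=
  scal_cube g.2 h

lemma conj_scal (hk : ∀ g, π g = 1 → ∃ c : F, g.1.1 = c • (1 : Matrix I I F)) (w : G27 F)
    {X v : GL I F} (hX : X ∈ G27 F) (hv : v ∈ G27 F) (h : π (w * ⟨X, hX⟩ * w⁻¹) = π ⟨v, hv⟩) :
    ∃ c : F, c * c * c = 1 ∧ (w.1 * X * w.1⁻¹).1 = c • v.1 := by
  have h3 : π (w * ⟨X, hX⟩ * w⁻¹ * (⟨v, hv⟩ : G27 F)⁻¹) = 1 := by
    rw [map_mul, h, ← map_mul, mul_inv_cancel, map_one]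
  obtain ⟨c, hc⟩ := hk _ h3
  refine ⟨c, scal_cube' hc, ?_⟩
  have h4 : w.1 * X * w.1⁻¹ = (w.1 * X * w.1⁻¹ * v⁻¹) * v := by
    rw [inv_mul_cancel_right]
  rw [h4, Units.val_mul]
  have h5 : (w.1 * X * w.1⁻¹ * v⁻¹).1 = c • (1 : Matrix I I F) := hc
  rw [h5, Matrix.smul_mul, Matrix.one_mul]

end

section
variable {F : Type} [Field F] {L : Type u} [Group L] [Finite F] [Finite L]

/-- **The groups of type `E₆` at `p = 2`.** -/
theorem euFree_E6 (h : IsE6Mod F L) (hs : IsSimpleGroup L) (hab : ∃ x y : L, x * y ≠ y * x)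
    (h2 : (2 : F) ≠ 0) : EuFree 2 L := by
  obtain ⟨r, hrc⟩ := CharP.exists F
  have hr : Fact r.Prime := ⟨(CharP.char_is_prime_or_zero F r).resolve_right
    (CharP.char_ne_zero_of_finite F r)⟩
  have hr3 : 3 ≤ r := by
    rcases hr.out.two_le.lt_or_eq with h3 | h3
    · exact h3
    · exfalso
      apply h2
      have h4 := CharP.cast_eq_zero F r
      rw [← h3] at h4
      exact_mod_cast h4
  have hcen := centre_of_nonabelian hs hab
  obtain ⟨ι, hι, C, x, E, π, hC, hE, hk, hπ⟩ := exists_data h hab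
  have hsur : Function.Surjective π := by
    rw [← MonoidHom.range_eq_top]
    exact gen_simple hC fun i hi t => ⟨⟨_, (hπ ⟨i, hi⟩ t).1⟩, ⟨_, (hπ ⟨i, hi⟩ t).2⟩⟩
  -- the Singer element
  obtain ⟨l, hl, ho⟩ := exists_sing F
  set φ := algebraMap F (AlgebraicClosure F) with hφ
  obtain ⟨a, b, ha, hb⟩ := hl.coeff φ r
  have hl0 : ∀ i, lam F l i ≠ 0 := fun i => pow_ne_zero _ hl.ne
  have hdg : Dg φ (T ![1, cyc a b, (cyc a b)⁻¹]) (dlt (lam F l)) :=
    sing_dg φ hl.inj hl.prod ha hb hl0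
  have hv : T ![1, cyc a b, (cyc a b)⁻¹] ∈ G27 F := T_mem (cyc_mem1 a b) (inv_mem (cyc_mem2 a b))
  refine ⟨π ⟨T ![1, cyc a b, (cyc a b)⁻¹], hv⟩, ?_, fun f hf hfo hfix => ?_⟩
  · -- the Euler characteristic
    refine eu_ne (r := r) (Q := (((UT F).map (Tf 0)).subgroupOf (G27 F)).map π) ?_ ?_ ?_
    · rintro ⟨_, X, hX, rfl⟩
      refine ⟨2, Subtype.ext ?_⟩
      change (π X) ^ r ^ 2 = 1
      obtain ⟨U, hU, hUX⟩ := hX
      have h3 : X ^ r ^ 2 = 1 := by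
        apply Subtype.ext
        change X.1 ^ r ^ 2 = 1
        change Tf 0 U = X.1 at hUX
        rw [← hUX, ← map_pow, UT_pow hU, map_one]
      rw [← map_pow, h3, map_one]
    · rintro _ ⟨X, hX, rfl⟩
      obtain ⟨U, hU, hUX⟩ := hX
      change Tf 0 U = X.1 at hUX
      rw [← map_mul, ← map_mul]
      congr 1
      apply Subtype.ext
      change X.1 * T ![1, cyc a b, (cyc a b)⁻¹] = T ![1, cyc a b, (cyc a b)⁻¹] * X.1
      rw [← hUX]
      exact Tf0_comm _ _ _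
    · intro A hA hns hnQ
      have h23 : Tf 0 (el 1 2 (by decide) (1 : F)) ∈ G27 F := SF_xp (i := 1) (by decide) rfl 1
      refine no_fix h2 hsur hk hA (a := ⟨Tf 0 (el 0 1 (by decide) 1), e12_mem' 1⟩)
        (b := ⟨Tf 0 (el 1 2 (by decide) 1), h23⟩)
        (s := ⟨T ![1, cyc a b, (cyc a b)⁻¹], hv⟩) ?_ ?_ rfl (hnQ ?_) (hnQ ?_) hns
        (sing_noev1 φ hl.inj hl.prod ha hb hl0 (hl.not_mem φ))
        (sing_noev2 φ hl.inj hl.prod ha hb hl0 (hl.not_mem φ))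
      · exact (Tf_el 0 0 1 (by decide) 1).trans (by rw [one_smul]; rfl)
      · exact (Tf_el 0 1 2 (by decide) 1).trans (by rw [one_smul]; rfl)
      · exact ⟨_, ⟨_, el_UT (by decide) 1, rfl⟩, rfl⟩
      · exact ⟨_, ⟨_, el_UT (by decide) 1, rfl⟩, rfl⟩
  · -- outer automorphisms
    obtain ⟨g, σ, c, e, m, hσ, hgσ, hfe, hc, he⟩ := norm_form (r := r) hC hcen E hE hf hfo
    obtain ⟨D, hD⟩ := exists_Ph g σ hc
    have he' : ∀ i t, e (π ⟨xp i t, xp_mem _ _⟩) = π ⟨xp (fi g i) (c i * σ t), xp_mem _ _⟩ ∧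
        e (π ⟨xm i t, xm_mem _ _⟩) = π ⟨xm (fi g i) ((c i)⁻¹ * σ t), xm_mem _ _⟩ := by
      intro i t
      have h3 : ∀ j s, π ⟨xp j s, xp_mem _ _⟩ = x (E.symm j).1 s := by
        intro j s
        rw [← (hπ (E.symm j) s).1]
        congr 3
        exact (E.apply_symm_apply j).symm
      have h4 : ∀ j s, π ⟨xm j s, xm_mem _ _⟩ = x (C.neg (E.symm j).1) s := by
        intro j s
        rw [← (hπ (E.symm j) s).2]
        congr 3
        exact (E.apply_symm_apply j).symm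
      rw [h3, h3, h4, h4]
      exact he i t
    obtain ⟨hm, hme⟩ := lift_eq (σ := σ) hD he' _ hv
    obtain ⟨w, rfl⟩ := hsur m
    obtain ⟨c0, hc3, hW⟩ := conj_scal hk w hm hv (by
      rw [map_mul, map_mul, map_inv, ← hme]
      rw [hfe] at hfix
      exact hfix)
    refine no_eig hr3 hl ho hdg hc3 hW hσ hgσ ?_
    cases g
    · have h4 : w.1 * Ph D σ false (T ![1, cyc a b, (cyc a b)⁻¹]) * w.1⁻¹ =
          (w.1 * D) * fA σ (T ![1, cyc a b, (cyc a b)⁻¹]) * (w.1 * D)⁻¹ := by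
        change w.1 * (D * fA σ (T ![1, cyc a b, (cyc a b)⁻¹]) * D⁻¹) * w.1⁻¹ = _
        group
      rw [h4, charpoly_conj]
      rfl
    · have h4 : w.1 * Ph D σ true (T ![1, cyc a b, (cyc a b)⁻¹]) * w.1⁻¹ =
          (w.1 * D) * gA (fA σ (T ![1, cyc a b, (cyc a b)⁻¹])) * (w.1 * D)⁻¹ := by
        change w.1 * (D * gA (fA σ (T ![1, cyc a b, (cyc a b)⁻¹])) * D⁻¹) * w.1⁻¹ = _
        group
      rw [h4, charpoly_conj, gA_charpoly]
      rfl

end

end Vale.Agent.P240.H138
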