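import Mathlib.Data.Int.GCD
import Mathlib.Tactic.FinCases
import Mathlib.Tactic.NormNum
import Mathlib.Tactic.Ring
import Mathlib.Tactic.Linarith
import Mathlib.Tactic.Positivity

/-!
Divisibility by `q² + q + 1`.
-/

set_option autoImplicit false

namespace Vale.Agent.P240.H138

lemma small {M x : ℤ} (h : M ∣ x) (h0 : 0 < x) (h1 : x < M) : False :=
  absurd (Int.le_of_dvd h0 h) (not_le.2 h1)

/-- the arithmetic of the eigenvalues -/
lemma num {q m M : ℤ} (hM : M = q ^ 2 + q + 1) (hq : 3 ≤ q) (hm : m = 1 ∨ (3 ≤ m ∧ q = m ^ 2))
    (k : Fin 3) {ε : ℤ} (hε : (ε = 1 ∧ m ≠ 1) ∨ ε = -1) : ¬ M ∣ 3 * (m * q ^ (k : ℕ) - ε) := by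
  intro h
  rcases hm with rfl | ⟨hm, rfl⟩
  · rcases hε with ⟨-, h1⟩ | rfl
    · exact h1 rfl
    · fin_cases k
      · refine small h ?_ ?_
        · norm_num
        · rw [hM]
          norm_num
          nlinarith
      · refine small h ?_ ?_
        · simp
          linarith
        · rw [hM]
          simp
          nlinarith
      · have h1 : M ∣ 3 * q := by
          have h2 : 3 * q = 3 * M - 3 * (1 * q ^ 2 - -1) := by
            rw [hM]
            ring
          rw [h2]
          exact dvd_sub (Dvd.intro_left 3 rfl) h
        refine small h1 (by linarith) ?_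
        rw [hM]
        nlinarith
  · have h4 : 3 * m ^ 3 ≤ m ^ 4 := by
      have h5 : 0 ≤ m ^ 3 := by positivity
      nlinarith
    have h3 : 9 ≤ m ^ 2 := by nlinarith
    rcases hε with ⟨rfl, -⟩ | rfl
    · fin_cases k
      · refine small h ?_ ?_
        · simp
          linarith
        · rw [hM]
          simp
          nlinarith
      · refine small h ?_ ?_
        · simp
          nlinarith
        · rw [hM]
          simp
          nlinarith
      · have h1 : M ∣ 3 * (m ^ 2 - m) := by
          have h2 : 3 * (m ^ 2 - m) = 3 * m * (m ^ 2 - 1) * M - m ^ 2 * (3 * (m * (m ^ 2) ^ 2 - 1)) := by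
            rw [hM]
            ring
          rw [h2]
          exact dvd_sub (Dvd.intro_left _ rfl) (Dvd.dvd.mul_left h _)
        refine small h1 (by nlinarith) ?_
        rw [hM]
        nlinarith
    · fin_cases k
      · refine small h ?_ ?_
        · simp
          linarith
        · rw [hM]
          simp
          nlinarith
      · refine small h ?_ ?_
        · simp
          nlinarith
        · rw [hM]
          simp
          nlinarith
      · have h1 : M ∣ 3 * (m ^ 2 + m) := by
          have h2 : 3 * (m ^ 2 + m) = m ^ 2 * (3 * (m * (m ^ 2) ^ 2 - -1)) - 3 * m * (m ^ 2 - 1) * M := by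
            rw [hM]
            ring
          rw [h2]
          exact dvd_sub (Dvd.dvd.mul_left h _) (Dvd.intro_left _ rfl)
        refine small h1 (by nlinarith) ?_
        rw [hM]
        nlinarith

end Vale.Agent.P240.H138
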