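import Vale.Agent.P240.R2.H296.OFam2
import Vale.Agent.P240.R2.H487.N.M3

/-!
The last classical groups at the prime `2`, over the fields with `5` and `25` elements: list of
statements. `PSL₄(25)` is `PΩ₆⁺(25)` (`H63.P4.psl4_iso`), `PSU₄(5)` is `PΩ₆⁻(5)` (`H945.U4.psu4_dl`).
-/

set_option autoImplicit false

namespace Vale.Agent.P240.H138.T6

open Matrix Vale.Agent.P240.R2.AS
open Vale.Agent.P240.R2.H487 (TopFac)
open Vale.Agent.P240.R2.H401.D (fd POD)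

universe v w

/-- (O25) `PΩₙ⁺(25)`, `n ≥ 6` even -/
def StmtO25 : Prop :=
  ∀ {K : Type} [Field K] [Fintype K] [StarRing K] {n : ℕ} (𝕜 : Type w) [Field 𝕜],
    (∀ x : K, star x = x) → Nat.card K = 25 → Even n → 6 ≤ n →
    ∀ {L : Type v} [Group L], L ≃* ↥(commutator (PGU K n)) → TopFac 𝕜 2 L

/-- (O5+) `PΩₙ⁺(5)`, `n ≥ 8` even -/
def StmtO5p : Prop :=
  ∀ {K : Type} [Field K] [Fintype K] [StarRing K] {n : ℕ} (𝕜 : Type w) [Field 𝕜],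
    (∀ x : K, star x = x) → Nat.card K = 5 → Even n → 8 ≤ n →
    ∀ {L : Type v} [Group L], L ≃* ↥(commutator (PGU K n)) → TopFac 𝕜 2 L

/-- (O5-) `PΩₙ⁻(5)`, `n = m + 1 ≥ 6` even -/
def StmtO5m : Prop :=
  ∀ {K : Type} [Field K] [Fintype K] {m : ℕ} {d : K} (𝕜 : Type w) [Field 𝕜],
    Nat.card K = 5 → Odd m → 5 ≤ m → ¬ IsSquare d →
    ∀ {L : Type v} [Group L], L ≃* ↥(commutator (POD (fd m d))) → TopFac 𝕜 2 L

/-- (U5) `PSUₙ(5)`, `n ≥ 6` even -/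
def StmtU5 : Prop :=
  ∀ {K : Type} [Field K] [Fintype K] [StarRing K] {n : ℕ} (𝕜 : Type w) [Field 𝕜],
    Nat.card K = 25 → (∀ x : K, star x = x ^ 5) → Even n → 6 ≤ n →
    ∀ {L : Type v} [Group L], IsSimpleGroup L → L ≃* PSU K n → TopFac 𝕜 2 L

/-- (L) `PSL_{2^a}(q)`, `q = 5, 25`, `a ≥ 3` -/
def StmtL : Prop :=
  ∀ {F : Type} [Field F] [Finite F] (𝕜 : Type w) [Field 𝕜] (a : ℕ), 3 ≤ a →
    (Nat.card F = 5 ∨ Nat.card F = 25) →
    ∀ {L : Type v} [Group L], IsSimpleGroup L →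
      L ≃* ProjectiveSpecialLinearGroup (Fin (2 ^ a)) F → TopFac 𝕜 2 L

end Vale.Agent.P240.H138.T6
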