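import Vale.Agent.P240.H138.O25G
import Vale.Agent.P240.H138.T6

/-!
Orthogonal groups of the standard form over the field with 25 elements, `p = 2`: the statement of the
list.
-/

set_option autoImplicit false

namespace Vale.Agent.P240.H138.O25

universe v w

/-- **(O25)** -/
theorem stmtO25 : T6.StmtO25.{v, w} := fun 𝕜 _ hs h25 hn hn6 _ _ e => topFac25 𝕜 hs h25 hn hn6 e

end Vale.Agent.P240.H138.O25
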