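import Vale.Agent.P240.R2.H401.EDefs
import Vale.Agent.P240.R2.H584.Sum

/-!
Orthogonal groups of the standard form over the field with 25 elements, `p = 2`: definitions and
statements (block O25).
-/

set_option autoImplicit false
set_option linter.all false

namespace Vale.Agent.P240.H138.O25

open Matrix Vale.Agent.P240.R2.AS Vale.Agent.P240.R2.H38 Vale.Agent.P240.K
open Vale.Agent.P240.R2.H296.O (SOm)
open Vale.Agent.P240.R2.H401.E (Ftw)
open Vale.Agent.P240.R2.H584 (Lt lt PlaneC zf Rep)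
open Vale.Agent.P240.R2.H986 (ev)
open scoped Classical

universe u v w

noncomputable section

/-- the field with 25 elements with the trivial involution, `σ` its automorphism of order `2`, and a
primitive sixth root of unity -/
structure F25 (K : Type u) [Field K] [Fintype K] [StarRing K] (σ : K ≃+* K) (ρ : K) : Prop where
  card : Nat.card K = 25
  st : ∀ x : K, star x = x
  sg : ∀ x : K, σ x = x ^ 5
  rho : ρ ^ 2 = ρ - 1

section
variable {K : Type u} [Field K] [Fintype K] [StarRing K] {n : ℕ}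

/-- `x ↦ s σ(x)` is an involution -/
def RF (σ : K ≃+* K) (s : GU K n) : Prop := s.1 * s.1.map σ = 1

/-- the colour of a letter -/
def kap (ρ : K) (w : Fin n → K) (P : Ln K n) : Option (Fin 3) :=
  if w ⬝ᵥ (P.1 *ᵥ w) = 1 then some 0 else if w ⬝ᵥ (P.1 *ᵥ w) = ρ then some 1 else
    if w ⬝ᵥ (P.1 *ᵥ w) = ρ ^ 2 then some 2 else none

/-- the type of a letter: `true` if `s σ(e) = - e` for a unit vector `e` of the line -/
def tau (σ : K ≃+* K) (s : GU K n) (P : Ln K n) : Bool :=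
  decide (∃ e : Fin n → K, P.1 = vecMulVec e e ∧ s.1 *ᵥ (fun i => σ (e i)) = -e)

/-- (P) the plane condition -/
def StmtP : Prop :=
  ∀ (K : Type u) [Field K] [Fintype K] [StarRing K] (σ : K ≃+* K) (ρ : K), F25 K σ ρ → ∀ (n : ℕ)
    (s : GU K n), RF σ s → ∀ w : Fin n → K, PlaneC (Ftw s σ) (lt (kap ρ w) (tau σ s))

/-- (B) the sum over the forms of discriminant `1` -/
def StmtB : Prop :=
  ∀ (K : Type u) [Field K] [Fintype K] [StarRing K] (σ : K ≃+* K) (ρ : K), F25 K σ ρ → ∀ (n : ℕ),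
    4 ≤ n → ∀ (w : Fin n → K) (V : Type) [AddCommGroup V] [Module ℚ V]
    (M : Lt → Module.End ℚ V), Rep M → ∀ (ℓ : V →ₗ[ℚ] ℚ) (a : V),
    ∑ s ∈ Finset.univ.filter (fun s : GU K n => RF σ s ∧ s.1.det = 1 ∧ (Ftw s σ).Nonempty),
      zf M ℓ a (lt (kap ρ w) (tau σ s)) (Ftw s σ) = 0

/-- (B') a form of discriminant `1` with a frame is a twist of the identity -/
def StmtB' : Prop :=
  ∀ (K : Type u) [Field K] [Fintype K] [StarRing K] (σ : K ≃+* K) (ρ : K), F25 K σ ρ → ∀ (n : ℕ)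
    (s : GU K n), RF σ s → s.1.det = 1 → (Ftw s σ).Nonempty → s ∈ SOm K n

/-- (C) the letters of the standard frame: every list of colours, all types `false`; for `s = -1` all
types `true` -/
def StmtC : Prop :=
  ∀ (K : Type u) [Field K] [Fintype K] [StarRing K] (σ : K ≃+* K) (ρ : K), F25 K σ ρ → ∀ (n : ℕ)
    (κ : List (Fin 3)), κ.length = n → ∃ (w : Fin n → K) (g : List (Ln K n)),
      (∀ s : GU K n, s.1 = 1 ∨ s.1 = -1 → g ∈ Ftw s σ) ∧
      g.map (lt (kap ρ w) (tau σ (1 : GU K n))) = κ.map (fun j => some (false, j)) ∧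
      ∀ s : GU K n, s.1 = -1 → g.map (lt (kap ρ w) (tau σ s)) = κ.map (fun j => some (true, j))

/-- solutions with sum zero -/
def SSol (σ : K ≃+* K) (n : ℕ) : Prop :=
  ∃ (W : Finset (GU K n)) (z : GU K n → List (Ln K n) → ℚ),
    (∀ s ∈ W, s ∈ SOm K n ∧ RF σ s) ∧ (∀ s ∈ W, z s ∈ SOL (Ftw s σ)) ∧ ∑ s ∈ W, z s = 0 ∧
    1 ∈ W ∧ ∃ g, ev (z 1) g [] [] ≠ 0 ∧
      ∀ s ∈ W, s ≠ 1 → (∃ a : K, s.1 = a • (1 : Matrix (Fin n) (Fin n) K)) → ev (z s) g [] [] = 0

end

/-- (S) solutions -/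
def StmtS : Prop :=
  ∀ (K : Type u) [Field K] [Fintype K] [StarRing K] (σ : K ≃+* K) (ρ : K), F25 K σ ρ → ∀ (n : ℕ),
    5 ≤ n → SSol σ n

end

end Vale.Agent.P240.H138.O25
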