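import Vale.Agent.P240.H138.F5e
import Vale.Agent.P240.H138.O25Defs
import Vale.Agent.P240.R2.H387.M2a
import Vale.Agent.P240.R2.H829.EP2

/-!
Orthogonal groups of the standard form over the field with 25 elements, `p = 2`: the planes.
-/

set_option autoImplicit false
set_option linter.all false

namespace Vale.Agent.P240.H138.O25

open Matrix Vale.Agent.P240.R2.AS Vale.Agent.P240.R2.H38 Vale.Agent.P240.K
open Vale.Agent.P240.R2.H401.E (Ftw)
open Vale.Agent.P240.R2.H829.EP (mem_Ftw Ftw_sub Ftw_perm)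
open Vale.Agent.P240.R2.H584 (Lt lt PlaneC zf Rep)
open Vale.Agent.P240.H138.F5 (Geo cl col cl_smul)
open scoped Classical

universe u v w

noncomputable section

local instance fact5 : Fact (Nat.Prime 5) := ⟨Nat.prime_five⟩

/-! ### coordinates of the field -/

section field
variable {K : Type u} [Field K] [Fintype K] [StarRing K] {σ : K ≃+* K} {ρ : K}

lemma F25.five (h : F25 K σ ρ) : (5 : K) = 0 := by
  have h1 : ((Fintype.card K : ℕ) : K) = 0 := FiniteField.cast_card_eq_zero K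
  have h2 : Fintype.card K = 25 := by rw [← Nat.card_eq_fintype_card]; exact h.card
  rw [h2] at h1
  have h3 : (5 : K) * 5 = 0 := by
    have : (5 : K) * 5 = ((25 : ℕ) : K) := by norm_num
    rw [this]; exact h1
  rcases mul_eq_zero.1 h3 with h4 | h4 <;> exact h4

lemma F25.charP (h : F25 K σ ρ) : CharP K 5 := by
  have h5 : ((5 : ℕ) : K) = 0 := by exact_mod_cast h.five
  exact (CharP.charP_iff_prime_eq_zero Nat.prime_five).2 h5

/-- coordinates -/
structure Co [Algebra (ZMod 5) K] (σ : K ≃+* K) (α : K) (π π' : K →ₗ[ZMod 5] ZMod 5) : Prop where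
  sq : α * α = 2
  co : ∀ a b : ZMod 5, π (algebraMap _ K a + α * algebraMap _ K b) = a ∧
    π' (algebraMap _ K a + α * algebraMap _ K b) = b
  dec : ∀ x, x = algebraMap _ K (π x) + α * algebraMap _ K (π' x)
  sg : σ α = -α
  sp : ∀ a : ZMod 5, σ (algebraMap _ K a) = algebraMap _ K a

lemma F25.exists_co [Algebra (ZMod 5) K] (h : F25 K σ ρ) : ∃ π π', Co σ (2 * ρ - 1) π π' := by
  have h5 := h.five
  have hsq : (2 * ρ - 1) * (2 * ρ - 1) = 2 := by
    linear_combination 4 * h.rho - h5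
  have hsp : ∀ a : ZMod 5, σ (algebraMap _ K a) = algebraMap _ K a := by
    intro a
    rw [h.sg, ← map_pow]
    congr 1
    revert a
    decide
  set α := 2 * ρ - 1 with hα
  let f : (ZMod 5 × ZMod 5) →ₗ[ZMod 5] K :=
    { toFun := fun x => algebraMap _ K x.1 + α * algebraMap _ K x.2
      map_add' := by
        intro x y
        simp only [Prod.fst_add, Prod.snd_add, map_add]
        ring
      map_smul' := by
        intro c x
        show algebraMap _ K (c * x.1) + α * algebraMap _ K (c * x.2) =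
          c • (algebraMap _ K x.1 + α * algebraMap _ K x.2)
        rw [Algebra.smul_def, map_mul, map_mul]
        ring }
  have hinj : Function.Injective f := by
    rw [← LinearMap.ker_eq_bot, LinearMap.ker_eq_bot']
    rintro ⟨a, b⟩ hab
    have h1 : algebraMap (ZMod 5) K a + α * algebraMap (ZMod 5) K b = 0 := hab
    have h2 : algebraMap (ZMod 5) K (a * a) = algebraMap (ZMod 5) K (2 * (b * b)) := by
      rw [map_mul, map_mul, map_mul, map_ofNat]
      linear_combination (algebraMap (ZMod 5) K a - α * algebraMap (ZMod 5) K b) * h1 +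
        (algebraMap (ZMod 5) K b * algebraMap (ZMod 5) K b) * hsq
    have h3 := (algebraMap (ZMod 5) K).injective h2
    have h4 : ∀ a b : ZMod 5, a * a = 2 * (b * b) → a = 0 ∧ b = 0 := by decide
    obtain ⟨rfl, rfl⟩ := h4 a b h3
    rfl
  have hbij : Function.Bijective f := by
    rw [Fintype.bijective_iff_injective_and_card]
    refine ⟨hinj, ?_⟩
    rw [← Nat.card_eq_fintype_card (α := K), h.card]
    simp [ZMod.card]
  let eq := LinearEquiv.ofBijective f hbij
  have hf : ∀ a b : ZMod 5, eq (a, b) = algebraMap _ K a + α * algebraMap _ K b := fun a b => rfl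
  refine ⟨(LinearMap.fst (ZMod 5) (ZMod 5) (ZMod 5)).comp eq.symm.toLinearMap,
    (LinearMap.snd (ZMod 5) (ZMod 5) (ZMod 5)).comp eq.symm.toLinearMap, hsq, fun a b => ?_, fun x => ?_,
    ?_, hsp⟩
  · rw [← hf]
    simp
  · have h1 : x = eq (eq.symm x) := (eq.apply_symm_apply x).symm
    conv_lhs => rw [h1]
    rfl
  · rw [h.sg]
    have : α ^ 5 = α * (α * α) * (α * α) := by ring
    rw [this, hsq]
    linear_combination α * h5

end field

section co
variable {K : Type u} [Field K] [Fintype K] [StarRing K] [Algebra (ZMod 5) K] {σ : K ≃+* K}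
variable {α : K} {π π' : K →ₗ[ZMod 5] ZMod 5} {n : ℕ}


lemma Co.pi (h : Co σ α π π') (a : ZMod 5) : π ((algebraMap (ZMod 5) K) a) = a := by
  have := (h.co a 0).1
  simpa using this

lemma Co.two_ne (h : Co σ α π π') : (2 : K) ≠ 0 := by
  have h1 : (algebraMap (ZMod 5) K) 2 = 2 := map_ofNat _ 2
  rw [← h1]
  intro h2
  have h3 : (2 : ZMod 5) = 0 := (algebraMap (ZMod 5) K).injective (by rw [h2, map_zero])
  exact absurd h3 (by decide)

lemma Co.al_ne (h : Co σ α π π') : α ≠ 0 := by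
  rintro rfl
  apply h.two_ne
  rw [← h.sq, zero_mul]

lemma Co.sig (h : Co σ α π π') (x : K) : σ x = (algebraMap (ZMod 5) K) (π x) - α * (algebraMap (ZMod 5) K) (π' x) := by
  conv_lhs => rw [h.dec x]
  rw [map_add, map_mul, h.sg, h.sp, h.sp]
  ring

lemma Co.fix (h : Co σ α π π') {x : K} (hx : σ x = x) : x = (algebraMap (ZMod 5) K) (π x) := by
  have h1 := h.sig x
  have h2 := h.dec x
  rw [hx] at h1
  have h3 : 2 * (α * (algebraMap (ZMod 5) K) (π' x)) = 0 := by linear_combination h1 - h2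
  have h4 : α * (algebraMap (ZMod 5) K) (π' x) = 0 := (mul_eq_zero.1 h3).resolve_left h.two_ne
  rw [h4, add_zero] at h2
  exact h2

/-- the elements of the prime field are squares -/
lemma Co.sqrt (h : Co σ α π π') (a : ZMod 5) : ∃ r : K, r * r = (algebraMap (ZMod 5) K) a := by
  have h1 : ∀ a : ZMod 5, ∃ c : ZMod 5, c * c = a ∨ 2 * (c * c) = a := by decide
  obtain ⟨c, hc | hc⟩ := h1 a
  · exact ⟨(algebraMap (ZMod 5) K) c, by rw [← map_mul, hc]⟩
  · refine ⟨α * (algebraMap (ZMod 5) K) c, ?_⟩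
    rw [← hc, map_mul, map_mul, map_ofNat]
    linear_combination ((algebraMap (ZMod 5) K) c * (algebraMap (ZMod 5) K) c) * h.sq

/-! ### real vectors -/

/-- the vectors fixed by `x ↦ s σ(x)` -/
def Rl (σ : K ≃+* K) (s : GU K n) (x : Fin n → K) : Prop := s.1 *ᵥ (fun i => σ (x i)) = x

variable {s : GU K n} {x y : Fin n → K}

lemma Rl.add (hx : Rl σ s x) (hy : Rl σ s y) : Rl σ s (x + y) := by
  have h1 : (fun i => σ ((x + y) i)) = (fun i => σ (x i)) + fun i => σ (y i) := by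
    funext i; simp
  rw [Rl, h1, mulVec_add, hx, hy]

lemma Rl.smul (h : Co σ α π π') (hx : Rl σ s x) (c : ZMod 5) : Rl σ s (c • x) := by
  have h1 : (fun i => σ ((c • x) i)) = (algebraMap (ZMod 5) K) c • fun i => σ (x i) := by
    funext i
    rw [Pi.smul_apply, Pi.smul_apply, Algebra.smul_def, map_mul, h.sp, smul_eq_mul]
  rw [Rl, h1, mulVec_smul, hx]
  funext i
  simp [Algebra.smul_def]

lemma star_eq (hs : ∀ x : K, star x = x) (x : Fin n → K) : star x = x := by
  funext i; exact hs (x i)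

lemma mat_star (hs : ∀ x : K, star x = x) (A : Matrix (Fin n) (Fin n) K) : star A = Aᵀ := by
  ext i j
  rw [star_apply, transpose_apply, hs]

/-- the matrices of the group preserve the form -/
lemma gu_dot (hs : ∀ x : K, star x = x) (s : GU K n) (x y : Fin n → K) :
    (s.1 *ᵥ x) ⬝ᵥ (s.1 *ᵥ y) = x ⬝ᵥ y := by
  rw [dotProduct_mulVec, ← mulVec_transpose, mulVec_mulVec, ← mat_star hs, star_gu, one_mulVec]

lemma Rl.dot (hs : ∀ x : K, star x = x) (hx : Rl σ s x) (hy : Rl σ s y) :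
    σ (x ⬝ᵥ y) = x ⬝ᵥ y := by
  conv_rhs => rw [← hx, ← hy, gu_dot hs]
  rw [dotProduct, map_sum, dotProduct]
  exact Finset.sum_congr rfl fun i _ => map_mul σ _ _

lemma Rl.dot' (h : Co σ α π π') (hs : ∀ x : K, star x = x) (hx : Rl σ s x) (hy : Rl σ s y) :
    x ⬝ᵥ y = (algebraMap (ZMod 5) K) (π (x ⬝ᵥ y)) := h.fix (hx.dot hs hy)

omit [Fintype K] [StarRing K] [Algebra (ZMod 5) K] in
lemma vmv (x y z : Fin n → K) : vecMulVec x y *ᵥ z = (y ⬝ᵥ z) • x := by
  rw [vecMulVec_mulVec, op_smul_eq_smul]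

lemma smul_eq (a : ZMod 5) (x : Fin n → K) : a • x = (algebraMap (ZMod 5) K) a • x := by
  funext i
  simp [Algebra.smul_def]

/-- the letter `P` is the line of the real vector `x` -/
structure LP (σ : K ≃+* K) (s : GU K n) (P : Ln K n) (x : Fin n → K) : Prop where
  rl : Rl σ s x
  ne : x ⬝ᵥ x ≠ 0
  eq : P.1 = (x ⬝ᵥ x)⁻¹ • vecMulVec x x

lemma LP.mulVec {P : Ln K n} (h : LP σ s P x) (y : Fin n → K) :
    P.1 *ᵥ y = ((x ⬝ᵥ x)⁻¹ * (x ⬝ᵥ y)) • x := by
  rw [h.eq, smul_mulVec, vmv, smul_smul]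

lemma LP.fix {P : Ln K n} (h : LP σ s P x) : P.1 *ᵥ x = x := by
  rw [h.mulVec, inv_mul_cancel₀ h.ne, one_smul]

lemma LP.uniq (hC : Co σ α π π') (hs : ∀ x : K, star x = x) {P : Ln K n} (h : LP σ s P x)
    (h' : LP σ s P y) : ∃ c : ZMod 5, y = c • x := by
  refine ⟨(π (x ⬝ᵥ x))⁻¹ * π (x ⬝ᵥ y), ?_⟩
  have h1 := h.mulVec y
  rw [h'.fix, Rl.dot' hC hs h.rl h.rl, Rl.dot' hC hs h.rl h'.rl] at h1
  conv_lhs => rw [h1]
  rw [smul_eq, map_mul, map_inv₀]

lemma LP.orth {P Q : Ln K n} (h : LP σ s P x) (h' : LP σ s Q y) :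
    P.1 * Q.1 = 0 ↔ x ⬝ᵥ y = 0 := by
  rw [h.eq, h'.eq, smul_mul_smul_comm, vecMulVec_mul_vecMulVec]
  constructor
  · intro h1
    have h2 := congrArg (fun A : Matrix (Fin n) (Fin n) K => x ⬝ᵥ (A *ᵥ y)) h1
    simp only [zero_mulVec, dotProduct_zero, smul_mulVec, vmv, dotProduct_smul,
      smul_eq_mul, vecMulVec_smul] at h2
    by_contra h3
    revert h2
    simp [h.ne, h'.ne, h3]
  · intro h1
    rw [h1, zero_smul, vecMulVec_zero, smul_zero]


omit [Fintype K] [StarRing K] [Algebra (ZMod 5) K] in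
lemma vec_uniq {x y : Fin n → K} (hx : x ⬝ᵥ x = 1) (hy : y ⬝ᵥ y = 1)
    (h : vecMulVec x x = vecMulVec y y) : y = x ∨ y = -x := by
  have h1 : (y ⬝ᵥ x) • y = x := by
    have h2 := congrArg (fun A : Matrix (Fin n) (Fin n) K => A *ᵥ x) h
    simp only [vmv, hx, one_smul] at h2
    exact h2.symm
  have h3 : (y ⬝ᵥ x) * (y ⬝ᵥ x) = 1 := by
    have h4 := congrArg (fun z => y ⬝ᵥ z) h1
    simp only [dotProduct_smul, hy, smul_eq_mul, mul_one] at h4
    have h5 := hx
    conv at h5 => lhs; rw [← h1]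
    rw [dotProduct_smul, smul_dotProduct, hy, smul_eq_mul, smul_eq_mul, mul_one] at h5
    exact h5
  have h6 : (y ⬝ᵥ x - 1) * (y ⬝ᵥ x + 1) = 0 := by linear_combination h3
  rcases mul_eq_zero.1 h6 with h7 | h7
  · left
    have h8 : y ⬝ᵥ x = 1 := by linear_combination h7
    rw [h8, one_smul] at h1
    exact h1
  · right
    have h8 : y ⬝ᵥ x = -1 := by linear_combination h7
    rw [h8, neg_smul, one_smul] at h1
    rw [← h1, neg_neg]

lemma map_vmv (σ : K ≃+* K) (x y : Fin n → K) : (vecMulVec x y).map σ =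
    vecMulVec (fun i => σ (x i)) (fun i => σ (y i)) := by
  ext i j
  simp [vecMulVec_apply]

lemma tw_vmv (hs : ∀ x : K, star x = x) (σ : K ≃+* K) (s : GU K n) (x y : Fin n → K) :
    s.1 * (vecMulVec x y).map σ * star s.1 =
      vecMulVec (s.1 *ᵥ fun i => σ (x i)) (s.1 *ᵥ fun i => σ (y i)) := by
  rw [map_vmv, mul_vecMulVec, vecMulVec_mul, mat_star hs, vecMul_transpose]

lemma sig_dot (σ : K ≃+* K) (x y : Fin n → K) :
    (fun i => σ (x i)) ⬝ᵥ (fun i => σ (y i)) = σ (x ⬝ᵥ y) := by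
  rw [dotProduct, dotProduct, map_sum]
  exact Finset.sum_congr rfl fun i _ => (map_mul σ _ _).symm

/-- **the fixed letters** -/
lemma exists_lp (h : Co σ α π π') (hs : ∀ x : K, star x = x) {s : GU K n} {P : Ln K n}
    (hP : s.1 * P.1.map σ * star s.1 = P.1) :
    ∃ x, LP σ s P x ∧
      ((x ⬝ᵥ x = 1 ∧ tau σ s P = false) ∨ (x ⬝ᵥ x = 2 ∧ tau σ s P = true)) := by
  obtain ⟨e, he, hPe⟩ := P.2
  rw [star_eq hs] at he hPe
  set f := s.1 *ᵥ (fun i => σ (e i)) with hf
  have h1 : vecMulVec f f = vecMulVec e e := by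
    rw [← hPe, ← hP, hPe, tw_vmv hs]
  have h3 : f ⬝ᵥ f = 1 := by rw [hf, gu_dot hs, sig_dot, he, map_one]
  have h2 := vec_uniq he h3 h1.symm
  have h4 : ∀ e' : Fin n → K, P.1 = vecMulVec e' e' → e' = e ∨ e' = -e := by
    intro e' h5
    have h6 : e' ⬝ᵥ e' = 1 := by
      have h7 : (vecMulVec e' e').trace = (vecMulVec e e).trace := by rw [← h5, hPe]
      rw [trace_vecMulVec, trace_vecMulVec, he] at h7
      exact h7
    exact vec_uniq he h6 (by rw [← hPe, h5])
  have hneg : ∀ x : Fin n → K, s.1 *ᵥ (fun i => σ ((-x) i)) = -(s.1 *ᵥ fun i => σ (x i)) := by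
    intro x
    rw [← mulVec_neg]
    congr 1
    funext i
    simp
  have hne : ¬ (e = -e) := by
    intro h5
    have h6 : (2 : K) * (e ⬝ᵥ e) = 0 := by
      have h7 := congrArg (fun z => e ⬝ᵥ z) h5
      simp only [dotProduct_neg] at h7
      linear_combination h7
    rw [he, mul_one] at h6
    exact h.two_ne h6
  rcases h2 with h2 | h2
  · refine ⟨e, ⟨h2, by rw [he]; exact one_ne_zero, by rw [he, inv_one, one_smul]; exact hPe⟩,
      Or.inl ⟨he, ?_⟩⟩
    rw [tau, decide_eq_false_iff_not]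
    rintro ⟨e', h5, h6⟩
    rcases h4 e' h5 with rfl | rfl
    · exact hne (h2.symm.trans h6)
    · rw [hneg, neg_neg, ← hf, h2] at h6
      exact hne h6.symm
  · have hα : α ≠ 0 := h.al_ne
    refine ⟨α • e, ⟨?_, ?_, ?_⟩, Or.inr ⟨?_, ?_⟩⟩
    · have h5 : (fun i => σ ((α • e) i)) = (-α) • fun i => σ (e i) := by
        funext i
        rw [Pi.smul_apply, Pi.smul_apply, smul_eq_mul, smul_eq_mul, map_mul, h.sg]
      rw [Rl, h5, mulVec_smul, ← hf, h2, smul_neg, neg_smul, neg_neg]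
    · rw [dotProduct_smul, smul_dotProduct, he, smul_eq_mul, smul_eq_mul, mul_one, h.sq]
      exact h.two_ne
    · rw [dotProduct_smul, smul_dotProduct, he, smul_eq_mul, smul_eq_mul, mul_one, h.sq,
        vecMulVec_smul, smul_vecMulVec, smul_smul, smul_smul, hPe, mul_assoc, h.sq,
        inv_mul_cancel₀ h.two_ne, one_smul]
    · rw [dotProduct_smul, smul_dotProduct, he, smul_eq_mul, smul_eq_mul, mul_one, h.sq]
    · rw [tau, decide_eq_true_iff]
      exact ⟨e, hPe, h2⟩

/-- **real vectors give letters** -/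
lemma exists_ln (h : Co σ α π π') (hs : ∀ x : K, star x = x) {s : GU K n} {x : Fin n → K}
    (hx : Rl σ s x) (hne : x ⬝ᵥ x ≠ 0) :
    ∃ P : Ln K n, LP σ s P x ∧ s.1 * P.1.map σ * star s.1 = P.1 := by
  obtain ⟨r, hr⟩ := h.sqrt (π (x ⬝ᵥ x))
  rw [← Rl.dot' h hs hx hx] at hr
  have hr0 : r ≠ 0 := by
    rintro rfl
    apply hne
    rw [← hr, mul_zero]
  have h1 : star (r⁻¹ • x) ⬝ᵥ (r⁻¹ • x) = 1 := by
    rw [star_eq hs, dotProduct_smul, smul_dotProduct, ← hr, smul_eq_mul, smul_eq_mul]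
    field_simp
  let P : Ln K n := ⟨vecMulVec (r⁻¹ • x) (star (r⁻¹ • x)), r⁻¹ • x, h1, rfl⟩
  have hP : P.1 = (x ⬝ᵥ x)⁻¹ • vecMulVec x x := by
    show vecMulVec (r⁻¹ • x) (star (r⁻¹ • x)) = _
    rw [star_eq hs, vecMulVec_smul, smul_vecMulVec, smul_smul, ← hr, _root_.mul_inv]
  refine ⟨P, ⟨hx, hne, hP⟩, ?_⟩
  rw [hP]
  have h2 : ((x ⬝ᵥ x)⁻¹ • vecMulVec x x).map σ = (x ⬝ᵥ x)⁻¹ • (vecMulVec x x).map σ := by
    ext i j
    simp only [map_apply, Matrix.smul_apply, smul_eq_mul, map_mul, map_inv₀, hx.dot hs hx]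
  rw [h2, Matrix.mul_smul, Matrix.smul_mul, tw_vmv hs]
  congr 2 <;> exact hx

/-- the fixed letters -/
def Sx (σ : K ≃+* K) (s : GU K n) : Set (Ln K n) := {P | s.1 * P.1.map σ * star s.1 = P.1}

/-- the vectors -/
def vec (σ : K ≃+* K) (s : GU K n) (P : Ln K n) : Fin n → K :=
  if h : ∃ x, LP σ s P x then h.choose else 0

lemma vec_lp (h : Co σ α π π') (hs : ∀ x : K, star x = x) {s : GU K n} {P : Ln K n}
    (hP : P ∈ Sx σ s) : LP σ s P (vec σ s P) := by
  have h1 : ∃ x, LP σ s P x := by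
    obtain ⟨x, hx, -⟩ := exists_lp h hs hP
    exact ⟨x, hx⟩
  rw [vec, dif_pos h1]
  exact h1.choose_spec

variable (n) in
/-- the form -/
def Bf (π : K →ₗ[ZMod 5] ZMod 5) : LinearMap.BilinForm (ZMod 5) (Fin n → K) :=
  LinearMap.mk₂ (ZMod 5) (fun x y => π (x ⬝ᵥ y))
    (fun x y z => by rw [add_dotProduct, map_add])
    (fun c x y => by
      rw [← map_smul]
      congr 1
      rw [dotProduct, dotProduct, Finset.smul_sum]
      exact Finset.sum_congr rfl fun i _ => by rw [Pi.smul_apply, smul_mul_assoc])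
    (fun x y z => by rw [dotProduct_add, map_add])
    (fun c x y => by
      rw [← map_smul]
      congr 1
      rw [dotProduct, dotProduct, Finset.smul_sum]
      exact Finset.sum_congr rfl fun i _ => by rw [Pi.smul_apply, mul_smul_comm])

lemma Bf_apply (x y : Fin n → K) : Bf n π x y = π (x ⬝ᵥ y) := rfl

lemma dot_comb (a b : ZMod 5) (x y z : Fin n → K) :
    (a • x + b • y) ⬝ᵥ z = (algebraMap (ZMod 5) K) a * (x ⬝ᵥ z) + (algebraMap (ZMod 5) K) b * (y ⬝ᵥ z) := by
  rw [add_dotProduct]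
  have h1 : ∀ (a : ZMod 5) (x : Fin n → K), a • x = (algebraMap (ZMod 5) K) a • x := by
    intro a x
    funext i
    simp [Algebra.smul_def]
  rw [h1, h1, smul_dotProduct, smul_dotProduct, smul_eq_mul, smul_eq_mul]

/-- **the geometry** -/
theorem geo (h : Co σ α π π') (hs : ∀ x : K, star x = x) (s : GU K n) :
    Geo (Ftw s σ) (Sx σ s) (Bf n π) (vec σ s) where
  perm := Ftw_perm s σ
  mem w hw l hl := (mem_Ftw.1 hw).2 l hl
  symm x y := by rw [Bf_apply, Bf_apply, dotProduct_comm]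
  ne l hl := by
    have h1 := vec_lp h hs hl
    rw [Bf_apply]
    intro h2
    apply h1.ne
    rw [Rl.dot' h hs h1.rl h1.rl, h2, map_zero]
  inj l hl l' hl' c hc := by
    have h1 := vec_lp h hs hl
    have h2 := vec_lp h hs hl'
    apply Subtype.ext
    rw [h2.eq, h1.eq, hc, smul_eq, dotProduct_smul, smul_dotProduct, vecMulVec_smul,
      smul_vecMulVec, smul_smul, smul_smul]
    have hc0 : (algebraMap (ZMod 5) K) c ≠ 0 := by
      intro h3
      apply h2.ne
      rw [hc, smul_eq, h3, zero_smul, zero_dotProduct]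
    congr 1
    have := h1.ne
    rw [smul_eq_mul, smul_eq_mul]
    field_simp
  orth w hw := by
    obtain ⟨h1, h2⟩ := mem_Ftw.1 hw
    refine List.Pairwise.imp_of_mem (fun {a b} ha hb hab => ?_) ((mem_Fr K).1 h1).2
    rw [Bf_apply, ((vec_lp h hs (h2 a ha)).orth (vec_lp h hs (h2 b hb))).1 hab, map_zero]
  span u a b a' b' v hw hw' := by
    obtain ⟨h1, h2⟩ := mem_Ftw.1 hw
    obtain ⟨h1', h2'⟩ := mem_Ftw.1 hw'
    have ha := vec_lp h hs (h2 a (by simp))
    have hb := vec_lp h hs (h2 b (by simp))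
    have ha' := vec_lp h hs (h2' a' (by simp))
    have hb' := vec_lp h hs (h2' b' (by simp))
    have e1 := Vale.Agent.P240.R2.H387.sm_eq_one h1
    have e2 := Vale.Agent.P240.R2.H387.sm_eq_one h1'
    rw [sm_append, sm_cons, sm_cons] at e1 e2
    have e3 : a.1 + b.1 = a'.1 + b'.1 := by
      have e4 : sm u + (a.1 + (b.1 + sm v)) = sm u + (a'.1 + (b'.1 + sm v)) := e1.trans e2.symm
      have e5 := add_left_cancel e4
      rw [← add_assoc, ← add_assoc] at e5
      exact add_right_cancel e5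
    have hab' : a'.1 * b'.1 = 0 := by
      have h3 := ((mem_Fr K).1 h1').2
      rw [Orth, List.pairwise_append] at h3
      exact (List.pairwise_cons.1 h3.2.1).1 b' (by simp)
    have h4 : vec σ s b' ⬝ᵥ vec σ s a' = 0 := by
      rw [dotProduct_comm]
      exact (ha'.orth hb').1 hab'
    have h5 := congrArg (fun A : Matrix (Fin n) (Fin n) K => A *ᵥ vec σ s a') e3
    simp only [add_mulVec, ha.mulVec, hb.mulVec, ha'.fix, hb'.mulVec, h4, mul_zero, zero_smul,
      add_zero] at h5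
    refine ⟨(π (vec σ s a ⬝ᵥ vec σ s a))⁻¹ * π (vec σ s a ⬝ᵥ vec σ s a'),
      (π (vec σ s b ⬝ᵥ vec σ s b))⁻¹ * π (vec σ s b ⬝ᵥ vec σ s a'), ?_⟩
    rw [smul_eq, smul_eq, map_mul, map_mul, map_inv₀, map_inv₀, ← Rl.dot' h hs ha.rl ha.rl,
      ← Rl.dot' h hs ha.rl ha'.rl, ← Rl.dot' h hs hb.rl hb.rl, ← Rl.dot' h hs hb.rl ha'.rl]
    exact h5.symm
  ex u a b v hw c d hne := by
    obtain ⟨h1, h2⟩ := mem_Ftw.1 hw
    have h3 := ((mem_Fr K).1 h1).2
    have hlen := ((mem_Fr K).1 h1).1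
    rw [Orth, List.pairwise_append] at h3
    obtain ⟨o1, o2, o3⟩ := h3
    obtain ⟨o4, o5⟩ := List.pairwise_cons.1 o2
    obtain ⟨o6, o7⟩ := List.pairwise_cons.1 o5
    have ha := vec_lp h hs (h2 a (by simp))
    have hb := vec_lp h hs (h2 b (by simp))
    set xa := vec σ s a with hxa
    set xb := vec σ s b with hxb
    have hab : xa ⬝ᵥ xb = 0 := (ha.orth hb).1 (o4 b (by simp))
    have hba : xb ⬝ᵥ xa = 0 := by rw [dotProduct_comm, hab]
    set Na := π (xa ⬝ᵥ xa) with hNa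
    set Nb := π (xb ⬝ᵥ xb) with hNb
    have eNa : xa ⬝ᵥ xa = (algebraMap (ZMod 5) K) Na := Rl.dot' h hs ha.rl ha.rl
    have eNb : xb ⬝ᵥ xb = (algebraMap (ZMod 5) K) Nb := Rl.dot' h hs hb.rl hb.rl
    set x := c • xa + d • xb with hx
    set y := (-(d * Nb)) • xa + (c * Na) • xb with hy
    have hxr : Rl σ s x := (ha.rl.smul h c).add (hb.rl.smul h d)
    have hyr : Rl σ s y := (ha.rl.smul h _).add (hb.rl.smul h _)
    have hxx : x ⬝ᵥ x ≠ 0 := by
      intro h4
      apply hne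
      rw [Bf_apply, h4, map_zero]
    have dxa : xa ⬝ᵥ x = (algebraMap (ZMod 5) K) c * (algebraMap (ZMod 5) K) Na := by
      rw [dotProduct_comm, hx, dot_comb, eNa, hba, mul_zero, add_zero]
    have dxb : xb ⬝ᵥ x = (algebraMap (ZMod 5) K) d * (algebraMap (ZMod 5) K) Nb := by
      rw [dotProduct_comm, hx, dot_comb, eNb, hab, mul_zero, zero_add]
    have dxx : x ⬝ᵥ x = (algebraMap (ZMod 5) K) (c * c * Na + d * d * Nb) := by
      conv_lhs => rw [hx]
      rw [dot_comb, dxa, dxb]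
      simp only [map_add, map_mul]
      ring
    have dyx : y ⬝ᵥ x = 0 := by
      conv_lhs => rw [hy]
      rw [dot_comb, dxa, dxb]
      simp only [map_neg, map_mul]
      ring
    have dya : xa ⬝ᵥ y = -((algebraMap (ZMod 5) K) d * (algebraMap (ZMod 5) K) Nb) * (algebraMap (ZMod 5) K) Na := by
      rw [dotProduct_comm, hy, dot_comb, eNa, hba, mul_zero, add_zero, map_neg, map_mul]
    have dyb : xb ⬝ᵥ y = (algebraMap (ZMod 5) K) c * (algebraMap (ZMod 5) K) Na * (algebraMap (ZMod 5) K) Nb := by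
      rw [dotProduct_comm, hy, dot_comb, eNb, hab, mul_zero, zero_add, map_mul]
    have dyy : y ⬝ᵥ y = (algebraMap (ZMod 5) K) (Na * Nb * (c * c * Na + d * d * Nb)) := by
      conv_lhs => rw [hy]
      rw [dot_comb, dya, dyb]
      simp only [map_add, map_mul, map_neg]
      ring
    have hyy : y ⬝ᵥ y ≠ 0 := by
      rw [dyy, map_mul, map_mul, ← dxx, ← eNa, ← eNb]
      exact mul_ne_zero (mul_ne_zero ha.ne hb.ne) hxx
    obtain ⟨P, hP, hPf⟩ := exists_ln h hs hxr hxx
    obtain ⟨Q, hQ, hQf⟩ := exists_ln h hs hyr hyy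
    refine ⟨P, Q, ?_, ?_⟩
    · rw [mem_Ftw]
      have hl : (u ++ P :: Q :: v).length = (u ++ a :: b :: v).length := by simp
      refine ⟨(mem_Fr K).2 ⟨hl.trans hlen, ?_⟩, ?_⟩
      · have key : ∀ (c d : ZMod 5) (z : Fin n → K) (R : Ln K n), LP σ s R z →
            R.1 * a.1 = 0 → R.1 * b.1 = 0 → z ⬝ᵥ (c • xa + d • xb) = 0 := by
          intro c d z R hR h4 h5
          rw [dotProduct_comm, dot_comb, dotProduct_comm xa, dotProduct_comm xb,
            (hR.orth ha).1 h4, (hR.orth hb).1 h5, mul_zero, mul_zero, add_zero]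
        rw [Orth, List.pairwise_append]
        refine ⟨o1, List.pairwise_cons.2 ⟨?_, List.pairwise_cons.2 ⟨?_, o7⟩⟩, ?_⟩
        · intro R hR
          rcases List.mem_cons.1 hR with rfl | hR
          · exact (hP.orth hQ).2 (by rw [dotProduct_comm]; exact dyx)
          · have hRl := vec_lp h hs (h2 R (by simp [hR]))
            refine (hP.orth hRl).2 ?_
            rw [dotProduct_comm]
            exact key _ _ _ R hRl (orth_symm (o4 R (by simp [hR]))) (orth_symm (o6 R hR))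
        · intro R hR
          have hRl := vec_lp h hs (h2 R (by simp [hR]))
          refine (hQ.orth hRl).2 ?_
          rw [dotProduct_comm]
          exact key _ _ _ R hRl (orth_symm (o4 R (by simp [hR]))) (orth_symm (o6 R hR))
        · intro R hR T hT
          have hRl := vec_lp h hs (h2 R (by simp [hR]))
          have hRa := o3 R hR a (by simp)
          have hRb := o3 R hR b (by simp)
          rcases List.mem_cons.1 hT with rfl | hT
          · exact (hRl.orth hP).2 (key _ _ _ R hRl hRa hRb)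
          rcases List.mem_cons.1 hT with rfl | hT
          · exact (hRl.orth hQ).2 (key _ _ _ R hRl hRa hRb)
          · exact o3 R hR T (by simp [hT])
      · intro R hR
        rcases List.mem_append.1 hR with hR | hR
        · exact h2 R (by simp [hR])
        rcases List.mem_cons.1 hR with rfl | hR
        · exact hPf
        rcases List.mem_cons.1 hR with rfl | hR
        · exact hQf
        · exact h2 R (by simp [hR])
    · obtain ⟨t, ht⟩ := hP.uniq h hs (vec_lp h hs (show P ∈ Sx σ s from hPf))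
      exact ⟨t, ht⟩

/-! ### the letters -/

lemma col_eq : ∀ N m m' : ZMod 5, (N = 1 ∨ N = 2) → col N m m' =
    (if m * m + 2 * (m' * m') = N ∧ 2 * (m * m') = 0 then some (0 : Fin 3) else
      if m * m + 2 * (m' * m') = 3 * N ∧ 2 * (m * m') = 3 * N then some 1 else
        if m * m + 2 * (m' * m') = 2 * N ∧ 2 * (m * m') = 3 * N then some 2 else none).map
      (fun j => (decide (N = 2), j)) := by
  decide +kernel

/-- the functional given by a vector -/
def mu (π : K →ₗ[ZMod 5] ZMod 5) (w : Fin n → K) : (Fin n → K) →ₗ[ZMod 5] ZMod 5 :=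
  { toFun := fun x => π (w ⬝ᵥ x)
    map_add' := fun x y => by rw [dotProduct_add, map_add]
    map_smul' := fun c x => by
      rw [RingHom.id_apply, ← map_smul]
      congr 1
      rw [dotProduct, dotProduct, Finset.smul_sum]
      exact Finset.sum_congr rfl fun i _ => by rw [Pi.smul_apply, mul_smul_comm] }

lemma Co.ext (h : Co σ α π π') {a b a' b' : ZMod 5} :
    (algebraMap (ZMod 5) K) a + α * (algebraMap (ZMod 5) K) b = (algebraMap (ZMod 5) K) a' + α * (algebraMap (ZMod 5) K) b' ↔ a = a' ∧ b = b' := by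
  constructor
  · intro h1
    have h2 := h.co a b
    rw [h1] at h2
    have h3 := h.co a' b'
    exact ⟨h2.1.symm.trans h3.1, h2.2.symm.trans h3.2⟩
  · rintro ⟨rfl, rfl⟩; rfl

lemma letter_eq {ρ : K} (hF : F25 K σ ρ) (h : Co σ (2 * ρ - 1) π π') {s : GU K n} {w : Fin n → K}
    {P : Ln K n} (hP : P ∈ Sx σ s) :
    cl (RingEquiv.refl (ZMod 5)) (Bf n π) (mu π w) (mu π' w) (vec σ s P) =
      lt (kap ρ w) (tau σ s) P := by
  have hs := hF.st
  obtain ⟨x, hx, hN⟩ := exists_lp h hs hP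
  obtain ⟨c, hc⟩ := hx.uniq h hs (vec_lp h hs hP)
  have hc0 : c ≠ 0 := by
    rintro rfl
    apply (vec_lp h hs hP).ne
    rw [hc, zero_smul, zero_dotProduct]
  have hxB : Bf n π x x ≠ 0 := by
    rw [Bf_apply]
    intro h2
    apply hx.ne
    rw [Rl.dot' h hs hx.rl hx.rl, h2, map_zero]
  rw [hc, cl_smul _ _ _ _ _ hc0 hxB, cl]
  set N := π (x ⬝ᵥ x) with hNd
  have eN : x ⬝ᵥ x = (algebraMap (ZMod 5) K) N := Rl.dot' h hs hx.rl hx.rl
  set m := π (w ⬝ᵥ x) with hm
  set m' := π' (w ⬝ᵥ x) with hm'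
  have et : w ⬝ᵥ x = (algebraMap (ZMod 5) K) m + (2 * ρ - 1) * (algebraMap (ZMod 5) K) m' := h.dec _
  have h12 : N = 1 ∨ N = 2 := by
    rcases hN with ⟨h1, -⟩ | ⟨h1, -⟩
    · left
      rw [hNd, h1]
      have := h.pi 1
      rwa [map_one] at this
    · right
      rw [hNd, h1]
      have := h.pi 2
      rwa [map_ofNat] at this
  have hN0 : (algebraMap (ZMod 5) K) N ≠ 0 := by rw [← eN]; exact hx.ne
  have h1 : (RingEquiv.refl (ZMod 5)) (Bf n π x x) = N := rfl
  have h2 : (RingEquiv.refl (ZMod 5)) (mu π w x) = m := rfl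
  have h3 : (RingEquiv.refl (ZMod 5)) (mu π' w x) = m' := rfl
  rw [h1, h2, h3, col_eq _ _ _ h12, lt]
  have hq : w ⬝ᵥ (P.1 *ᵥ w) = ((algebraMap (ZMod 5) K) N)⁻¹ * ((w ⬝ᵥ x) * (w ⬝ᵥ x)) := by
    rw [hx.mulVec, dotProduct_smul, smul_eq_mul, eN, dotProduct_comm x w]
    ring
  have htt : (w ⬝ᵥ x) * (w ⬝ᵥ x) = (algebraMap (ZMod 5) K) (m * m + 2 * (m' * m')) + (2 * ρ - 1) * (algebraMap (ZMod 5) K) (2 * (m * m')) := by
    rw [et]
    simp only [map_add, map_mul, map_ofNat]
    linear_combination ((algebraMap (ZMod 5) K) m' * (algebraMap (ZMod 5) K) m') * h.sq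
  have key : ∀ (r : K) (a b : ZMod 5), r = (algebraMap (ZMod 5) K) a + (2 * ρ - 1) * (algebraMap (ZMod 5) K) b →
      (w ⬝ᵥ (P.1 *ᵥ w) = r ↔ m * m + 2 * (m' * m') = a * N ∧ 2 * (m * m') = b * N) := by
    intro r a b hr
    rw [hq, htt, inv_mul_eq_iff_eq_mul₀ hN0, hr]
    have h4 : (algebraMap (ZMod 5) K) N * ((algebraMap (ZMod 5) K) a + (2 * ρ - 1) * (algebraMap (ZMod 5) K) b) = (algebraMap (ZMod 5) K) (a * N) + (2 * ρ - 1) * (algebraMap (ZMod 5) K) (b * N) := by
      simp only [map_mul]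
      ring
    rw [h4, h.ext]
  have k0 := key 1 1 0 (by simp)
  have k1 := key ρ 3 3 (by
    simp only [map_ofNat]
    linear_combination (-1 : K) * ρ * hF.five)
  have k2 := key (ρ ^ 2) 2 3 (by
    rw [hF.rho]
    simp only [map_ofNat]
    linear_combination (-1 : K) * ρ * hF.five)
  rw [one_mul, zero_mul] at k0
  have e1 : kap ρ w P = (if m * m + 2 * (m' * m') = N ∧ 2 * (m * m') = 0 then some (0 : Fin 3) else
      if m * m + 2 * (m' * m') = 3 * N ∧ 2 * (m * m') = 3 * N then some 1 else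
        if m * m + 2 * (m' * m') = 2 * N ∧ 2 * (m * m') = 3 * N then some 2 else none) := by
    rw [kap]
    simp only [k0, k1, k2]
  have e2 : tau σ s P = decide (N = 2) := by
    rcases hN with ⟨h4, h5⟩ | ⟨h4, h5⟩
    · rw [h5]
      symm
      rw [decide_eq_false_iff_not]
      have h6 : N = 1 := by
        rw [hNd, h4]
        have := h.pi 1
        rwa [map_one] at this
      rw [h6]
      decide
    · rw [h5]
      symm
      rw [decide_eq_true_iff]
      rw [hNd, h4]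
      have := h.pi 2
      rwa [map_ofNat] at this
  rw [e1, e2]

omit [Fintype K] [StarRing K] [Algebra (ZMod 5) K] in
lemma planeC_congr {X : Type w} [Fintype X] {F : Finset (List X)} {φ φ' : X → Option Lt}
    (h : ∀ w ∈ F, ∀ x ∈ w, φ x = φ' x) (hp : PlaneC F φ) : PlaneC F φ' := by
  have key : ∀ (u v : List X) (a b : Option Lt),
      (Finset.univ.filter fun x : X × X => u ++ x.1 :: x.2 :: v ∈ F ∧ φ' x.1 = a ∧ φ' x.2 = b) =
      (Finset.univ.filter fun x : X × X => u ++ x.1 :: x.2 :: v ∈ F ∧ φ x.1 = a ∧ φ x.2 = b) := by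
    intro u v a b
    refine Finset.filter_congr fun x _ => ?_
    refine and_congr_right fun hx => ?_
    rw [h _ hx x.1 (by simp), h _ hx x.2 (by simp)]
  refine ⟨hp.perm, fun u v => ?_, fun u v => ?_, fun u v => ?_⟩
  · rw [key, key]; exact hp.s01 u v
  · rw [key, key]; exact hp.s12 u v
  · rw [key, key]; exact hp.s02 u v

end co

/-- **the plane condition** -/
theorem stmtP : StmtP.{u} := by
  intro K _ _ _ σ ρ hF n s hs w
  haveI := hF.charP
  letI : Algebra (ZMod 5) K := ZMod.algebra K 5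
  obtain ⟨π, π', h⟩ := hF.exists_co
  have h1 := (geo h hF.st s).planeC (RingEquiv.refl (ZMod 5)) (mu π w) (mu π' w)
  refine planeC_congr (fun v hv P hP => ?_) h1
  exact letter_eq hF h ((mem_Ftw.1 hv).2 P hP)

end

end Vale.Agent.P240.H138.O25
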