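import Vale.Agent.P240.H138.O25F
import Vale.Agent.P240.H138.O25P
import Vale.Agent.P240.R2.H32.E
import Vale.Agent.P240.R2.H32.N
import Vale.Agent.P240.R2.H584.O25C
import Vale.Agent.P240.R2.N402.Om1
import Vale.Agent.P240.R2.H401.E4

/-!
Orthogonal groups of the standard form over the field with 25 elements, `p = 2`.
-/

set_option autoImplicit false
set_option linter.all false

namespace Vale.Agent.P240.H138.O25

open Matrix Vale.Agent.P240.R2.AS Vale.Agent.P240.R2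
open Vale.Agent.P240.R2.H401.E
open Vale.Agent.P240.R2.H487 (LocTopF TopFac)

universe u v w

theorem stmtS : StmtS.{u} := H584.O.stmtS_of stmtP H32.O25.stmtB H32.O25.stmtB'

theorem stmtM : StmtM.{u, v, w} := by
  intro K _ _ _ m hE σ ρ hF hS G _ _ L ε hε hcard 𝕜 _ x hx
  exact ⟨fun H hH => N402.Om.top2 𝕜 hE hε hcard hS hx hH,
    fun hx2 hxL H hH => N402.Om.top3 𝕜 hE hε hcard hS hx hx2 hxL hH⟩

theorem stmtN : StmtN.{u, v, w} := by
  intro K _ _ _ m hE σ ρ hF hS G _ _ L ε hε 𝕜 _ e he2 heL he x hxe hx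
  obtain ⟨h1, h2⟩ := H32.N.eII hE hε 𝕜 he2 heL he hS
  exact ⟨h1 x hxe hx, fun hx2 hxL => h2 x hxe hx2 hxL hx⟩

/-- **`PΩₙ⁺(25)`**, `n = m + 1 ≥ 6` even -/
theorem locTopF25 (K : Type u) [Field K] [Fintype K] [StarRing K] (m : ℕ) (hE : ENum K m)
    (h25 : Nat.card K = 25) (G : Type v) [Group G] [Finite G] (L : Subgroup G)
    (he : Nonempty (commutator (PGU K (m + 1)) ≃* L)) (𝕜 : Type w) [Field 𝕜] : LocTopF 𝕜 2 L :=
  main_of (H275.stmtESem_of H145.EO.stmtEO) H296.EC.stmtEC H829.EP.stmtEII stmtS stmtM stmtN K m hE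
    h25 G L he 𝕜

/-- **`PΩₙ⁺(25)`**, `n ≥ 6` even -/
theorem topFac25 {K : Type} [Field K] [Fintype K] [StarRing K] {n : ℕ} (𝕜 : Type w) [Field 𝕜]
    (hs : ∀ x : K, star x = x) (h25 : Nat.card K = 25) (hn : Even n) (hn6 : 6 ≤ n)
    {L : Type v} [Group L] (e : L ≃* ↥(commutator (PGU K n))) : TopFac 𝕜 2 L := by
  intro G _ _ M ⟨f⟩
  obtain ⟨m, rfl⟩ : ∃ m, n = m + 1 := ⟨n - 1, by omega⟩
  have hm : Odd m := by
    rw [Nat.odd_iff]
    rw [Nat.even_iff] at hn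
    omega
  exact locTopF25 K m ⟨hs, by rw [h25]; decide, by rw [h25]; norm_num, hm, by omega⟩ h25 G M
    ⟨e.symm.trans f⟩ 𝕜

end Vale.Agent.P240.H138.O25
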