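import Mathlib.LinearAlgebra.Dimension.Finite
import Mathlib.LinearAlgebra.FiniteDimensional.Basic
import Mathlib.LinearAlgebra.FiniteDimensional.Lemmas
import Mathlib.LinearAlgebra.Basis.VectorSpace
import Mathlib.Algebra.Ring.Subring.Basic
import Mathlib.Algebra.Algebra.Basic
import Mathlib.Tactic.LinearCombination
import Mathlib.Tactic.FinCases
import Mathlib.Tactic.NoncommRing

/-!
Commuting involutions in dimension `3`, and quadratic elements.
-/

set_option autoImplicit false

namespace Vale.Agent.P240.H138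

section
variable {R : Type*} [CommRing R]

lemma inv_alg {f g : R} (hf : f * f = 1) (hg : g * g = 1)
    (h : (2 - f - g) * (2 - f - g) = 0) : 16 * f = 16 := by
  have h1 : 6 - 4 * f - 4 * g + 2 * (f * g) = 0 := by
    linear_combination h - hf - hg
  have h2 : 6 * f - 4 - 4 * (f * g) + 2 * g = 0 := by
    linear_combination f * h1 + (4 - 2 * g) * hf
  have h3 : 6 * g - 4 * (f * g) - 4 + 2 * f = 0 := by
    linear_combination g * h1 + (4 - 2 * f) * hg
  have h4 : -2 * f - 6 * g + 8 = 0 := by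
    linear_combination h2 + 2 * h1
  have h5 : -6 * f - 2 * g + 8 = 0 := by
    linear_combination h3 + 2 * h1
  linear_combination h4 - 3 * h5

end

section
variable {K R : Type*} [Field K] [Ring R] [Algebra K R]

/-- commuting involutions `e`, `f = e e₁`, `g = e e₂` -/
lemma inv_alg' (h2 : (2 : K) ≠ 0) {f g : R} (hfg : f * g = g * f) (hf : f * f = 1) (hg : g * g = 1)
    (h : (2 - f - g) * (2 - f - g) = 0) : f = 1 := by
  have hc : ∀ x ∈ ({f, g} : Set R), ∀ y ∈ ({f, g} : Set R), x * y = y * x := by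
    rintro x (rfl | rfl) y (rfl | rfl)
    · rfl
    · exact hfg
    · exact hfg.symm
    · rfl
  letI := Subring.closureCommRingOfComm hc
  let f' : Subring.closure ({f, g} : Set R) := ⟨f, Subring.subset_closure (Or.inl rfl)⟩
  let g' : Subring.closure ({f, g} : Set R) := ⟨g, Subring.subset_closure (Or.inr rfl)⟩
  have h1 : 16 * f' = 16 := inv_alg (f := f') (g := g') (Subtype.ext hf) (Subtype.ext hg)
    (Subtype.ext h)
  have h3 : (16 : R) * f = 16 := congrArg Subtype.val h1
  have h16 : (16 : K) ≠ 0 := by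
    have : (16 : K) = 2 ^ 4 := by norm_num
    rw [this]
    exact pow_ne_zero 4 h2
  have h4 : (16 : K) • (f - 1) = 0 := by
    rw [Algebra.smul_def, map_ofNat, mul_sub, h3, mul_one, sub_self]
  rcases smul_eq_zero.1 h4 with h5 | h5
  · exact absurd h5 h16
  · exact sub_eq_zero.1 h5

/-- **quadratic elements**: `N ^ 2 = 0`, and `e`, `(1 + N) e (1 - N)`, `(1 - N) e (1 + N)` are commuting
involutions -/
theorem quad (h2 : (2 : K) ≠ 0) {N e e₁ e₂ : R} (hN : N * N = 0) (he : e * e = 1)
    (he₁ : e₁ * e₁ = 1) (he₂ : e₂ * e₂ = 1) (h01 : e * e₁ = e₁ * e) (h02 : e * e₂ = e₂ * e)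
    (h12 : e₁ * e₂ = e₂ * e₁) (h1 : e₁ = (1 + N) * e * (1 - N)) (h2' : e₂ = (1 - N) * e * (1 + N)) :
    e * N = N * e := by
  have h3 : e₁ + e₂ = 2 * e - 2 * (N * e * N) := by
    rw [h1, h2']
    noncomm_ring
  have h4 : (2 * e - e₁ - e₂) * (2 * e - e₁ - e₂) = 0 := by
    have h5 : 2 * e - e₁ - e₂ = 2 * (N * e * N) := by
      rw [sub_sub, h3]
      noncomm_ring
    rw [h5]
    have h6 : 2 * (N * e * N) * (2 * (N * e * N)) = 4 * (N * e * (N * N) * e * N) := by
      noncomm_ring
    rw [h6, hN]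
    simp
  have h5 : e * e₁ = 1 := by
    refine inv_alg' (K := K) h2 (f := e * e₁) (g := e * e₂) ?_ ?_ ?_ ?_
    · calc e * e₁ * (e * e₂) = e * (e₁ * e) * e₂ := by simp only [mul_assoc]
        _ = e * (e * e₁) * e₂ := by rw [h01]
        _ = e * e * (e₁ * e₂) := by simp only [mul_assoc]
        _ = e * e * (e₂ * e₁) := by rw [h12]
        _ = e * (e * e₂) * e₁ := by simp only [mul_assoc]
        _ = e * (e₂ * e) * e₁ := by rw [h02]
        _ = e * e₂ * (e * e₁) := by simp only [mul_assoc]
    · calc e * e₁ * (e * e₁) = e * (e₁ * e) * e₁ := by simp only [mul_assoc]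
        _ = e * (e * e₁) * e₁ := by rw [h01]
        _ = (e * e) * (e₁ * e₁) := by simp only [mul_assoc]
        _ = 1 := by rw [he, he₁, one_mul]
    · calc e * e₂ * (e * e₂) = e * (e₂ * e) * e₂ := by simp only [mul_assoc]
        _ = e * (e * e₂) * e₂ := by rw [h02]
        _ = (e * e) * (e₂ * e₂) := by simp only [mul_assoc]
        _ = 1 := by rw [he, he₂, one_mul]
    · have h6 : 2 - e * e₁ - e * e₂ = e * (2 * e - e₁ - e₂) := by
        have : e * (2 * e - e₁ - e₂) = 2 * (e * e) - e * e₁ - e * e₂ := by noncomm_ring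
        rw [this, he, mul_one]
      have h7 : e * (2 * e - e₁ - e₂) = (2 * e - e₁ - e₂) * e := by
        have : e * (2 * e - e₁ - e₂) = 2 * e * e - e * e₁ - e * e₂ := by noncomm_ring
        rw [this, h01, h02]
        noncomm_ring
      rw [h6]
      calc e * (2 * e - e₁ - e₂) * (e * (2 * e - e₁ - e₂)) =
          e * ((2 * e - e₁ - e₂) * e) * (2 * e - e₁ - e₂) := by simp only [mul_assoc]
        _ = e * (e * (2 * e - e₁ - e₂)) * (2 * e - e₁ - e₂) := by rw [h7]
        _ = e * e * ((2 * e - e₁ - e₂) * (2 * e - e₁ - e₂)) := by simp only [mul_assoc]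
        _ = 0 := by rw [h4, mul_zero]
  have h6 : e₁ = e := by
    calc e₁ = e * e * e₁ := by rw [he, one_mul]
      _ = e * (e * e₁) := by rw [mul_assoc]
      _ = e := by rw [h5, mul_one]
  have h7 : (1 - N) * (1 + N) = 1 := by
    have : (1 - N) * (1 + N) = 1 - N * N := by noncomm_ring
    rw [this, hN, sub_zero]
  have h8 : e * (1 + N) = (1 + N) * e := by
    calc e * (1 + N) = e₁ * (1 + N) := by rw [h6]
      _ = (1 + N) * e * ((1 - N) * (1 + N)) := by rw [h1]; simp only [mul_assoc]
      _ = (1 + N) * e := by rw [h7, mul_one]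
  rw [mul_add, add_mul, mul_one, one_mul] at h8
  exact add_left_cancel h8

end

section
variable {K V : Type*} [Field K] [AddCommGroup V] [Module K V] [FiniteDimensional K V]

lemma line_of (h2 : (2 : K) ≠ 0) (hd : Module.finrank K V = 3) {e : V →ₗ[K] V}
    (he : ∀ x, e (e x) = x) (h1 : e ≠ 1) (hm : e ≠ -1) :
    ∃ (α : K) (w : V), α * α = 1 ∧ w ≠ 0 ∧ e w = α • w ∧ ∀ x, e x = α • x → ∃ c : K, x = c • w := by
  -- the two eigenspaces
  have hsum : Module.finrank K (LinearMap.ker (e - 1)) + Module.finrank K (LinearMap.ker (e + 1)) =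
      3 := by
    have h3 : LinearMap.range (e - 1) = LinearMap.ker (e + 1) := by
      ext x
      rw [LinearMap.mem_range, LinearMap.mem_ker]
      constructor
      · rintro ⟨y, rfl⟩
        simp [he]
      · intro hx
        refine ⟨(-(2 : K)⁻¹) • x, ?_⟩
        have hx' : e x = -x := by
          rw [LinearMap.add_apply, Module.End.one_apply] at hx
          exact eq_neg_of_add_eq_zero_left hx
        rw [LinearMap.sub_apply, map_smul, hx', Module.End.one_apply, smul_neg, neg_smul, neg_neg,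
          sub_neg_eq_add, ← add_smul]
        have : (2 : K)⁻¹ + (2 : K)⁻¹ = 1 := by
          rw [← two_mul, mul_inv_cancel₀ h2]
        rw [this, one_smul]
    rw [← h3, add_comm, LinearMap.finrank_range_add_finrank_ker, hd]
  have hp : 0 < Module.finrank K (LinearMap.ker (e - 1)) := by
    rw [Module.finrank_pos_iff, Submodule.nontrivial_iff_ne_bot]
    intro h3
    apply hm
    ext x
    have h4 : e x + x ∈ LinearMap.ker (e - 1) := by
      rw [LinearMap.mem_ker]
      simp only [LinearMap.sub_apply, Module.End.one_apply, map_add, he]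
      abel
    rw [h3, Submodule.mem_bot] at h4
    rw [LinearMap.neg_apply, Module.End.one_apply]
    exact eq_neg_of_add_eq_zero_left h4
  have hq : 0 < Module.finrank K (LinearMap.ker (e + 1)) := by
    rw [Module.finrank_pos_iff, Submodule.nontrivial_iff_ne_bot]
    intro h3
    apply h1
    ext x
    have h4 : e x - x ∈ LinearMap.ker (e + 1) := by
      rw [LinearMap.mem_ker]
      simp only [LinearMap.add_apply, Module.End.one_apply, map_sub, he]
      abel
    rw [h3, Submodule.mem_bot] at h4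
    rw [Module.End.one_apply]
    exact sub_eq_zero.1 h4
  have key : ∀ S : Submodule K V, Module.finrank K S = 1 →
      ∃ w : V, w ≠ 0 ∧ w ∈ S ∧ ∀ x ∈ S, ∃ c : K, x = c • w := by
    intro S hS
    obtain ⟨⟨w, hw⟩, h3, h4⟩ := finrank_eq_one_iff'.1 hS
    refine ⟨w, fun h => h3 (Subtype.ext h), hw, fun x hx => ?_⟩
    obtain ⟨c, hc⟩ := h4 ⟨x, hx⟩
    exact ⟨c, (congrArg Subtype.val hc).symm⟩
  rcases (show Module.finrank K (LinearMap.ker (e - 1)) = 1 ∨
      Module.finrank K (LinearMap.ker (e + 1)) = 1 by omega) with h3 | h3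
  · obtain ⟨w, hw0, hw, hx⟩ := key _ h3
    refine ⟨1, w, one_mul 1, hw0, ?_, fun x hex => hx x ?_⟩
    · rw [LinearMap.mem_ker, LinearMap.sub_apply, Module.End.one_apply, sub_eq_zero] at hw
      rw [hw, one_smul]
    · rw [LinearMap.mem_ker, LinearMap.sub_apply, Module.End.one_apply, hex, one_smul, sub_self]
  · obtain ⟨w, hw0, hw, hx⟩ := key _ h3
    refine ⟨-1, w, by ring, hw0, ?_, fun x hex => hx x ?_⟩
    · rw [LinearMap.mem_ker, LinearMap.add_apply, Module.End.one_apply] at hw
      rw [eq_neg_of_add_eq_zero_left hw, neg_smul, one_smul]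
    · rw [LinearMap.mem_ker, LinearMap.add_apply, Module.End.one_apply, hex, neg_smul, one_smul,
        neg_add_cancel]

/-- **commuting involutions in dimension `3`**, permuted by `h` -/
theorem three (h2 : (2 : K) ≠ 0) (hd : Module.finrank K V = 3) {e₀ e₁ e₂ h : V →ₗ[K] V}
    (hinj : Function.Injective h) (he₀ : ∀ x, e₀ (e₀ x) = x) (he₁ : ∀ x, e₁ (e₁ x) = x)
    (he₂ : ∀ x, e₂ (e₂ x) = x) (h01 : ∀ x, e₀ (e₁ x) = e₁ (e₀ x)) (h02 : ∀ x, e₀ (e₂ x) = e₂ (e₀ x))
    (hh0 : ∀ x, h (e₀ x) = e₁ (h x))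
    (hh1 : ∀ x, h (e₁ x) = e₂ (h x)) :
    e₀ = 1 ∨ e₀ = -1 ∨ ∃ (w : V) (c : K), w ≠ 0 ∧ h (h (h (h (h (h w))))) = c • w := by
  by_cases h1 : e₀ = 1
  · exact Or.inl h1
  by_cases hm : e₀ = -1
  · exact Or.inr (Or.inl hm)
  right
  right
  obtain ⟨α, w, hα, hw, hew, hline⟩ := line_of h2 hd he₀ h1 hm
  refine ⟨w, ?_⟩
  have hα0 : α ≠ 0 := by
    rintro rfl
    simp at hα
  -- `h` and `h²` have the eigenvector `w`
  have case1 : ∀ c : K, h w = c • w → ∃ c : K, w ≠ 0 ∧ h (h (h (h (h (h w))))) = c • w := by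
    intro c hc
    refine ⟨c * c * c * c * c * c, hw, ?_⟩
    simp only [hc, map_smul, smul_smul]
  have case2 : ∀ c : K, h (h w) = c • w → ∃ c : K, w ≠ 0 ∧ h (h (h (h (h (h w))))) = c • w := by
    intro c hc
    refine ⟨c * c * c, hw, ?_⟩
    simp only [hc, map_smul, smul_smul]
  have case3 : ∀ c : K, h (h (h w)) = c • w →
      ∃ c : K, w ≠ 0 ∧ h (h (h (h (h (h w))))) = c • w := by
    intro c hc
    refine ⟨c * c, hw, ?_⟩
    simp only [hc, map_smul, smul_smul]
  -- eigenvalues on lines
  have pm : ∀ (e : V →ₗ[K] V) (y : V) (b : K), (∀ x, e (e x) = x) → y ≠ 0 → e y = b • y →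
      b = α ∨ b = -α := by
    intro e y b he hy heb
    have h3 : (b * b) • y = y := by rw [mul_smul, ← heb, ← map_smul, ← heb, he]
    have h4 : b * b = 1 := by
      have h5 : (b * b - 1) • y = 0 := by rw [sub_smul, h3, one_smul, sub_self]
      rcases smul_eq_zero.1 h5 with h6 | h6
      · exact sub_eq_zero.1 h6
      · exact absurd h6 hy
    have h5 : (b - α) * (b + α) = 0 := by linear_combination h4 - hα
    rcases mul_eq_zero.1 h5 with h6 | h6
    · exact Or.inl (sub_eq_zero.1 h6)
    · exact Or.inr (eq_neg_of_add_eq_zero_left h6)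
  have hline1 : ∀ x, e₁ x = α • x → ∃ c : K, x = c • h w := by
    intro x hx
    have hsurj : Function.Surjective h := LinearMap.injective_iff_surjective.1 hinj
    obtain ⟨y, rfl⟩ := hsurj x
    rw [← hh0, ← map_smul] at hx
    obtain ⟨c, hc⟩ := hline y (hinj hx)
    exact ⟨c, by rw [hc, map_smul]⟩
  have hline2 : ∀ x, e₂ x = α • x → ∃ c : K, x = c • h (h w) := by
    intro x hx
    have hsurj : Function.Surjective h := LinearMap.injective_iff_surjective.1 hinj
    obtain ⟨y, rfl⟩ := hsurj x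
    rw [← hh1, ← map_smul] at hx
    obtain ⟨c, hc⟩ := hline1 y (hinj hx)
    exact ⟨c, by rw [hc, map_smul]⟩
  have hw1 : h w ≠ 0 := fun h0 => hw (hinj (by rw [h0, map_zero]))
  have hw2 : h (h w) ≠ 0 := fun h0 => hw1 (hinj (by rw [h0, map_zero]))
  have e11 : e₁ (h w) = α • h w := by rw [← hh0, hew, map_smul]
  have e22 : e₂ (h (h w)) = α • h (h w) := by rw [← hh1, e11, map_smul]
  -- `e₁` on `w`
  have a10 : (∃ c : K, h w = c • w) ∨ e₁ w = (-α) • w := by
    obtain ⟨b, hb⟩ := hline (e₁ w) (by rw [h01, hew, map_smul])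
    rcases pm e₁ w b he₁ hw hb with rfl | rfl
    · left
      obtain ⟨c, hc⟩ := hline1 w hb
      have hc0 : c ≠ 0 := by
        rintro rfl
        exact hw (by rw [hc, zero_smul])
      exact ⟨c⁻¹, by rw [hc, smul_smul, ← hc, inv_mul_cancel₀ hc0, one_smul]⟩
    · exact Or.inr hb
  rcases a10 with ⟨c, hc⟩ | a10
  · exact case1 c hc
  have a01 : (∃ c : K, h w = c • w) ∨ e₀ (h w) = (-α) • h w := by
    obtain ⟨b, hb⟩ := hline1 (e₀ (h w)) (by rw [← h01, e11, map_smul])
    rcases pm e₀ (h w) b he₀ hw1 hb with rfl | rfl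
    · exact Or.inl (hline _ hb)
    · exact Or.inr hb
  rcases a01 with ⟨c, hc⟩ | a01
  · exact case1 c hc
  have a20 : (∃ c : K, h (h w) = c • w) ∨ e₂ w = (-α) • w := by
    obtain ⟨b, hb⟩ := hline (e₂ w) (by rw [h02, hew, map_smul])
    rcases pm e₂ w b he₂ hw hb with rfl | rfl
    · left
      obtain ⟨c, hc⟩ := hline2 w hb
      have hc0 : c ≠ 0 := by
        rintro rfl
        exact hw (by rw [hc, zero_smul])
      exact ⟨c⁻¹, by rw [hc, smul_smul, ← hc, inv_mul_cancel₀ hc0, one_smul]⟩
    · exact Or.inr hb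
  rcases a20 with ⟨c, hc⟩ | a20
  · exact case2 c hc
  have a02 : (∃ c : K, h (h w) = c • w) ∨ e₀ (h (h w)) = (-α) • h (h w) := by
    obtain ⟨b, hb⟩ := hline2 (e₀ (h (h w))) (by rw [← h02, e22, map_smul])
    rcases pm e₀ (h (h w)) b he₀ hw2 hb with rfl | rfl
    · exact Or.inl (hline _ hb)
    · exact Or.inr hb
  rcases a02 with ⟨c, hc⟩ | a02
  · exact case2 c hc
  have a21 : e₂ (h w) = (-α) • h w := by rw [← hh1, a10, map_smul]
  have a12 : e₁ (h (h w)) = (-α) • h (h w) := by rw [← hh0, a01, map_smul]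
  have a13 : e₁ (h (h (h w))) = (-α) • h (h (h w)) := by rw [← hh0, a02, map_smul]
  have a23 : e₂ (h (h (h w))) = (-α) • h (h (h w)) := by rw [← hh1, a12, map_smul]
  -- linear independence
  have hind : ∀ a b c : K, a • w + b • h w + c • h (h w) = 0 → a = 0 ∧ b = 0 ∧ c = 0 := by
    intro a b c habc
    have h3 := congrArg e₀ habc
    simp only [map_add, map_smul, hew, a01, a02, map_zero] at h3
    have h4 : (2 * α * a) • w = 0 := by
      have h5 : (2 * α * a) • w = (a • α • w + b • (-α) • h w + c • (-α) • h (h w)) +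
          α • (a • w + b • h w + c • h (h w)) := by module
      rw [h5, h3, habc, smul_zero, add_zero]
    have ha : a = 0 := by
      rcases smul_eq_zero.1 h4 with h5 | h5
      · rcases mul_eq_zero.1 h5 with h6 | h6
        · exact absurd h6 (mul_ne_zero h2 hα0)
        · exact h6
      · exact absurd h5 hw
    have h3' := congrArg e₁ habc
    simp only [map_add, map_smul, a10, e11, a12, map_zero] at h3'
    have h4' : (2 * α * b) • h w = 0 := by
      have h5 : (2 * α * b) • h w = (a • (-α) • w + b • α • h w + c • (-α) • h (h w)) +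
          α • (a • w + b • h w + c • h (h w)) := by module
      rw [h5, h3', habc, smul_zero, add_zero]
    have hb : b = 0 := by
      rcases smul_eq_zero.1 h4' with h5 | h5
      · rcases mul_eq_zero.1 h5 with h6 | h6
        · exact absurd h6 (mul_ne_zero h2 hα0)
        · exact h6
      · exact absurd h5 hw1
    refine ⟨ha, hb, ?_⟩
    rw [ha, hb, zero_smul, zero_smul, zero_add, zero_add] at habc
    rcases smul_eq_zero.1 habc with h5 | h5
    · exact h5
    · exact absurd h5 hw2
  have hli : LinearIndependent K ![w, h w, h (h w)] := by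
    rw [Fintype.linearIndependent_iff]
    intro g hg
    rw [Fin.sum_univ_three] at hg
    obtain ⟨h3, h4, h5⟩ := hind (g 0) (g 1) (g 2) hg
    intro i
    fin_cases i
    · exact h3
    · exact h4
    · exact h5
  have hspan : Submodule.span K (Set.range ![w, h w, h (h w)]) = ⊤ :=
    hli.span_eq_top_of_card_eq_finrank' (by rw [hd]; rfl)
  have hmem : h (h (h w)) ∈ Submodule.span K (Set.range ![w, h w, h (h w)]) := by
    rw [hspan]
    exact Submodule.mem_top
  rw [Submodule.mem_span_range_iff_exists_fun] at hmem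
  obtain ⟨g, hg⟩ := hmem
  rw [Fin.sum_univ_three] at hg
  change g 0 • w + g 1 • h w + g 2 • h (h w) = h (h (h w)) at hg
  have hb : g 1 = 0 := by
    have h3 := a13
    rw [← hg] at h3
    simp only [map_add, map_smul, a10, e11, a12] at h3
    have h4 : (0 : K) • w + (2 * α * g 1) • h w + (0 : K) • h (h w) = 0 := by
      have h5 : (0 : K) • w + (2 * α * g 1) • h w + (0 : K) • h (h w) =
        (g 0 • -α • w + g 1 • α • h w + g 2 • -α • h (h w)) -
          (-α) • (g 0 • w + g 1 • h w + g 2 • h (h w)) := by module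
      rw [h5, h3, sub_self]
    rcases mul_eq_zero.1 (hind _ _ _ h4).2.1 with h6 | h6
    · exact absurd h6 (mul_ne_zero h2 hα0)
    · exact h6
  have hc : g 2 = 0 := by
    have h3 := a23
    rw [← hg] at h3
    simp only [map_add, map_smul, a20, a21, e22] at h3
    have h4 : (0 : K) • w + (0 : K) • h w + (2 * α * g 2) • h (h w) = 0 := by
      have h5 : (0 : K) • w + (0 : K) • h w + (2 * α * g 2) • h (h w) =
        (g 0 • -α • w + g 1 • -α • h w + g 2 • α • h (h w)) -
          (-α) • (g 0 • w + g 1 • h w + g 2 • h (h w)) := by module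
      rw [h5, h3, sub_self]
    rcases mul_eq_zero.1 (hind _ _ _ h4).2.2 with h6 | h6
    · exact absurd h6 (mul_ne_zero h2 hα0)
    · exact h6
  refine case3 (g 0) ?_
  rw [← hg, hb, hc, zero_smul, zero_smul, add_zero, add_zero]

end

end Vale.Agent.P240.H138
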