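import Vale.Agent.P240.H138.Mem
import Vale.Agent.P240.H138.Three

/-!
Sets of commuting involutions of the `27`-dimensional module.
-/

set_option autoImplicit false

namespace Vale.Agent.P240.H138

open Matrix

section
variable {K : Type*} [Field K]

lemma NS_mulVec (f a b : Fin 3) (v : I → K) (c i j : Fin 3) : (mz K (NS f a b) *ᵥ v) (c, i, j) =
    (if c = f ∧ i = a then v (c, b, j) else 0) - (if c = f + 2 ∧ j = b then v (c, i, a) else 0) := by
  rw [mulVec, dotProduct, Fintype.sum_prod_type, Finset.sum_eq_single c]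
  · rw [Fintype.sum_prod_type]
    by_cases h1 : c = f
    · subst h1
      have h2 : c ≠ c + 2 := (f2_ne c).symm
      by_cases h3 : i = a
      · subst h3
        rw [Finset.sum_eq_single b, Finset.sum_eq_single j]
        · simp [mz_apply, NS, h2]
        · intro l _ hl
          simp [mz_apply, NS, h2, hl.symm]
        · simp
        · intro k _ hk
          refine Finset.sum_eq_zero fun l _ => ?_
          simp [mz_apply, NS, h2, hk]
        · simp
      · rw [Finset.sum_eq_zero]
        · simp [h3, h2]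
        · intro k _
          refine Finset.sum_eq_zero fun l _ => ?_
          simp [mz_apply, NS, h2, h3]
    · by_cases h2 : c = f + 2
      · by_cases h3 : j = b
        · rw [Finset.sum_eq_single i, Finset.sum_eq_single a]
          · simp [mz_apply, NS, h1, h2, h3]
          · intro l _ hl
            simp [mz_apply, NS, h1, hl]
          · simp
          · intro k _ hk
            refine Finset.sum_eq_zero fun l _ => ?_
            simp [mz_apply, NS, h1, hk.symm]
          · simp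
        · rw [Finset.sum_eq_zero]
          · simp [h1, h3]
          · intro k _
            refine Finset.sum_eq_zero fun l _ => ?_
            simp [mz_apply, NS, h1, h3]
      · rw [Finset.sum_eq_zero]
        · simp [h1, h2]
        · intro k _
          refine Finset.sum_eq_zero fun l _ => ?_
          simp [mz_apply, NS, h1, h2]
  · intro d _ hd
    rw [Fintype.sum_prod_type]
    refine Finset.sum_eq_zero fun k _ => Finset.sum_eq_zero fun l _ => ?_
    have h1 : ¬ (c = f ∧ d = f) := fun h => hd (h.2.trans h.1.symm)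
    have h2 : ¬ (c = f + 2 ∧ d = f + 2) := fun h => hd (h.2.trans h.1.symm)
    have h3 : NS f a b (c, i, j) (d, k, l) = 0 := by
      simp only [NS]
      rw [if_neg (fun h => h1 ⟨h.1, h.2.1⟩), if_neg (fun h => h2 ⟨h.1, h.2.1⟩)]
    rw [mz_apply, map_apply, h3, Int.cast_zero, zero_mul]
  · intro h
    exact absurd (Finset.mem_univ _) h

/-- `x_{12}` -/
def x12 (K : Type*) [Field K] : Matrix I I K := mz K (NS 0 0 1)

/-- `x_{23}` -/
def x23 (K : Type*) [Field K] : Matrix I I K := mz K (NS 0 1 2)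

lemma x12_mulVec (v : I → K) (c i j : Fin 3) : (x12 K *ᵥ v) (c, i, j) =
    (if c = 0 ∧ i = 0 then v (c, 1, j) else 0) - (if c = 2 ∧ j = 1 then v (c, i, 0) else 0) :=
  NS_mulVec 0 0 1 v c i j

lemma x23_mulVec (v : I → K) (c i j : Fin 3) : (x23 K *ᵥ v) (c, i, j) =
    (if c = 0 ∧ i = 1 then v (c, 2, j) else 0) - (if c = 2 ∧ j = 2 then v (c, i, 1) else 0) :=
  NS_mulVec 0 1 2 v c i j

/-- the first row of `A` -/
def iA : (Fin 3 → K) →ₗ[K] (I → K) where
  toFun a p := if p.1 = 0 ∧ p.2.1 = 0 then a p.2.2 else 0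
  map_add' a b := by
    ext p
    simp only [Pi.add_apply]
    split_ifs <;> simp
  map_smul' c a := by
    ext p
    simp only [Pi.smul_apply, smul_eq_mul, RingHom.id_apply]
    split_ifs <;> simp

/-- the last column of `C` -/
def iC : (Fin 3 → K) →ₗ[K] (I → K) where
  toFun a p := if p.1 = 2 ∧ p.2.2 = 2 then a p.2.1 else 0
  map_add' a b := by
    ext p
    simp only [Pi.add_apply]
    split_ifs <;> simp
  map_smul' c a := by
    ext p
    simp only [Pi.smul_apply, smul_eq_mul, RingHom.id_apply]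
    split_ifs <;> simp

lemma iA_apply (a : Fin 3 → K) (c i j : Fin 3) : iA a (c, i, j) = if c = 0 ∧ i = 0 then a j else 0 :=
  rfl

lemma iC_apply (a : Fin 3 → K) (c i j : Fin 3) : iC a (c, i, j) = if c = 2 ∧ j = 2 then a i else 0 :=
  rfl

/-- the coordinates -/
def rA : (I → K) →ₗ[K] (Fin 3 → K) where
  toFun v j := v (0, 0, j)
  map_add' _ _ := rfl
  map_smul' _ _ := rfl

/-- the coordinates -/
def rC : (I → K) →ₗ[K] (Fin 3 → K) where
  toFun v i := v (2, i, 2)
  map_add' _ _ := rfl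
  map_smul' _ _ := rfl

lemma rA_iA (a : Fin 3 → K) : rA (iA a) = a := rfl

lemma rC_iC (a : Fin 3 → K) : rC (iC a) = a := rfl

lemma PA_eq (v : I → K) : x12 K *ᵥ (x23 K *ᵥ v) = iA (fun j => v (0, 2, j)) := by
  ext ⟨c, i, j⟩
  rw [x12_mulVec, x23_mulVec, x23_mulVec, iA_apply]
  fin_cases c <;> fin_cases i <;> fin_cases j <;> simp

lemma PC_eq (v : I → K) : x23 K *ᵥ (x12 K *ᵥ v) = iC (fun i => v (2, i, 0)) := by
  ext ⟨c, i, j⟩
  rw [x23_mulVec, x12_mulVec, x12_mulVec, iC_apply]
  fin_cases c <;> fin_cases i <;> fin_cases j <;> simp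

/-- the polarization of the cubic form -/
def N3 (u v w : I → K) : K :=
  Nf (u + v + w) - Nf (u + v) - Nf (u + w) - Nf (v + w) + Nf u + Nf v + Nf w

lemma N3_inv {e : Matrix I I K} (h : ∀ v, Nf (e *ᵥ v) = Nf v) (u v w : I → K) :
    N3 (e *ᵥ u) (e *ᵥ v) (e *ᵥ w) = N3 u v w := by
  simp only [N3, ← mulVec_add, h]

lemma N3_eval1 (α : K) (γ : Fin 3 → K) (w : I → K) (hw : ∀ j, w (0, 2, j) = if j = 2 then α else 0) :
    N3 (fun p => if p.1 = 0 ∧ p.2.1 = 0 ∧ p.2.2 = 0 then α else 0)
      (fun p => if p.1 = 0 ∧ p.2.1 = 1 ∧ p.2.2 = 1 then α else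
        if p.1 = 2 ∧ p.2.2 = 2 then γ p.2.1 else 0) w = α * α * α := by
  simp [N3, Nf, det_fin_three, trace, mul_apply, Fin.sum_univ_three, blk, hw]
  ring

lemma N3_eval2 (α : K) (γ : Fin 3 → K) (w : I → K) (hw : ∀ i, w (2, i, 0) = if i = 0 then α else 0) :
    N3 (fun p => if p.1 = 2 ∧ p.2.1 = 2 ∧ p.2.2 = 2 then α else 0)
      (fun p => if p.1 = 2 ∧ p.2.1 = 1 ∧ p.2.2 = 1 then α else
        if p.1 = 0 ∧ p.2.1 = 0 then γ p.2.2 else 0) w = α * α * α := by
  simp [N3, Nf, det_fin_three, trace, mul_apply, Fin.sum_univ_three, blk, hw]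
  ring

lemma N3_eval3 (a : Fin 3 → K) (u w : I → K) (h1 : ∀ j, w (0, 1, j) = 0) (h2 : ∀ j, w (0, 2, j) = 0)
    (h3 : ∀ i, w (2, i, 0) = 0) (h4 : ∀ i, w (2, i, 1) = 0) :
    N3 (iA a) u w = -∑ j, ∑ k, a j * w (1, j, k) * u (2, k, 0) := by
  simp [N3, Nf, det_fin_three, trace, mul_apply, Fin.sum_univ_three, blk, h1, h2, h3, h4, iA_apply]
  ring

end

end Vale.Agent.P240.H138
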